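import Vale.Agent.P315Z.Pred

/-! P315Z: the total loss of one epoch (energy accounting). -/

set_option autoImplicit false

namespace Vale.Agent.P315Z

open Finset

variable {P : Par} {c : ℕ → ℕ → ℕ} {z : ℕ → ℕ} {d : ℕ} {R D1 : Cell → ℕ}

/-- The sum over all inner nodes. -/
noncomputable def acT (P : Par) (f : ℕ → ℕ → ℝ) : ℝ := ∑ j ∈ Icc 1 P.k, lsum P f j

theorem ac_lsum_le {f g : ℕ → ℕ → ℝ} {j : ℕ} (hj : j ≤ P.k)
    (h : ∀ i, Node P j i → f j i ≤ g j i) : lsum P f j ≤ lsum P g j :=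
  sum_le_sum fun i hi => h i ⟨hj, mem_range.1 hi⟩

theorem ac_lsum_nonneg {f : ℕ → ℕ → ℝ} (j : ℕ) (h : ∀ j i, 0 ≤ f j i) : 0 ≤ lsum P f j :=
  sum_nonneg fun i _ => h j i

theorem acT_le {f g : ℕ → ℕ → ℝ} (h : ∀ j i, Node P j i → j ≠ 0 → f j i ≤ g j i) :
    acT P f ≤ acT P g := by
  refine sum_le_sum fun j hj => ?_
  have h1 := mem_Icc.1 hj
  exact ac_lsum_le h1.2 fun i hi => h j i hi (by omega)

theorem acT_add (f g : ℕ → ℕ → ℝ) : acT P (fun j i => f j i + g j i) = acT P f + acT P g := by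
  unfold acT lsum
  simp only [sum_add_distrib]

theorem acT_sub (f g : ℕ → ℕ → ℝ) : acT P (fun j i => f j i - g j i) = acT P f - acT P g := by
  unfold acT lsum
  simp only [sum_sub_distrib]

theorem acT_mul (a : ℝ) (f : ℕ → ℕ → ℝ) : acT P (fun j i => a * f j i) = a * acT P f := by
  unfold acT lsum
  simp only [mul_sum]

theorem ac_Icc (F : ℕ → ℝ) (k : ℕ) : ∑ j ∈ range (k + 1), F j = F 0 + ∑ j ∈ Icc 1 k, F j := by
  induction k with
  | zero => simp
  | succ k ih => rw [sum_range_succ, ih, sum_Icc_succ_top (by omega)]; ring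

theorem ac_Icc_pred (F : ℕ → ℝ) (k : ℕ) : ∑ j ∈ Icc 1 k, F (j - 1) = ∑ j ∈ range k, F j := by
  induction k with
  | zero => simp
  | succ k ih => rw [sum_range_succ, ← ih, sum_Icc_succ_top (by omega)]; simp

/-- The sum over all children of inner nodes. -/
theorem acT_child (f : ℕ → ℕ → ℝ) :
    acT P (fun j i => ∑ r ∈ range P.B, f (j - 1) (i * P.B + r)) =
      lsum P f 0 + acT P f - lsum P f P.k := by
  have h1 : acT P (fun j i => ∑ r ∈ range P.B, f (j - 1) (i * P.B + r)) =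
      ∑ j ∈ Icc 1 P.k, lsum P f (j - 1) := by
    refine sum_congr rfl fun j hj => ?_
    have h2 := mem_Icc.1 hj
    rw [lsum_child f (by omega) h2.2]
  have h2 := ac_Icc (fun j => lsum P f j) P.k
  rw [sum_range_succ] at h2
  rw [h1, ac_Icc_pred (fun j => lsum P f j)]
  unfold acT
  linarith

theorem ac_ggs : ggs P c z =
    lsum P (fun j i => (gg P c z j i : ℝ)) 0 + acT P (fun j i => (gg P c z j i : ℝ)) :=
  ac_Icc (fun j => lsum P (fun j i => (gg P c z j i : ℝ)) j) P.k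

theorem ac_gg0 (j : ℕ) : 0 ≤ lsum P (fun j i => (gg P c z j i : ℝ)) j :=
  ac_lsum_nonneg j fun _ _ => Nat.cast_nonneg _

theorem ac_ggT0 : 0 ≤ acT P (fun j i => (gg P c z j i : ℝ)) :=
  sum_nonneg fun j _ => ac_gg0 j

theorem ac_ggT : acT P (fun j i => (gg P c z j i : ℝ)) ≤ ggs P c z := by
  have h1 := ac_ggs (P := P) (c := c) (z := z)
  have h2 := ac_gg0 (P := P) (c := c) (z := z) 0
  linarith

theorem ac_ggC : acT P (fun j i => ∑ r ∈ range P.B, (gg P c z (j - 1) (i * P.B + r) : ℝ)) ≤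
    ggs P c z := by
  rw [acT_child (fun j i => (gg P c z j i : ℝ)), ac_ggs]
  have h2 := ac_gg0 (P := P) (c := c) (z := z) P.k
  linarith

theorem ac_xs (D : Cell → ℕ) : xs P c z D = acT P (fun j i => (D (cs P c z j i) : ℝ)) := rfl

theorem ac_D_le (hR : RefOk P c z R D1) {j i : ℕ} (hn : Node P j i) (hj : j ≠ 0) :
    D1 (cs P c z j i) ≤ ssum P c z R j i + 2 * gg P c z j i := by
  have h1 := hR.dp j i hn hj
  have h2 := phi_le_cs (c := c) (z := z) hn hj R
  unfold ssum wh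
  unfold jj at h2
  rw [sum_add_distrib, ← mul_sum]
  omega

/-- The gap of a node. -/
noncomputable def acG (P : Par) (c : ℕ → ℕ → ℕ) (z : ℕ → ℕ) (R D1 : Cell → ℕ) (j i : ℕ) : ℝ :=
  (ssum P c z R j i : ℝ) + 2 * gg P c z j i - D1 (cs P c z j i)

theorem acG_nonneg (hR : RefOk P c z R D1) {j i : ℕ} (hn : Node P j i) (hj : j ≠ 0) :
    0 ≤ acG P c z R D1 j i := by
  have h1 : (D1 (cs P c z j i) : ℝ) ≤ ssum P c z R j i + 2 * gg P c z j i := by
    exact_mod_cast ac_D_le hR hn hj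
  unfold acG
  linarith

/-- The total gap. -/
theorem gap_sum (h : PathOk P c z d) (hR : RefOk P c z R D1) :
    ∑ j ∈ Icc 1 P.k, lsum P (fun j i => (ssum P c z R j i : ℝ) + 2 * gg P c z j i -
      D1 (cs P c z j i)) j ≤ d + 7 * ggs P c z + (xs P c z R - xs P c z D1) := by
  have e1 : (fun j i => (ssum P c z R j i : ℝ) + 2 * gg P c z j i - D1 (cs P c z j i)) =
      fun j i => ((∑ r ∈ range P.B, (R (cs P c z (j - 1) (i * P.B + r)) : ℝ) +
        2 * ∑ r ∈ range P.B, (gg P c z (j - 1) (i * P.B + r) : ℝ)) + 2 * (gg P c z j i : ℝ)) -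
        (D1 (cs P c z j i) : ℝ) := by
    funext j i
    unfold ssum wh
    push_cast
    rw [sum_add_distrib, mul_sum]
  show acT P _ ≤ _
  rw [e1, acT_sub, acT_add, acT_add, acT_mul, acT_mul,
    acT_child (fun j i => (R (cs P c z j i) : ℝ)), ac_xs, ac_xs]
  have h1 := ac_ggC (P := P) (c := c) (z := z)
  have h2 := ac_ggT (P := P) (c := c) (z := z)
  have h3 : 0 ≤ lsum P (fun j i => (R (cs P c z j i) : ℝ)) P.k :=
    ac_lsum_nonneg _ fun _ _ => Nat.cast_nonneg _
  have h4 : lsum P (fun j i => (R (cs P c z j i) : ℝ)) 0 ≤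
      lsum P (fun j i => (mu P c z j i : ℝ) + 3 * (gg P c z j i : ℝ)) 0 :=
    ac_lsum_le (Nat.zero_le _) fun i hi => by exact_mod_cast hR.leaf i hi
  have h5 : lsum P (fun j i => (mu P c z j i : ℝ) + 3 * (gg P c z j i : ℝ)) 0 =
      lsum P (fun j i => (mu P c z j i : ℝ)) 0 + 3 * lsum P (fun j i => (gg P c z j i : ℝ)) 0 := by
    unfold lsum
    rw [sum_add_distrib, mul_sum]
  have h6 := lsum_mu h (Nat.zero_le P.k)
  have h7 := ac_ggs (P := P) (c := c) (z := z)
  have h8 := ac_ggT0 (P := P) (c := c) (z := z)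
  linarith

theorem ac_energy {a w s g : ℝ} (hw : |a| ≤ w) (hs : |a| ≤ s) (hg : 0 ≤ g) (hg' : s - w ≤ g) :
    a ^ 2 / w - a ^ 2 / s ≤ g := by
  have h0 := abs_nonneg a
  rcases h0.eq_or_lt with h1 | h1
  · have h2 : a = 0 := abs_eq_zero.1 h1.symm
    simpa [h2] using hg
  · have hw0 : 0 < w := by linarith
    have hs0 : 0 < s := by linarith
    have h3 : a ^ 2 ≤ w * s := by
      rw [← sq_abs, sq]
      exact mul_le_mul hw hs h0 hw0.le
    rw [div_sub_div _ _ hw0.ne' hs0.ne', div_le_iff₀ (mul_pos hw0 hs0)]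
    have h4 := sq_nonneg a
    calc a ^ 2 * s - w * a ^ 2 = a ^ 2 * (s - w) := by ring
      _ ≤ a ^ 2 * g := mul_le_mul_of_nonneg_left hg' h4
      _ ≤ w * s * g := mul_le_mul_of_nonneg_right h3 hg
      _ = g * (w * s) := by ring

theorem ac_sq_div {a w : ℝ} (hw : |a| ≤ w) : a ^ 2 / w ≤ |a| := by
  have h0 := abs_nonneg a
  rcases (h0.trans hw).eq_or_lt with h1 | h1
  · rw [← h1, div_zero]
    exact h0
  · rw [div_le_iff₀ h1, ← sq_abs, sq]
    exact mul_le_mul_of_nonneg_left hw h0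

theorem ac_dz_ssum (h : PathOk P c z d) (hR : RefOk P c z R D1) {j i : ℕ} (hn : Node P j i)
    (hj : j ≠ 0) : |dz P z j i| ≤ ssum P c z R j i := by
  rw [dz_child hj]
  unfold ssum
  push_cast
  exact (abs_sum_le_sum_abs _ _).trans
    (sum_le_sum fun r hr => abs_dz_le h hR (hn.child hj (mem_range.1 hr)))

theorem ac_dz_mu (j i : ℕ) : |dz P z j i| ≤ mu P c z j i := by
  have h1 := dist_le_mu (P := P) (c := c) (z := z) (j := j) (i := i) (a := (i + 1) * P.B ^ j)
    (Nat.mul_le_mul_right _ (by omega)) le_rfl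
  unfold dz
  generalize z ((i + 1) * P.B ^ j) = a at h1 ⊢
  generalize z (i * P.B ^ j) = b at h1 ⊢
  have h2 : a ≤ b + mu P c z j i := by
    unfold Nat.dist at h1
    omega
  have h3 : b ≤ a + mu P c z j i := by
    unfold Nat.dist at h1
    omega
  have h2' : (a : ℝ) ≤ b + mu P c z j i := by exact_mod_cast h2
  have h3' : (b : ℝ) ≤ a + mu P c z j i := by exact_mod_cast h3
  rw [abs_le]
  constructor <;> linarith

/-- The total gain of energy. -/
theorem inc_sum (h : PathOk P c z d) (hR : RefOk P c z R D1) :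
    ∑ j ∈ Icc 1 P.k, lsum P (inc P c z R) j ≤
      2 * d + 7 * ggs P c z + (xs P c z R - xs P c z D1) := by
  have h1 : acT P (inc P c z R) ≤ acT P (fun j i =>
      (∑ r ∈ range P.B, dz P z (j - 1) (i * P.B + r) ^ 2 / wh P c z R (j - 1) (i * P.B + r) -
        dz P z j i ^ 2 / wh P c z R j i) + acG P c z R D1 j i) := by
    refine acT_le fun j i hn hj => ?_
    have h2 : (D1 (cs P c z j i) : ℝ) ≤ R (cs P c z j i) := by exact_mod_cast hR.mono j i hn
    have h3 : (0 : ℝ) ≤ gg P c z j i := Nat.cast_nonneg _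
    have h4 := ac_energy (abs_dz_le h hR hn) (ac_dz_ssum h hR hn hj) (acG_nonneg hR hn hj) (by
      unfold acG wh
      push_cast
      linarith)
    unfold inc
    linarith
  rw [acT_add, acT_sub, acT_child (fun j i => dz P z j i ^ 2 / wh P c z R j i)] at h1
  have h2 : acT P (acG P c z R D1) ≤ _ := gap_sum h hR
  have h3 : 0 ≤ lsum P (fun j i => dz P z j i ^ 2 / wh P c z R j i) P.k :=
    ac_lsum_nonneg _ fun _ _ => div_nonneg (sq_nonneg _) (Nat.cast_nonneg _)
  have h4 : lsum P (fun j i => dz P z j i ^ 2 / wh P c z R j i) 0 ≤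
      lsum P (fun j i => (mu P c z j i : ℝ)) 0 :=
    ac_lsum_le (Nat.zero_le _) fun i hi => (ac_sq_div (abs_dz_le h hR hi)).trans (ac_dz_mu 0 i)
  have h5 := lsum_mu h (Nat.zero_le P.k)
  show acT P _ ≤ _
  linarith

/-- The share of the parent. -/
noncomputable def acU (P : Par) (c : ℕ → ℕ → ℕ) (z : ℕ → ℕ) (R : Cell → ℕ) (j i : ℕ) : ℝ :=
  if j < P.k then (R (cs P c z (j + 1) (i / P.B)) : ℝ) / P.BK else 0

theorem acU_nonneg (j i : ℕ) : 0 ≤ acU P c z R j i := by
  unfold acU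
  split_ifs
  · positivity
  · exact le_rfl

theorem acU_sum (hP : P.Ok) : acT P (acU P c z R) ≤ 1 / (P.gd : ℝ) * xs P c z R := by
  have h1 := acT_child (P := P) (acU P c z R)
  have h2 : lsum P (acU P c z R) P.k = 0 := by
    rw [lsum_top]
    unfold acU
    rw [if_neg (lt_irrefl _)]
  have h3 : 0 ≤ lsum P (acU P c z R) 0 := ac_lsum_nonneg _ acU_nonneg
  have hB := cmp_B_pos P
  have hg : (0 : ℝ) < P.gd := by
    unfold Par.gd
    positivity
  have hK : (P.B : ℝ) * P.gd ≤ P.BK := by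
    have h4 : P.B * P.gd ≤ P.BK := by
      unfold Par.B Par.gd Par.BK Par.h2
      rw [← pow_add]
      have := hP.hK
      exact Nat.pow_le_pow_right (by norm_num) (by omega)
    exact_mod_cast h4
  have hB' : (0 : ℝ) < P.B := by exact_mod_cast hB
  have hBK : (0 : ℝ) < P.BK := lt_of_lt_of_le (mul_pos hB' hg) hK
  have h4 : acT P (fun j i => ∑ r ∈ range P.B, acU P c z R (j - 1) (i * P.B + r)) ≤
      acT P (fun j i => 1 / (P.gd : ℝ) * (R (cs P c z j i) : ℝ)) := by
    refine acT_le fun j i hn hj => ?_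
    have h5 : ∀ r ∈ range P.B, acU P c z R (j - 1) (i * P.B + r) =
        (R (cs P c z j i) : ℝ) / P.BK := by
      intro r hr
      have h6 := hn.1
      unfold acU
      rw [if_pos (by omega), show j - 1 + 1 = j by omega,
        show (i * P.B + r) / P.B = i by
          rw [Nat.add_comm, Nat.add_mul_div_right _ _ hB, Nat.div_eq_of_lt (mem_range.1 hr),
            zero_add]]
    rw [sum_congr rfl h5, sum_const, card_range, nsmul_eq_mul, ← mul_div_assoc, one_div,
      ← div_eq_inv_mul, div_le_div_iff₀ hBK hg]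
    have h7 : (0 : ℝ) ≤ R (cs P c z j i) := Nat.cast_nonneg _
    calc (P.B : ℝ) * R (cs P c z j i) * P.gd = R (cs P c z j i) * (P.B * P.gd) := by ring
      _ ≤ _ := mul_le_mul_of_nonneg_left hK h7
  rw [acT_mul, ← ac_xs] at h4
  linarith

/-- The loss of one node. -/
theorem ac_node (hP : P.Ok) (h : PathOk P c z d) (hR : RefOk P c z R D1) {j i : ℕ}
    (hn : Node P j i) (hj : j ≠ 0) :
    loss P c z R D1 j i ≤ 6 / (P.gd : ℝ) * R (cs P c z j i) +
      2 ^ (2 * P.leta) * acG P c z R D1 j i +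
      2 ^ (2 * P.leta) * ((R (cs P c z j i) : ℝ) - D1 (cs P c z j i)) +
      2 ^ (2 * P.leta) * inc P c z R j i + 4 * 2 ^ (2 * P.leta) * (gg P c z j i : ℝ) +
      acU P c z R j i := by
  have hg1 : 1 ≤ P.gd := Nat.one_le_two_pow
  have hg : (0 : ℝ) < P.gd := by exact_mod_cast hg1
  have hG := acG_nonneg hR hn hj
  have hmono := hR.mono j i hn
  have hD : (0 : ℝ) ≤ (R (cs P c z j i) : ℝ) - D1 (cs P c z j i) := by
    have : (D1 (cs P c z j i) : ℝ) ≤ R (cs P c z j i) := by exact_mod_cast hmono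
    linarith
  have hI := inc_nonneg h hR hn hj
  have hgg : (0 : ℝ) ≤ gg P c z j i := Nat.cast_nonneg _
  have hU := acU_nonneg (P := P) (c := c) (z := z) (R := R) j i
  have hw : (0 : ℝ) ≤ R (cs P c z j i) := Nat.cast_nonneg _
  have hdist : (0 : ℝ) ≤ Nat.dist (cs P c z j i).p (cs P c z j i).q := Nat.cast_nonneg _
  have he1 : (1 : ℝ) ≤ 2 ^ (2 * P.leta) := one_le_pow₀ (by norm_num)
  have he2 : (2 : ℝ) ^ P.leta ≤ 2 ^ (2 * P.leta) := pow_le_pow_right₀ (by norm_num) (by omega)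
  have hw6 : (0 : ℝ) ≤ 1 / (P.gd : ℝ) * R (cs P c z j i) := by positivity
  have e6 : 6 / (P.gd : ℝ) * R (cs P c z j i) = 6 * (1 / (P.gd : ℝ) * R (cs P c z j i)) := by ring
  have p1 := mul_nonneg (zero_le_one.trans he1) hG
  have p2 := mul_nonneg (zero_le_one.trans he1) hD
  have p3 := mul_nonneg (zero_le_one.trans he1) hI
  have p4 := mul_le_mul_of_nonneg_right he1 hgg
  rw [e6, mul_assoc (4 : ℝ)]
  unfold loss
  split_ifs with hF
  · have e5 : 5 / (P.gd : ℝ) * R (cs P c z j i) = 5 * (1 / (P.gd : ℝ) * R (cs P c z j i)) := by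
      ring
    rw [e5]
    linarith
  · by_cases h1 : 0 < R (cs P c z j i)
    swap
    · have h2 : (R (cs P c z j i) : ℝ) = 0 := by exact_mod_cast (by omega)
      linarith
    by_cases h2 : 2 ^ P.leta * (ssum P c z R j i + 2 * gg P c z j i - D1 (cs P c z j i)) ≤
        R (cs P c z j i)
    swap
    · have h3 : (R (cs P c z j i) : ℝ) ≤ 2 ^ P.leta * acG P c z R D1 j i := by
        have h4 := (Nat.cast_le (α := ℝ)).2 (not_le.1 h2).le
        rw [Nat.cast_mul, Nat.cast_sub (ac_D_le hR hn hj)] at h4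
        push_cast at h4
        exact h4
      have h4 := mul_le_mul_of_nonneg_right he2 hG
      linarith
    by_cases h3 : 2 ^ P.leta * (R (cs P c z j i) - D1 (cs P c z j i)) ≤ R (cs P c z j i)
    swap
    · have h4 := (Nat.cast_le (α := ℝ)).2 (not_le.1 h3).le
      rw [Nat.cast_mul, Nat.cast_sub hmono] at h4
      push_cast at h4
      have h5 := mul_le_mul_of_nonneg_right he2 hD
      linarith
    by_cases h4 : (2 : ℝ) ^ (2 * P.leta) * inc P c z R j i ≤ ssum P c z R j i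
    swap
    · have h5 := (not_le.1 h4).le
      unfold acG at hG
      linarith
    by_cases h5 : P.gd * Nat.dist (cs P c z j i).p (cs P c z j i).q ≤
        (P.gd - 1) * phi P R (cs P c z j i) P.B (cs P c z j i).q
    swap
    · have h6 : (P.gd - 1) * D1 (cs P c z j i) ≤
          P.gd * Nat.dist (cs P c z j i).p (cs P c z j i).q :=
        (Nat.mul_le_mul_left _ (hR.dp j i hn hj)).trans (not_le.1 h5).le
      have h7 := (Nat.cast_le (α := ℝ)).2 h6
      rw [Nat.cast_mul, Nat.cast_mul, Nat.cast_sub hg1, Nat.cast_one] at h7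
      have h8 : (D1 (cs P c z j i) : ℝ) - Nat.dist (cs P c z j i).p (cs P c z j i).q ≤
          1 / (P.gd : ℝ) * R (cs P c z j i) := by
        rw [one_div, ← div_eq_inv_mul, le_div_iff₀ hg]
        linarith
      linarith
    by_cases h6 : 2 ^ P.leta * gg P c z j i ≤ R (cs P c z j i)
    swap
    · have h7 := (Nat.cast_le (α := ℝ)).2 (not_le.1 h6).le
      push_cast at h7
      have h8 := mul_le_mul_of_nonneg_right he2 hgg
      linarith
    have hGood : Good P c z R D1 j i := ⟨hj, h1, h2, h3, h4, h5, h6⟩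
    have hl : 8 * (P.BK * R (cs P c z j i)) < 2 ^ dress P c z R D1 j i := by
      by_contra h7
      exact hF ⟨hGood, not_lt.1 h7⟩
    obtain ⟨hk, h7⟩ := light_le hP h hR hn h1 hl
    have hBK : (0 : ℝ) < P.BK := by
      unfold Par.BK
      positivity
    have h8 : (R (cs P c z j i) : ℝ) ≤ gg P c z j i + acU P c z R j i := by
      unfold acU
      rw [if_pos hk]
      have h9 := (Nat.cast_le (α := ℝ)).2 h7
      push_cast at h9
      rw [← sub_le_iff_le_add', le_div_iff₀ hBK]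
      linarith
    linarith

/-- The total loss. -/
theorem acc (hP : P.Ok) (h : PathOk P c z d) (hR : RefOk P c z R D1) :
    ∑ j ∈ Icc 1 P.k, lsum P (loss P c z R D1) j ≤ 7 / (P.gd : ℝ) * xs P c z R +
      20 * 2 ^ (2 * P.leta) * (d + ggs P c z + (xs P c z R - xs P c z D1)) := by
  have h1 := acT_le (P := P) (f := loss P c z R D1) fun j i hn hj => ac_node hP h hR hn hj
  rw [acT_add, acT_add, acT_add, acT_add, acT_add, acT_mul, acT_mul, acT_mul, acT_mul, acT_mul,
    acT_sub, ← ac_xs, ← ac_xs] at h1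
  have h2 : acT P (acG P c z R D1) ≤ _ := gap_sum h hR
  have h3 : acT P (inc P c z R) ≤ _ := inc_sum h hR
  have h4 := ac_ggT (P := P) (c := c) (z := z)
  have h5 := acU_sum (c := c) (z := z) (R := R) hP
  have h6 : xs P c z D1 ≤ xs P c z R :=
    acT_le fun j i hn _ => by exact_mod_cast hR.mono j i hn
  have h7 := (ac_ggT0 (P := P) (c := c) (z := z)).trans h4
  have h8 : (0 : ℝ) ≤ d := Nat.cast_nonneg _
  have he : (0 : ℝ) ≤ 2 ^ (2 * P.leta) := by positivity
  have q2 := mul_le_mul_of_nonneg_left h2 he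
  have q3 := mul_le_mul_of_nonneg_left h3 he
  have q4 := mul_le_mul_of_nonneg_left h4 he
  have q6 := mul_nonneg he (sub_nonneg.2 h6)
  have q7 := mul_nonneg he h7
  have q8 := mul_nonneg he h8
  have e7 : 7 / (P.gd : ℝ) * xs P c z R =
      6 / (P.gd : ℝ) * xs P c z R + 1 / (P.gd : ℝ) * xs P c z R := by ring
  show acT P _ ≤ _
  rw [e7]
  nlinarith

theorem loss_nonneg (hR : RefOk P c z R D1) {j i : ℕ} (hn : Node P j i) :
    0 ≤ loss P c z R D1 j i := by
  unfold loss
  split_ifs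
  · positivity
  · have h1 : ((Nat.dist (cs P c z j i).p (cs P c z j i).q : ℕ) : ℝ) ≤ D1 (cs P c z j i) := by
      exact_mod_cast hR.dist_le1 j i hn
    linarith

theorem jj_sum : ∑ j ∈ Icc 1 P.k, lsum P (fun j i => (jj P c z j i : ℝ)) j ≤ 4 * ggs P c z := by
  have e1 : (fun j i => (jj P c z j i : ℝ)) = fun j i => 2 * (gg P c z j i : ℝ) +
      2 * ∑ r ∈ range P.B, (gg P c z (j - 1) (i * P.B + r) : ℝ) := by
    funext j i
    unfold jj
    push_cast
    rfl
  show acT P _ ≤ _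
  rw [e1, acT_add, acT_mul, acT_mul]
  have h1 := ac_ggC (P := P) (c := c) (z := z)
  have h2 := ac_ggT (P := P) (c := c) (z := z)
  linarith

end Vale.Agent.P315Z
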