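import Vale.Agent.P315Z.Cmp

/-! P315Z: the tree distance and the start values. -/

set_option autoImplicit false

namespace Vale.Agent.P315Z

open Finset
open Vale.Agent.P315.H155 (minD minD_le_default minD_le_of_mem minD_mem)

variable {P : Par} {c : ℕ → ℕ → ℕ}

theorem td_zero (i s : ℕ) : td P c 0 i s = c i s := by
  rw [td, dif_pos rfl]

theorem td_pos {j : ℕ} (hj : j ≠ 0) (i s : ℕ) :
    td P c j i s = ∑ r ∈ range (ar P j), tb P c (j - P.ha) (i * ar P j + r) s := by
  rw [td, dif_neg hj]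
  rfl

theorem tb_le (j i s s' : ℕ) : tb P c j i s ≤ td P c j i s' + 2 * Nat.dist s' s :=
  Nat.sInf_le ⟨s', rfl⟩

theorem tb_ex (j i s : ℕ) : ∃ s', tb P c j i s = td P c j i s' + 2 * Nat.dist s' s :=
  Nat.sInf_mem (s := {v | ∃ s', v = td P c j i s' + 2 * Nat.dist s' s}) ⟨_, s, rfl⟩

theorem ak_tb_le_td (j i s : ℕ) : tb P c j i s ≤ td P c j i s := by
  simpa using tb_le (P := P) (c := c) j i s s

theorem ak_tb_lip (j i s s' : ℕ) : tb P c j i s ≤ tb P c j i s' + 2 * Nat.dist s s' := by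
  obtain ⟨w, hw⟩ := tb_ex (P := P) (c := c) j i s'
  have h := tb_le (P := P) (c := c) j i s w
  rw [hw]
  unfold Nat.dist at *
  omega

theorem ak_ar_eq (P : Par) (j : ℕ) : ar P j = P.B ^ min j P.ha := by
  rw [ar, Par.B, pow_mul]

theorem ak_ar_mul (P : Par) (j : ℕ) : ar P j * P.B ^ (j - P.ha) = P.B ^ j := by
  rw [ak_ar_eq, ← pow_add]
  congr 1
  omega

theorem ak_ar_le (P : Par) (j : ℕ) : ar P j ≤ P.B ^ P.ha := by
  rw [ak_ar_eq]
  exact Nat.pow_le_pow_right (cmp_B_pos P) (min_le_right _ _)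

theorem ak_sub_lt (P : Par) {j : ℕ} (hj : j ≠ 0) : j - P.ha < j := by
  unfold Par.ha
  omega

theorem td_le (hc : ∀ i p, c i p ≤ 1) (j i s : ℕ) : td P c j i s ≤ P.B ^ j := by
  induction j using Nat.strong_induction_on generalizing i with
  | _ j ih =>
    rcases eq_or_ne j 0 with rfl | hj
    · rw [td_zero, pow_zero]
      exact hc i s
    · rw [td_pos hj, ← ak_ar_mul P j]
      refine (sum_le_card_nsmul _ _ (P.B ^ (j - P.ha)) fun r _ => ?_).trans (by simp)
      exact (ak_tb_le_td _ _ _).trans (ih _ (ak_sub_lt P hj) _)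

theorem td_lip (hc : ∀ i p, c i p ≤ 1) (j i s s' : ℕ) :
    td P c j i s ≤ td P c j i s' + 2 * P.B ^ P.ha * Nat.dist s s' := by
  rcases eq_or_ne j 0 with rfl | hj
  · rw [td_zero, td_zero]
    rcases eq_or_ne s s' with rfl | h
    · exact Nat.le_add_right _ _
    · have h1 := hc i s
      have h2 : 0 < 2 * P.B ^ P.ha * Nat.dist s s' :=
        Nat.mul_pos (Nat.mul_pos two_pos (pow_pos (cmp_B_pos P) _)) (Nat.dist_pos_of_ne h)
      omega
  · rw [td_pos hj, td_pos hj]
    refine (sum_le_sum fun r _ => ak_tb_lip _ _ s s').trans ?_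
    rw [sum_add_distrib, sum_const, card_range, smul_eq_mul]
    refine Nat.add_le_add_left ?_ _
    calc ar P j * (2 * Nat.dist s s') ≤ P.B ^ P.ha * (2 * Nat.dist s s') :=
          Nat.mul_le_mul_right _ (ak_ar_le P j)
      _ = _ := by ring

theorem ak_chain {V : ℕ → ℕ → ℕ → ℕ → ℕ} (hV : Pot c V) (a m s n : ℕ) :
    V (a * m) ((a + n) * m) s s ≤ ∑ r ∈ range n, V ((a + r) * m) ((a + r + 1) * m) s s := by
  induction n with
  | zero => simpa using hV.nil (a * m) s s
  | succ n ih =>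
    rw [sum_range_succ]
    have h := hV.chain (a * m) ((a + n) * m) ((a + n + 1) * m) s s s
      (Nat.mul_le_mul_right _ (by omega)) (Nat.mul_le_mul_right _ (by omega))
    rw [← add_assoc]
    omega

theorem tb_valid {V : ℕ → ℕ → ℕ → ℕ → ℕ} (hV : Pot c V) (j i s : ℕ) :
    V (i * P.B ^ j) ((i + 1) * P.B ^ j) s s ≤ tb P c j i s := by
  induction j using Nat.strong_induction_on generalizing i s with
  | _ j ih =>
    obtain ⟨w, hw⟩ := tb_ex (P := P) (c := c) j i s
    have h1 := hV.lip (i * P.B ^ j) ((i + 1) * P.B ^ j) s s w w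
    have h2 : V (i * P.B ^ j) ((i + 1) * P.B ^ j) w w ≤ td P c j i w := by
      rcases eq_or_ne j 0 with rfl | hj
      · rw [td_zero, pow_zero, mul_one, mul_one]
        refine (hV.leaf i w w).trans ((min_le_left _ _).trans ?_)
        simp
      · rw [td_pos hj]
        have h3 := ak_chain hV (i * ar P j) (P.B ^ (j - P.ha)) w (ar P j)
        have e1 : i * ar P j * P.B ^ (j - P.ha) = i * P.B ^ j := by rw [mul_assoc, ak_ar_mul]
        have e2 : (i * ar P j + ar P j) * P.B ^ (j - P.ha) = (i + 1) * P.B ^ j := by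
          rw [← ak_ar_mul P j]
          ring
        rw [e1, e2] at h3
        exact h3.trans (sum_le_sum fun r _ => ih _ (ak_sub_lt P hj) _ _)
    rw [hw, Nat.dist_comm w s]
    omega

theorem td_path (hc : ∀ i p, c i p ≤ 1) (z : ℕ → ℕ) (j i : ℕ) :
    td P c j i (z (i * P.B ^ j)) ≤ (1 + 2 * P.B ^ P.ha * j) * mu P c z j i := by
  induction j using Nat.strong_induction_on generalizing i with
  | _ j ih =>
    rcases eq_or_ne j 0 with rfl | hj
    · rw [td_zero, mu_leaf, pow_zero, mul_one]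
      have := hc i (z i)
      unfold leafc
      omega
    · have e1 : i * ar P j * P.B ^ (j - P.ha) = i * P.B ^ j := by rw [mul_assoc, ak_ar_mul]
      have e2 : (i * ar P j + ar P j) * P.B ^ (j - P.ha) = (i + 1) * P.B ^ j := by
        rw [← ak_ar_mul P j]
        ring
      have hs : ∑ r ∈ range (ar P j), mu P c z (j - P.ha) (i * ar P j + r) = mu P c z j i := by
        unfold mu
        rw [← cmp_sum_Ico, e1, e2]
      have h1 : ∀ r ∈ range (ar P j), tb P c (j - P.ha) (i * ar P j + r) (z (i * P.B ^ j)) ≤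
          (1 + 2 * P.B ^ P.ha * (j - P.ha)) * mu P c z (j - P.ha) (i * ar P j + r) +
            2 * mu P c z j i := by
        intro r hr
        have h2 := tb_le (P := P) (c := c) (j - P.ha) (i * ar P j + r) (z (i * P.B ^ j))
          (z ((i * ar P j + r) * P.B ^ (j - P.ha)))
        have h3 := ih _ (ak_sub_lt P hj) (i * ar P j + r)
        have h4 := dist_le_mu (P := P) (c := c) (z := z) (j := j) (i := i)
          (a := (i * ar P j + r) * P.B ^ (j - P.ha))
          (by rw [← e1]; exact Nat.mul_le_mul_right _ (by omega))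
          (by rw [← e2]; exact Nat.mul_le_mul_right _ (by have := mem_range.1 hr; omega))
        rw [Nat.dist_comm] at h4
        omega
      rw [td_pos hj]
      refine (sum_le_sum h1).trans ?_
      rw [sum_add_distrib, ← mul_sum, hs, sum_const, card_range, smul_eq_mul]
      have h5 := ak_sub_lt P hj
      calc (1 + 2 * P.B ^ P.ha * (j - P.ha)) * mu P c z j i + ar P j * (2 * mu P c z j i)
          ≤ (1 + 2 * P.B ^ P.ha * (j - P.ha)) * mu P c z j i +
            P.B ^ P.ha * (2 * mu P c z j i) :=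
            Nat.add_le_add_left (Nat.mul_le_mul_right _ (ak_ar_le P j)) _
        _ = (1 + 2 * P.B ^ P.ha * (j - P.ha + 1)) * mu P c z j i := by ring
        _ ≤ _ := Nat.mul_le_mul_right _ (Nat.add_le_add_left (Nat.mul_le_mul_left _ h5) _)

theorem ak_dl (hP : P.Ok) : (256 : ℝ) * (P.k + 1) ≤ 2 ^ P.dl := by
  exact_mod_cast hP.hdl

theorem gam_le (hP : P.Ok) {j : ℕ} (hj : j ≤ P.k) : 1 ≤ gam P j ∧ gam P j ≤ 11 / 10 := by
  have h0 : (0 : ℝ) ≤ 20 / 2 ^ P.dl := by positivity
  refine ⟨one_le_pow₀ (by linarith), ?_⟩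
  have h1 : gam P j ≤ Real.exp (j * (20 / 2 ^ P.dl)) := by
    rw [Real.exp_nat_mul]
    exact pow_le_pow_left₀ (by positivity) (by linarith [Real.add_one_le_exp (20 / 2 ^ P.dl : ℝ)]) j
  have h2 : (j : ℝ) * (20 / 2 ^ P.dl) ≤ 20 / 256 := by
    have h3 := ak_dl hP
    have h4 : (j : ℝ) ≤ P.k := by exact_mod_cast hj
    rw [← mul_div_assoc, div_le_div_iff₀ (by positivity) (by norm_num)]
    nlinarith
  have h3 := Real.exp_bound_div_one_sub_of_interval (x := 20 / 256) (by norm_num) (by norm_num)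
  exact h1.trans ((Real.exp_le_exp.2 h2).trans (h3.trans (by norm_num)))

theorem ak_tlen_res (P : Par) (a : ℕ) : tlen P a * res P a = wid P a := by
  rw [tlen, res, wid, ← pow_add]
  congr 1
  omega

theorem cands_le {a s r : ℕ} (h : r ∈ cands P a s) : res P a ∣ r ∧ r ≤ s + 3 * wid P a := by
  obtain ⟨t, ht, rfl⟩ := List.mem_map.1 h
  have h1 := List.mem_range.1 ht
  refine ⟨Dvd.intro_left _ rfl, ?_⟩
  have h2 := Nat.div_mul_le_self (s - wid P a) (res P a)
  have h3 : t * res P a ≤ (2 * tlen P a + 1) * res P a := Nat.mul_le_mul_right _ (by omega)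
  have h4 : (2 * tlen P a + 1) * res P a = 2 * wid P a + res P a := by
    rw [← ak_tlen_res]
    ring
  have h5 : res P a ≤ wid P a := Nat.pow_le_pow_right two_pos (Nat.sub_le _ _)
  rw [add_mul]
  omega

theorem ak_mem_cands {a s w : ℕ} (h : Nat.dist w s ≤ wid P a) :
    w / res P a * res P a ∈ cands P a s := by
  have h0 : 0 < res P a := Nat.two_pow_pos _
  have h1 : (s - wid P a) / res P a ≤ w / res P a :=
    Nat.div_le_div_right (by unfold Nat.dist at h; omega)
  have h2 : w / res P a ≤ (s - wid P a) / res P a + 2 * tlen P a := by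
    rw [← Nat.add_mul_div_right _ _ h0, mul_assoc, ak_tlen_res]
    exact Nat.div_le_div_right (by unfold Nat.dist at h; omega)
  refine List.mem_map.2 ⟨w / res P a - (s - wid P a) / res P a, List.mem_range.2 (by omega), ?_⟩
  rw [Nat.add_sub_cancel' h1]

theorem ak_res (P : Par) (a : ℕ) :
    8 * P.B ^ P.ha * 2 ^ P.dl * (2 ^ P.a0 * (res P a - 1)) ≤ 2 ^ a := by
  rcases Nat.eq_zero_or_pos (a - P.a0 - P.rs) with h | h
  · rw [res, h]
    simp
  · calc 8 * P.B ^ P.ha * 2 ^ P.dl * (2 ^ P.a0 * (res P a - 1))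
        ≤ 8 * P.B ^ P.ha * 2 ^ P.dl * (2 ^ P.a0 * res P a) :=
          Nat.mul_le_mul_left _ (Nat.mul_le_mul_left _ (Nat.sub_le _ _))
      _ = 2 ^ (P.rs + P.a0 + (a - P.a0 - P.rs)) := by
          rw [res, pow_add, pow_add, Par.rs, Par.B, ← pow_mul]
          ring
      _ = 2 ^ a := by
          congr 1
          omega

/-- The estimate with the best shift. -/
theorem zh_approx (hP : P.Ok) (hc : ∀ i p, c i p ≤ 1) {j : ℕ} (hj : j ≤ P.k) (i a s : ℕ)
    (A : ℕ → List ℕ)
    (h : ∀ r, res P a ∣ r → r ≤ s + 3 * wid P a → Approx P j a 1 (td P c j i r) (fa P A a r)) :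
    Approx P j a 2 (tb P c j i s) (zh P A a s) := by
  obtain ⟨g1, g2⟩ := gam_le hP hj
  have hΔ : (0 : ℝ) ≤ 2 ^ a / 2 ^ P.dl := by positivity
  have hQ : (0 : ℝ) < 2 ^ P.a0 := by positivity
  have e1 : (1 : ℝ) * 2 ^ a / 2 ^ P.dl = 2 ^ a / 2 ^ P.dl := by rw [one_mul]
  have e2 : (2 : ℝ) * 2 ^ a / 2 ^ P.dl = 2 * (2 ^ a / 2 ^ P.dl) := by ring
  unfold Approx
  rw [e2]
  constructor
  · obtain ⟨w, hw⟩ := tb_ex (P := P) (c := c) j i s
    by_cases hbig : 2 ^ a ≤ 2 ^ P.a0 * (2 * Nat.dist w s)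
    · have h1 : zh P A a s ≤ 2 ^ P.a0 * tb P c j i s :=
        (minD_le_default _ _).trans (hbig.trans (Nat.mul_le_mul_left _ (by omega)))
      have h2 : (zh P A a s : ℝ) ≤ 2 ^ P.a0 * tb P c j i s := by exact_mod_cast h1
      have h3 : (2 : ℝ) ^ P.a0 * tb P c j i s ≤ gam P j * (2 ^ P.a0 * tb P c j i s) :=
        le_mul_of_one_le_left (by positivity) g1
      linarith
    · have h1 : 2 ^ a ≤ 2 ^ P.a0 * wid P a := by
        rw [wid, ← pow_add]
        exact Nat.pow_le_pow_right two_pos (by omega)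
      have h2 : 2 * Nat.dist w s < wid P a :=
        Nat.lt_of_mul_lt_mul_left (a := 2 ^ P.a0) (by omega)
      have hm := ak_mem_cands (P := P) (a := a) (s := s) (w := w) (by omega)
      set r := w / res P a * res P a with hr
      have h0 : 0 < res P a := Nat.two_pow_pos _
      have h3 : Nat.dist r w ≤ res P a - 1 := by
        have a1 := Nat.div_add_mod w (res P a)
        have a2 := Nat.mod_lt w h0
        rw [mul_comm, ← hr] at a1
        unfold Nat.dist
        omega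
      have h4 : zh P A a s ≤ fa P A a r + 2 * (2 ^ P.a0 * Nat.dist r s) :=
        minD_le_of_mem (List.mem_map.2 ⟨r, hm, rfl⟩)
      have h5 := (h r (cands_le hm).1 (cands_le hm).2).1
      have h6 : td P c j i r ≤ td P c j i w + 2 * P.B ^ P.ha * (res P a - 1) :=
        (td_lip hc j i r w).trans (Nat.add_le_add_left (Nat.mul_le_mul_left _ h3) _)
      have h7 : Nat.dist r s ≤ Nat.dist w s + (res P a - 1) := by
        have := Nat.dist.triangle_inequality r w s
        omega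
      have h8 := ak_res P a
      generalize res P a - 1 = ρ at h6 h7 h8
      have hB : (1 : ℝ) ≤ (P.B : ℝ) ^ P.ha :=
        one_le_pow₀ (by exact_mod_cast cmp_B_pos P)
      have h4' : (zh P A a s : ℝ) ≤ fa P A a r + 2 * (2 ^ P.a0 * Nat.dist r s) := by
        exact_mod_cast h4
      have h6' : (td P c j i r : ℝ) ≤ td P c j i w + 2 * P.B ^ P.ha * ρ := by exact_mod_cast h6
      have h7' : (Nat.dist r s : ℝ) ≤ Nat.dist w s + ρ := by exact_mod_cast h7
      have h8' : 8 * (P.B : ℝ) ^ P.ha * (2 ^ P.a0 * ρ) ≤ 2 ^ a / 2 ^ P.dl := by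
        rw [le_div_iff₀ (by positivity)]
        have : (8 * P.B ^ P.ha * 2 ^ P.dl * (2 ^ P.a0 * ρ) : ℝ) ≤ 2 ^ a := by exact_mod_cast h8
        linarith
      have hw' : (tb P c j i s : ℝ) = td P c j i w + 2 * Nat.dist w s := by exact_mod_cast hw
      have hρ : (0 : ℝ) ≤ 2 ^ P.a0 * ρ := by positivity
      have b1 : gam P j * (2 ^ P.a0 * td P c j i r) ≤
          gam P j * (2 ^ P.a0 * (td P c j i w + 2 * P.B ^ P.ha * ρ)) := by gcongr
      have b2 : gam P j * (2 * P.B ^ P.ha * (2 ^ P.a0 * ρ)) ≤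
          11 / 10 * (2 * P.B ^ P.ha * (2 ^ P.a0 * ρ)) :=
        mul_le_mul_of_nonneg_right g2 (by positivity)
      have b3 : (2 : ℝ) ^ P.a0 * Nat.dist r s ≤ 2 ^ P.a0 * (Nat.dist w s + ρ) := by gcongr
      have b4 : (2 : ℝ) ^ P.a0 * Nat.dist w s ≤ gam P j * (2 ^ P.a0 * Nat.dist w s) :=
        le_mul_of_one_le_left (by positivity) g1
      have b5 : (2 : ℝ) ^ P.a0 * ρ ≤ P.B ^ P.ha * (2 ^ P.a0 * ρ) := le_mul_of_one_le_left hρ hB
      rw [hw']
      rw [e1] at h5
      nlinarith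
  · rcases minD_mem ((cands P a s).map fun r => fa P A a r + 2 * (2 ^ P.a0 * Nat.dist r s))
      (2 ^ a) with h1 | h1
    · have h2 : (zh P A a s : ℝ) = 2 ^ a := by exact_mod_cast h1
      have h3 := min_le_right ((2 : ℝ) ^ P.a0 * tb P c j i s / gam P j) (2 ^ a)
      linarith
    · obtain ⟨r, hm, h2⟩ := List.mem_map.1 h1
      have h3 : (zh P A a s : ℝ) = fa P A a r + 2 * (2 ^ P.a0 * Nat.dist r s) := by
        exact_mod_cast h2.symm
      have h4 := (h r (cands_le hm).1 (cands_le hm).2).2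
      have h5 : (tb P c j i s : ℝ) ≤ td P c j i r + 2 * Nat.dist r s := by
        exact_mod_cast tb_le (P := P) (c := c) j i s r
      have h6 : (2 : ℝ) ^ P.a0 * tb P c j i s / gam P j ≤
          2 ^ P.a0 * td P c j i r / gam P j + 2 * (2 ^ P.a0 * Nat.dist r s) := by
        have a1 : (2 : ℝ) ^ P.a0 * tb P c j i s / gam P j ≤
            2 ^ P.a0 * (td P c j i r + 2 * Nat.dist r s) / gam P j := by gcongr
        have a2 : (2 : ℝ) * (2 ^ P.a0 * Nat.dist r s) / gam P j ≤ 2 * (2 ^ P.a0 * Nat.dist r s) :=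
          div_le_self (by positivity) g1
        have a3 : (2 : ℝ) ^ P.a0 * (td P c j i r + 2 * Nat.dist r s) / gam P j =
            2 ^ P.a0 * td P c j i r / gam P j + 2 * (2 ^ P.a0 * Nat.dist r s) / gam P j := by ring
        linarith
      have h7 : (0 : ℝ) ≤ 2 * (2 ^ P.a0 * Nat.dist r s) := by positivity
      have h8 : min ((2 : ℝ) ^ P.a0 * tb P c j i s / gam P j) (2 ^ a) ≤
          min ((2 : ℝ) ^ P.a0 * td P c j i r / gam P j) (2 ^ a) +
            2 * (2 ^ P.a0 * Nat.dist r s) := by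
        rw [← min_add_add_right]
        exact min_le_min h6 (by linarith)
      rw [e1] at h4
      linarith

theorem ak_approx (hP : P.Ok) (hc : ∀ i p, c i p ≤ 1) {A : ℕ → ℕ → ℕ → ℕ → List ℕ}
    (hA : AkoOk P c A) {e : Cell} (he : Dom P e) {u : ℕ} (hu : u ≤ P.am - P.a0) :
    Approx P e.j (P.a0 + u) 2 (tb P c e.j e.i e.p) (zh P (A e.j e.i (P.a0 + u)) (P.a0 + u) e.p) := by
  refine zh_approx hP hc he.j _ _ _ _ fun r h1 h2 => hA e.j e.i _ r ⟨⟨he.j, he.i⟩, ?_, ?_, ?_⟩ h1
  · have : (e.j + 1) * P.LA ≤ (P.k + 1) * P.LA := Nat.mul_le_mul_right _ (by have := he.j; omega)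
    unfold Par.a0
    omega
  · unfold Par.am at hu ⊢
    omega
  · have a1 : pmax P e.j ≤ pmax P 0 :=
      Nat.add_le_add_left (Nat.mul_le_mul_left _ (by omega)) _
    have a2 : wid P (P.a0 + u) ≤ 2 ^ (P.am + P.k + 1 - P.a0) :=
      Nat.pow_le_pow_right two_pos (by omega)
    have a3 : 4 * 2 ^ (P.am + P.k + 1 - P.a0) ≤
        4 * 2 ^ (P.am + P.k + 1 - P.a0) * (P.k - e.j + 1) := Nat.le_mul_of_pos_right _ (by omega)
    have a4 := he.p
    unfold pA
    omega

theorem ak_delta (hP : P.Ok) (a : ℕ) : (2 : ℝ) * 2 ^ a / 2 ^ P.dl ≤ 2 ^ a / 128 := by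
  have h1 := ak_dl hP
  have h2 : (0 : ℝ) ≤ P.k := by positivity
  have h3 : (0 : ℝ) < 2 ^ a := by positivity
  rw [div_le_div_iff₀ (by positivity) (by norm_num)]
  nlinarith

/-- The start values are valid. -/
theorem d0_valid (hP : P.Ok) (hc : ∀ i p, c i p ≤ 1) {A : ℕ → ℕ → ℕ → ℕ → List ℕ}
    (hA : AkoOk P c A) {V : ℕ → ℕ → ℕ → ℕ → ℕ} (hV : Pot c V) {e : Cell} (he : Dom P e) :
    cv P V e ≤ d0body P c A e := by
  unfold d0body
  split_ifs with hj
  · unfold cv
    rw [hj, pow_zero, mul_one, mul_one]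
    exact hV.leaf _ _ _
  · have hl : cv P V e ≤ tb P c e.j e.i e.p + Nat.dist e.p e.q := by
      have h1 := hV.lip (e.i * P.B ^ e.j) ((e.i + 1) * P.B ^ e.j) e.p e.q e.p e.p
      have h2 := tb_valid (P := P) hV e.j e.i e.p
      rw [Nat.dist_self, Nat.dist_comm e.q] at h1
      unfold cv
      omega
    rcases minD_mem (((List.range (P.am - P.a0 + 1)).filter fun u =>
      decide (2 * zh P (A e.j e.i (P.a0 + u)) (P.a0 + u) e.p ≤ 2 ^ (P.a0 + u))).map fun u =>
        Nat.dist e.p e.q + (2 ^ u - 1)) (triv P e) with h2 | h2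
    · rw [h2]
      have h3 := (ak_tb_le_td (P := P) (c := c) e.j e.i e.p).trans (td_le hc _ _ _)
      unfold triv
      omega
    · obtain ⟨u, hu, h3⟩ := List.mem_map.1 h2
      rw [← h3]
      obtain ⟨hu1, hu2⟩ := List.mem_filter.1 hu
      have h4 := (ak_approx hP hc hA he (u := u) (by have := List.mem_range.1 hu1; omega)).2
      have h5 : 2 * (zh P (A e.j e.i (P.a0 + u)) (P.a0 + u) e.p : ℝ) ≤ 2 ^ (P.a0 + u) := by
        exact_mod_cast of_decide_eq_true hu2
      have h6 := ak_delta hP (P.a0 + u)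
      obtain ⟨g1, g2⟩ := gam_le hP he.j
      have h7 : (0 : ℝ) < 2 ^ (P.a0 + u) := by positivity
      have h8 : (2 : ℝ) ^ P.a0 * tb P c e.j e.i e.p / gam P e.j ≤ 2 ^ (P.a0 + u) * (65 / 128) := by
        rcases min_le_iff.1 (show min ((2 : ℝ) ^ P.a0 * tb P c e.j e.i e.p / gam P e.j)
          (2 ^ (P.a0 + u)) ≤ 2 ^ (P.a0 + u) * (65 / 128) by linarith) with h | h
        · exact h
        · linarith
      rw [div_le_iff₀ (by linarith)] at h8
      have h9 : (2 : ℝ) ^ P.a0 * tb P c e.j e.i e.p < 2 ^ P.a0 * 2 ^ u := by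
        rw [← pow_add]
        nlinarith
      have h10 : (tb P c e.j e.i e.p : ℝ) < 2 ^ u := lt_of_mul_lt_mul_left h9 (by positivity)
      have h11 : tb P c e.j e.i e.p < 2 ^ u := by exact_mod_cast h10
      omega

/-- The start values of the comparator cells. -/
theorem d0_cs (hP : P.Ok) {z : ℕ → ℕ} {d : ℕ} (h : PathOk P c z d)
    {A : ℕ → ℕ → ℕ → ℕ → List ℕ} (hA : AkoOk P c A) {j i : ℕ} (hn : Node P j i) :
    d0body P c A (cs P c z j i) ≤ 2 ^ P.la0 * (mu P c z j i + gg P c z j i) := by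
  have hB : 1 ≤ P.B ^ P.ha := pow_pos (cmp_B_pos P) _
  have hla : 256 * (P.k + 1) * P.B ^ P.ha ≤ 2 ^ P.la0 := by
    rw [Par.la0, pow_add, Par.B, ← pow_mul, mul_comm]
    exact Nat.mul_le_mul_left _ hP.hdl
  have hla' : 17 + 16 * (P.B ^ P.ha * j) ≤ 2 ^ P.la0 := by
    have a1 : P.B ^ P.ha * j ≤ P.B ^ P.ha * P.k := Nat.mul_le_mul_left _ hn.1
    have a2 : 256 * (P.k + 1) * P.B ^ P.ha = 256 * (P.B ^ P.ha * P.k) + 256 * P.B ^ P.ha := by ring
    omega
  refine le_trans ?_ (Nat.mul_le_mul_right _ hla')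
  rcases eq_or_ne j 0 with rfl | hj
  · have h1 := leafc_cs (P := P) (z := z) h.c1 i
    have h2 : d0body P c A (cs P c z 0 i) = leafc c i (cs P c z 0 i).p (cs P c z 0 i).q :=
      if_pos rfl
    rw [h2]
    omega
  · have he := cs_dom h hn
    set e := cs P c z j i with hedef
    have ej : e.j = j := rfl
    have ei : e.i = i := rfl
    set t := tb P c e.j e.i e.p with ht
    have hp := cs_p (P := P) (c := c) (z := z) j i
    have hq := cs_q (P := P) (c := c) (z := z) j i
    rw [← hedef] at hp hq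
    have h1 : t ≤ (1 + 2 * P.B ^ P.ha * j) * mu P c z j i + 2 * gg P c z j i := by
      have a1 := tb_le (P := P) (c := c) j i e.p (z (i * P.B ^ j))
      have a2 := td_path (P := P) h.c1 z j i
      have a3 : Nat.dist (z (i * P.B ^ j)) e.p ≤ gg P c z j i := by
        unfold Nat.dist
        omega
      rw [ht, ej, ei]
      omega
    have h2 : Nat.dist e.p e.q ≤ mu P c z j i + gg P c z j i := by
      have a1 := dist_le_mu (P := P) (c := c) (z := z) (j := j) (i := i)
        (a := (i + 1) * P.B ^ j) (Nat.mul_le_mul_right _ (by omega)) le_rfl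
      unfold Nat.dist at a1 ⊢
      omega
    set u := Nat.clog 2 (4 * t) with hu
    have u1 : 4 * t ≤ 2 ^ u := Nat.le_pow_clog (by norm_num) _
    have u2 : 2 ^ u - 1 ≤ 8 * t := by
      rcases eq_or_ne u 0 with h0 | h0
      · rw [h0]
        simp
      · have := cmp_clog (m := 4 * t) h0
        rw [← hu] at this
        omega
    have u3 : u ≤ P.am - P.a0 := by
      refine (Nat.clog_le_iff_le_pow (by norm_num)).2 ?_
      have a1 : t ≤ P.B ^ e.j := (ak_tb_le_td _ _ _).trans (td_le h.c1 _ _ _)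
      have a2 : P.B ^ e.j ≤ P.B ^ P.k := Nat.pow_le_pow_right (cmp_B_pos P) he.j
      have a3 : P.am - P.a0 = P.lb * P.k + 2 := by
        unfold Par.am
        omega
      rw [a3, pow_add, pow_mul]
      unfold Par.B at a1 a2
      omega
    have h3 : 2 * zh P (A e.j e.i (P.a0 + u)) (P.a0 + u) e.p ≤ 2 ^ (P.a0 + u) := by
      have a1 := (ak_approx hP h.c1 hA he u3).1
      have a2 := ak_delta hP (P.a0 + u)
      obtain ⟨g1, g2⟩ := gam_le hP he.j
      have a3 : (4 * t : ℝ) ≤ 2 ^ u := by exact_mod_cast u1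
      have a4 : (2 : ℝ) ^ P.a0 * (4 * t) ≤ 2 ^ (P.a0 + u) := by
        rw [pow_add]
        gcongr
      have a5 : gam P e.j * (2 ^ P.a0 * t) ≤ 11 / 10 * (2 ^ P.a0 * t) :=
        mul_le_mul_of_nonneg_right g2 (by positivity)
      have a6 : (0 : ℝ) < 2 ^ (P.a0 + u) := by positivity
      rw [← ht] at a1
      have a7 : 2 * (zh P (A e.j e.i (P.a0 + u)) (P.a0 + u) e.p : ℝ) ≤ 2 ^ (P.a0 + u) := by
        linarith
      exact_mod_cast a7
    have h4 : d0body P c A e ≤ Nat.dist e.p e.q + (2 ^ u - 1) := by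
      unfold d0body
      rw [if_neg (ej ▸ hj)]
      exact minD_le_of_mem (List.mem_map.2 ⟨u, List.mem_filter.2
        ⟨List.mem_range.2 (by omega), decide_eq_true h3⟩, rfl⟩)
    have h5 : (17 + 16 * (P.B ^ P.ha * j)) * (mu P c z j i + gg P c z j i) =
        8 * ((1 + 2 * P.B ^ P.ha * j) * mu P c z j i) + 9 * mu P c z j i + 17 * gg P c z j i +
          16 * (P.B ^ P.ha * j) * gg P c z j i := by ring
    omega

end Vale.Agent.P315Z
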