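import Vale.Agent.P315.H763.SolverW

/-! P315Z: basic definitions (seeds, stratified estimator, greedy picks, costs of rows).
Row `0` and the rows after `|x|` are void, row `i` belongs to the symbol `x[i-1]`; at time
`1 ≤ i ≤ |x| + 1` the position `p` is the point `p + (i - 1) - off` of `y`. -/

set_option autoImplicit false

namespace Vale.Agent.P315Z

open Vale.Agent.P315.H763 (picksW)

/-- The values of a block of seeds as a function on the natural numbers. -/
def bv {NS e : ℕ} (u : Fin NS → Fin e) (i : ℕ) : ℕ := if h : i < NS then (u ⟨i, h⟩ : ℕ) else 0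

/-- The stratified estimator: sample number `i < 2 ^ n` is the row `sd i % B`; it is used for the
strata `l < L` with `i * 2 ^ l < 2 ^ n`, with weight `2 ^ l`. -/
def strat (n L B : ℕ) (sd : ℕ → ℕ) (y : ℕ → ℕ → ℕ) : ℕ :=
  ((List.range (2 ^ n)).map fun i => ((List.range L).map fun l =>
    if i * 2 ^ l < 2 ^ n then 2 ^ l * y l (sd i % B) else 0).sum).sum

/-- Seeds as a function on the natural numbers, block number `b` (of length `NS`) replaced. -/
def setBlk (NS : ℕ) (S : ℕ → ℕ) (b : ℕ) (v : ℕ → ℕ) : ℕ → ℕ :=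
  fun i => if i / NS = b then v (i % NS) else S i

/-- A table with `rows` rows of `nn × nn` entries. -/
def tab3 (rows nn : ℕ) (f : ℕ → ℕ → ℕ → ℕ) : List (List (List ℕ)) :=
  (List.range rows).map fun r => (List.range nn).map fun u => (List.range nn).map fun v => f r u v

/-- Cost of the node sequence `g` for the edge costs `f`. -/
def pcost (rows : ℕ) (f : ℕ → ℕ → ℕ → ℕ) (g : ℕ → ℕ) : ℕ :=
  ((List.range rows).map fun r => f r (g r) (g (r + 1))).sum

/-- The greedy picks of round `t`: `M`, `U` hints and losses (round, row, two nodes), `W` the row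
weights, `Am` their bound, `c0` the unit of the weights, `1 / capd` the cap, `1 / gd` the rate. -/
def lanes (l1 rows nn c0 capd gd Am : ℕ) (W : ℕ → ℕ) (M U : ℕ → ℕ → ℕ → ℕ → ℕ) (t : ℕ) :
    List (List ℕ) :=
  picksW (2 ^ (12 * l1)) (gd * gd) (2 ^ (4 * l1)) Am 0 0 (2 ^ (4 * l1))
    (tab3 rows nn fun r u v => 2 ^ (12 * l1) * capd * c0 *
      ((gd + 1) * M t r u v + ((List.range t).map fun j => M j r u v + gd * U j r u v).sum))
    (tab3 rows nn fun r _ _ => W r)

/-- Cost of the diagonal step in row `i` at position `p`. -/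
def cbit (x y : List ℕ) (off i p : ℕ) : ℕ :=
  if i = 0 ∨ x.length < i then 0
  else if off ≤ p + (i - 1) ∧ p + (i - 1) - off < y.length then
    (if x.getD (i - 1) 0 = y.getD (p + (i - 1) - off) 0 then 0 else 1)
  else 1

/-- Cost of row `i` from position `p` to position `q`: a diagonal step or a deletion, followed by
jumps. -/
def leafc (c : ℕ → ℕ → ℕ) (i p q : ℕ) : ℕ :=
  min (c i p + Nat.dist p q) (1 + Nat.dist (p - 1) q)

/-- A lower bound `V a b p q` for the cost of all paths from position `p` at time `a` to position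
`q` at time `b`. -/
structure Pot (c : ℕ → ℕ → ℕ) (V : ℕ → ℕ → ℕ → ℕ → ℕ) : Prop where
  lip : ∀ a b p q p' q', V a b p q ≤ V a b p' q' + Nat.dist p p' + Nat.dist q q'
  chain : ∀ a b d p r q, a ≤ b → b ≤ d → V a d p q ≤ V a b p r + V b d r q
  leaf : ∀ i p q, V i (i + 1) p q ≤ leafc c i p q
  nil : ∀ a p q, V a a p q ≤ Nat.dist p q

end Vale.Agent.P315Z
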