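import Vale.Agent.P315.H731.Tape
import Vale.Agent.P315.H731.Rep
import Vale.Agent.P315Z.Base

/-! P315Z: concentration of sums of independent bounded terms, and the stratified estimator. -/

set_option autoImplicit false

namespace Vale.Agent.P315Z

open Finset Vale.Agent.P315.H731

/-- The exponential moment method. -/
theorem tail_of_mgf {N e : ℕ} (g : Fin N → Fin e → ℝ) (b : Fin N → ℝ) (s : ℝ)
    (h : ∀ i, av (fun v => Real.exp (g i v)) ≤ Real.exp (b i)) (P : (Fin N → Fin e) → Prop)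
    [DecidablePred P] (hP : ∀ u, P u → ∑ i, b i + s ≤ ∑ i, g i (u i)) :
    av (fun u : Fin N → Fin e => if P u then (1 : ℝ) else 0) ≤ Real.exp (-s) := by
  have h1 := markov (X := fun u : Fin N → Fin e => Real.exp (∑ i, g i (u i)))
    (fun u => (Real.exp_pos _).le) (Real.exp (∑ i, b i + s)) P
    (fun u hu => Real.exp_le_exp.mpr (hP u hu))
  have h2 : av (fun u : Fin N → Fin e => Real.exp (∑ i, g i (u i))) =
      ∏ i, av (fun v => Real.exp (g i v)) := by
    rw [← av_pi_prod (Ω := fun _ => Fin e) (fun i v => Real.exp (g i v))]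
    exact av_congr fun u => Real.exp_sum _ _
  have h3 : ∏ i, av (fun v => Real.exp (g i v)) ≤ Real.exp (∑ i, b i) := by
    rw [Real.exp_sum]
    exact prod_le_prod (fun i _ => av_nonneg fun v => (Real.exp_pos _).le) fun i _ => h i
  have h4 : Real.exp (∑ i, b i) = Real.exp (∑ i, b i + s) * Real.exp (-s) := by
    rw [← Real.exp_add]; congr 1; ring
  rw [h2] at h1
  exact le_of_mul_le_mul_left (h1.trans (h3.trans h4.le)) (Real.exp_pos _)

theorem mgf_le {e : ℕ} (he : 0 < e) (f : Fin e → ℝ) (l k : ℝ)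
    (h : ∀ v, Real.exp (l * f v) ≤ 1 + k * f v) :
    av (fun v => Real.exp (l * f v)) ≤ Real.exp (k * av f) := by
  have : Nonempty (Fin e) := ⟨⟨0, he⟩⟩
  refine (av_mono h).trans ?_
  rw [av_add, av_const, av_const_mul]
  have := Real.add_one_le_exp (k * av f)
  linarith

theorem exp_le_quad {x : ℝ} (hx : |x| ≤ 1) : Real.exp x ≤ 1 + x + x ^ 2 := by
  have := (abs_le.mp (Real.abs_exp_sub_one_sub_id_le hx)).2
  linarith

/-- Upper tail. -/
theorem conc_up {N e : ℕ} (he : 0 < e) (f : Fin N → Fin e → ℝ) {M η t : ℝ} (hM : 0 < M)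
    (hη0 : 0 < η) (hη1 : η ≤ 1) (_ht : 0 ≤ t) (h0 : ∀ i v, 0 ≤ f i v) (h1 : ∀ i v, f i v ≤ M) :
    av (fun u : Fin N → Fin e =>
      if (1 + η) * (∑ i, av (f i)) + t < ∑ i, f i (u i) then (1 : ℝ) else 0) ≤
      Real.exp (-(η * t / M)) := by
  have hl : 0 < η / M := div_pos hη0 hM
  refine tail_of_mgf (fun i v => η / M * f i v) (fun i => (η / M * (1 + η)) * av (f i))
    (η * t / M) (fun i => mgf_le he (f i) _ _ fun v => ?_) _ fun u hu => ?_
  · have a0 : 0 ≤ η / M * f i v := mul_nonneg hl.le (h0 i v)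
    have a1 : η / M * f i v ≤ η := by
      calc η / M * f i v ≤ η / M * M := mul_le_mul_of_nonneg_left (h1 i v) hl.le
        _ = η := by field_simp
    have a2 := exp_le_quad (x := η / M * f i v) (by rw [abs_of_nonneg a0]; linarith)
    nlinarith
  · rw [← mul_sum, ← mul_sum]
    have : η * t / M = η / M * t := by ring
    rw [this, mul_assoc, ← mul_add]
    exact mul_le_mul_of_nonneg_left hu.le hl.le

/-- Lower tail. -/
theorem conc_down {N e : ℕ} (he : 0 < e) (f : Fin N → Fin e → ℝ) {M η t : ℝ} (hM : 0 < M)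
    (hη0 : 0 < η) (hη1 : η ≤ 1) (_ht : 0 ≤ t) (h0 : ∀ i v, 0 ≤ f i v) (h1 : ∀ i v, f i v ≤ M) :
    av (fun u : Fin N → Fin e =>
      if ∑ i, f i (u i) < (1 - η) * (∑ i, av (f i)) - t then (1 : ℝ) else 0) ≤
      Real.exp (-(η * t / M)) := by
  have hl : 0 < η / M := div_pos hη0 hM
  refine tail_of_mgf (fun i v => -(η / M) * f i v) (fun i => (-(η / M) * (1 - η)) * av (f i))
    (η * t / M) (fun i => mgf_le he (f i) _ _ fun v => ?_) _ fun u hu => ?_
  · have a0 : 0 ≤ η / M * f i v := mul_nonneg hl.le (h0 i v)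
    have a1 : η / M * f i v ≤ η := by
      calc η / M * f i v ≤ η / M * M := mul_le_mul_of_nonneg_left (h1 i v) hl.le
        _ = η := by field_simp
    have a2 := exp_le_quad (x := -(η / M) * f i v)
      (by rw [neg_mul, abs_neg, abs_of_nonneg a0]; linarith)
    nlinarith
  · rw [← mul_sum, ← mul_sum]
    have : η * t / M = η / M * t := by ring
    rw [this]
    have := mul_le_mul_of_nonneg_left hu.le hl.le
    nlinarith

theorem av_mod {e B : ℕ} (he : 0 < e) (hB : B ∣ e) (g : ℕ → ℝ) :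
    av (fun v : Fin e => g (v % B)) = (∑ r ∈ range B, g r) / B := by
  obtain ⟨q, rfl⟩ := hB
  have hq : 0 < q := Nat.pos_of_mul_pos_left he
  have hB : 0 < B := Nat.pos_of_mul_pos_right he
  have h1 : ∀ q : ℕ, ∑ v ∈ range (B * q), g (v % B) = q * ∑ r ∈ range B, g r := by
    intro q
    induction q with
    | zero => simp
    | succ q ih =>
      rw [Nat.mul_succ, sum_range_add, ih]
      have : ∑ r ∈ range B, g ((B * q + r) % B) = ∑ r ∈ range B, g r := by
        apply sum_congr rfl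
        intro r hr
        rw [Nat.mul_add_mod, Nat.mod_eq_of_lt (mem_range.mp hr)]
      rw [this]
      push_cast
      ring
  unfold av
  rw [Fin.sum_univ_eq_sum_range (fun v => g (v % B)), h1, Fintype.card_fin]
  have a1 : (q : ℝ) ≠ 0 := by positivity
  have a2 : (B : ℝ) ≠ 0 := by positivity
  push_cast
  field_simp

/-- One seed modulo a divisor of the modulus is uniform. -/
theorem av_bv_mod {NS e B : ℕ} (he : 0 < e) (hB : B ∣ e) {i : ℕ} (hi : i < NS) (g : ℕ → ℝ) :
    av (fun u : Fin NS → Fin e => g (bv u i % B)) = (∑ r ∈ range B, g r) / B := by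
  have : Nonempty (Fin e) := ⟨⟨0, he⟩⟩
  rw [← av_mod he hB g, ← av_eval (A := fun _ : Fin NS => Fin e) ⟨i, hi⟩
    (fun v : Fin e => g (v % B))]
  apply av_congr
  intro u
  unfold bv
  rw [dif_pos hi]

/-- The contribution of sample number `i` with the row `r`. -/
def sterm (n L : ℕ) (y : ℕ → ℕ → ℕ) (i r : ℕ) : ℕ :=
  ∑ l ∈ range L, if i * 2 ^ l < 2 ^ n then 2 ^ l * y l r else 0

theorem list_sum_range (f : ℕ → ℕ) (n : ℕ) :
    ((List.range n).map f).sum = ∑ i ∈ range n, f i := by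
  induction n with
  | zero => simp
  | succ n ih => rw [List.range_succ, List.map_append, List.sum_append, ih, sum_range_succ]; simp

theorem strat_eq (n L B : ℕ) (sd : ℕ → ℕ) (y : ℕ → ℕ → ℕ) :
    strat n L B sd y = ∑ i ∈ range (2 ^ n), sterm n L y i (sd i % B) := by
  unfold strat sterm
  rw [list_sum_range]
  exact sum_congr rfl fun i _ => list_sum_range _ _

theorem strat_eq_fin {NS e n : ℕ} (L B : ℕ) (hn : 2 ^ n ≤ NS) (u : Fin NS → Fin e)
    (y : ℕ → ℕ → ℕ) :
    (strat n L B (bv u) y : ℝ) = ∑ i : Fin NS, (sterm n L y i (u i % B) : ℝ) := by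
  have h1 : ∑ i : Fin NS, (sterm n L y i (u i % B) : ℝ) =
      ∑ i : Fin NS, (fun j : ℕ => (sterm n L y j (bv u j % B) : ℝ)) i := by
    apply sum_congr rfl
    intro i _
    simp only [bv, i.isLt, dif_pos]
  rw [h1, Fin.sum_univ_eq_sum_range (fun j : ℕ => (sterm n L y j (bv u j % B) : ℝ)), strat_eq]
  push_cast
  apply sum_subset (range_subset_range.mpr hn)
  intro i _ hi
  have hi' : 2 ^ n ≤ i := by simpa using hi
  have : sterm n L y i (bv u i % B) = 0 := by
    unfold sterm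
    apply sum_eq_zero
    intro l _
    have : i ≤ i * 2 ^ l := Nat.le_mul_of_pos_right _ (Nat.two_pow_pos l)
    rw [if_neg (by omega)]
  rw [this, Nat.cast_zero]

theorem sterm_le (n L : ℕ) (y : ℕ → ℕ → ℕ) (i r : ℕ) :
    sterm n L y i r ≤ ∑ l ∈ range L, 2 ^ l * y l r := by
  unfold sterm
  apply sum_le_sum
  intro l _
  split_ifs
  · exact le_rfl
  · exact Nat.zero_le _

theorem sum_sterm {NS n L : ℕ} (hn : 2 ^ n ≤ NS) (hL : L ≤ n + 1) (y : ℕ → ℕ → ℕ) (r : ℕ) :
    ∑ i ∈ range NS, sterm n L y i r = 2 ^ n * ∑ l ∈ range L, y l r := by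
  unfold sterm
  rw [sum_comm, mul_sum]
  apply sum_congr rfl
  intro l hl
  have hl' : l ≤ n := by have := mem_range.mp hl; omega
  obtain ⟨d, rfl⟩ := Nat.exists_eq_add_of_le hl'
  have h1 : (range NS).filter (fun i => i * 2 ^ l < 2 ^ (l + d)) = range (2 ^ d) := by
    ext i
    simp only [mem_filter, mem_range]
    rw [pow_add, mul_comm (2 ^ l), Nat.mul_lt_mul_right (Nat.two_pow_pos l)]
    constructor
    · exact fun h => h.2
    · intro h
      refine ⟨?_, h⟩
      have : 2 ^ d ≤ 2 ^ (l + d) := Nat.pow_le_pow_right (by norm_num) (by omega)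
      omega
  rw [← sum_filter, h1, sum_const, card_range, smul_eq_mul, pow_add]
  ring

theorem sum_av_sterm {NS e B n L : ℕ} (he : 0 < e) (hB : B ∣ e) (hn : 2 ^ n ≤ NS)
    (hL : L ≤ n + 1) (y : ℕ → ℕ → ℕ) :
    ∑ i : Fin NS, av (fun v : Fin e => (sterm n L y i (v % B) : ℝ)) =
      (2 : ℝ) ^ n / B * ((∑ r ∈ range B, ∑ l ∈ range L, y l r : ℕ) : ℝ) := by
  have h1 : ∀ i : Fin NS, av (fun v : Fin e => (sterm n L y i (v % B) : ℝ)) =
      (∑ r ∈ range B, (sterm n L y i r : ℝ)) / B :=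
    fun i => av_mod he hB fun r => (sterm n L y i r : ℝ)
  rw [sum_congr rfl fun i _ => h1 i, ← sum_div,
    Fin.sum_univ_eq_sum_range (fun i => ∑ r ∈ range B, (sterm n L y i r : ℝ)), sum_comm]
  have h2 : ∀ r ∈ range B, ∑ i ∈ range NS, (sterm n L y i r : ℝ) =
      (2 : ℝ) ^ n * ((∑ l ∈ range L, y l r : ℕ) : ℝ) := by
    intro r _
    have := sum_sterm hn hL y r
    exact_mod_cast this
  rw [sum_congr rfl h2, ← mul_sum]
  push_cast
  ring

/-- Upper tail of the stratified estimator. -/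
theorem strat_up {NS e B n L : ℕ} (he : 0 < e) (hB : B ∣ e) (hn : 2 ^ n ≤ NS) (hL : L ≤ n + 1)
    (y : ℕ → ℕ → ℕ) {M η t : ℝ} (hM : 0 < M) (hη0 : 0 < η) (hη1 : η ≤ 1) (ht : 0 ≤ t)
    (hy : ∀ r < B, ((∑ l ∈ range L, 2 ^ l * y l r : ℕ) : ℝ) ≤ M) :
    av (fun u : Fin NS → Fin e =>
      if (1 + η) * ((2 : ℝ) ^ n / B * ((∑ r ∈ range B, ∑ l ∈ range L, y l r : ℕ) : ℝ)) + t <
        (strat n L B (bv u) y : ℝ) then (1 : ℝ) else 0) ≤ Real.exp (-(η * t / M)) := by
  have hB0 : 0 < B := Nat.pos_of_dvd_of_pos hB he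
  have h := conc_up (N := NS) he (fun i v => (sterm n L y i (v % B) : ℝ)) hM hη0 hη1 ht
    (fun i v => Nat.cast_nonneg _) (fun i v =>
      (Nat.cast_le.mpr (sterm_le n L y i _)).trans (hy _ (Nat.mod_lt _ hB0)))
  rw [sum_av_sterm he hB hn hL y] at h
  refine le_trans (le_of_eq (av_congr fun u => ?_)) h
  rw [strat_eq_fin L B hn u y]

/-- Lower tail of the stratified estimator. -/
theorem strat_down {NS e B n L : ℕ} (he : 0 < e) (hB : B ∣ e) (hn : 2 ^ n ≤ NS) (hL : L ≤ n + 1)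
    (y : ℕ → ℕ → ℕ) {M η t : ℝ} (hM : 0 < M) (hη0 : 0 < η) (hη1 : η ≤ 1) (ht : 0 ≤ t)
    (hy : ∀ r < B, ((∑ l ∈ range L, 2 ^ l * y l r : ℕ) : ℝ) ≤ M) :
    av (fun u : Fin NS → Fin e =>
      if (strat n L B (bv u) y : ℝ) <
        (1 - η) * ((2 : ℝ) ^ n / B * ((∑ r ∈ range B, ∑ l ∈ range L, y l r : ℕ) : ℝ)) - t
      then (1 : ℝ) else 0) ≤ Real.exp (-(η * t / M)) := by
  have hB0 : 0 < B := Nat.pos_of_dvd_of_pos hB he
  have h := conc_down (N := NS) he (fun i v => (sterm n L y i (v % B) : ℝ)) hM hη0 hη1 ht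
    (fun i v => Nat.cast_nonneg _) (fun i v =>
      (Nat.cast_le.mpr (sterm_le n L y i _)).trans (hy _ (Nat.mod_lt _ hB0)))
  rw [sum_av_sterm he hB hn hL y] at h
  refine le_trans (le_of_eq (av_congr fun u => ?_)) h
  rw [strat_eq_fin L B hn u y]

/-- The estimator reads the seeds below `2 ^ n` and the used entries of `y` only. -/
theorem strat_congr {n L B : ℕ} {sd sd' : ℕ → ℕ} {y y' : ℕ → ℕ → ℕ}
    (hs : ∀ i < 2 ^ n, sd i = sd' i)
    (hy : ∀ i < 2 ^ n, ∀ l < L, i * 2 ^ l < 2 ^ n → y l (sd i % B) = y' l (sd i % B)) :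
    strat n L B sd y = strat n L B sd' y' := by
  rw [strat_eq, strat_eq]
  apply sum_congr rfl
  intro i hi
  have hi' := mem_range.mp hi
  unfold sterm
  apply sum_congr rfl
  intro l hl
  split_ifs with h
  · rw [← hs i hi', hy i hi' l (mem_range.mp hl) h]
  · rfl

/-- Resampling of one block of seeds. -/
theorem av_block {N e NS b : ℕ} (he : 0 < e) (hNS : 0 < NS) (hb : (b + 1) * NS ≤ N)
    (f : (ℕ → ℕ) → ℝ) :
    av (fun c : Fin N → Fin e => f (bv c)) =
      av (fun c : Fin N → Fin e => av (fun u : Fin NS → Fin e => f (setBlk NS (bv c) b (bv u)))) := by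
  have : Nonempty (Fin e) := ⟨⟨0, he⟩⟩
  have hb' : b * NS + NS ≤ N := by rw [← Nat.succ_mul]; exact hb
  let φ : Fin NS → Fin N := fun j => ⟨b * NS + j, by have := j.isLt; omega⟩
  have hφ : Function.Injective φ := by
    intro j j' h
    simp only [φ, Fin.ext_iff] at h
    exact Fin.ext (by omega)
  rw [← av_resample_set (A := fun _ : Fin N => Fin e)
    (univ.filter fun i : Fin N => (i : ℕ) / NS = b) (fun c => f (bv c))]
  apply av_congr
  intro c
  rw [← av_restrict φ hφ (fun u : Fin NS → Fin e => f (setBlk NS (bv c) b (bv u)))]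
  apply av_congr
  intro d
  congr 1
  funext i
  unfold setBlk
  by_cases hi : i / NS = b
  · have h1 := Nat.div_add_mod i NS
    have h2 := Nat.mod_lt i hNS
    rw [hi, mul_comm] at h1
    have h3 : i < N := by omega
    rw [if_pos hi]
    unfold bv
    rw [dif_pos h3, dif_pos h2, piecewise_eq_of_mem _ _ _ (by simpa using hi)]
    congr 2
    exact Fin.ext h1.symm
  · rw [if_neg hi]
    unfold bv
    split_ifs with h3
    · rw [piecewise_eq_of_notMem _ _ _ (by simpa using hi)]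
    · rfl

end Vale.Agent.P315Z
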