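import Vale.Agent.P315Z.Ako1
import Vale.Agent.P315Z.Conc

/-! P315Z: the start algorithm succeeds with probability at least `5 / 6`. -/

set_option autoImplicit false

namespace Vale.Agent.P315Z

open Finset Vale.Agent.P315.H731

variable {P : Par} {c : ℕ → ℕ → ℕ}

theorem ako_tent_mono {w f g : ℝ} (hw : 0 < w) (h : f ≤ g) :
    min f (2 * w) - min f w ≤ min g (2 * w) - min g w := by
  simp only [min_def]
  split_ifs <;> linarith

theorem ako_tent_nonneg {w : ℝ} (hw : 0 < w) (f : ℝ) : 0 ≤ min f (2 * w) - min f w := by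
  simp only [min_def]
  split_ifs <;> linarith

theorem ako_tent_le {w : ℝ} (hw : 0 < w) (f : ℝ) : min f (2 * w) - min f w ≤ w := by
  simp only [min_def]
  split_ifs <;> linarith

theorem ako_tent_up {w D Y f : ℝ} (hw : 0 < w) (h0 : 0 ≤ D) (h1 : D ≤ 1 / 16)
    (hf : f ≤ Y + 8 * D * w) :
    min f (2 * w) - min f w ≤ min ((1 + 16 * D) * Y) (2 * w) - min ((1 + 16 * D) * Y) w := by
  rcases le_or_gt (Y + 8 * D * w) w with h | h
  · rw [min_eq_left (by linarith : f ≤ 2 * w), min_eq_left (by linarith : f ≤ w), sub_self]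
    exact ako_tent_nonneg hw _
  · refine ako_tent_mono hw (hf.trans ?_)
    have h2 : w ≤ 2 * Y := by nlinarith
    nlinarith

theorem ako_tent_down {w D y f : ℝ} (hw : 0 < w) (h0 : 0 ≤ D) (h1 : D ≤ 1 / 16) (hy : 0 ≤ y)
    (hf : min y (4 * w) - 8 * D * w ≤ f) :
    min ((1 - 8 * D) * y) (2 * w) - min ((1 - 8 * D) * y) w ≤ min f (2 * w) - min f w := by
  rcases le_or_gt ((1 - 8 * D) * y) w with h | h
  · rw [min_eq_left (by linarith : (1 - 8 * D) * y ≤ 2 * w), min_eq_left h, sub_self]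
    exact ako_tent_nonneg hw _
  · have h2 : w ≤ y := by nlinarith
    rcases le_total y (4 * w) with h3 | h3
    · rw [min_eq_left h3] at hf
      refine ako_tent_mono hw (le_trans ?_ hf)
      nlinarith
    · rw [min_eq_right h3] at hf
      have h4 : 2 * w ≤ f := by nlinarith
      rw [min_eq_right h4, min_eq_right (by linarith : w ≤ f)]
      have := ako_tent_le hw ((1 - 8 * D) * y)
      linarith

theorem tent_cast (a l y : ℕ) :
    (tent a l y : ℝ) = min (y : ℝ) (2 ^ (a - l)) - min (y : ℝ) (2 ^ (a - l - 1)) := by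
  unfold tent
  rw [Nat.cast_sub (min_le_min le_rfl (Nat.pow_le_pow_right (by norm_num) (Nat.sub_le _ _)))]
  push_cast
  rfl

theorem ako_telescope (a L : ℕ) (y : ℝ) :
    ∑ l ∈ range L, (min y (2 ^ (a - l)) - min y (2 ^ (a - l - 1))) =
      min y (2 ^ a) - min y (2 ^ (a - L)) :=
  Finset.sum_range_sub' (fun l => min y ((2 : ℝ) ^ (a - l))) L

theorem ako_dl (hP : P.Ok) : (512 : ℝ) ≤ 2 ^ P.dl := by
  have h1 := hP.hdl
  have h2 := hP.k1
  have h3 : 512 ≤ 2 ^ P.dl := by omega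
  exact_mod_cast h3

/-- The tents of one child: upper and lower bound. `f l` is the estimate at scale `a + 1 - l`. -/
theorem tents (hP : P.Ok) {j a v : ℕ} (hj : j ≤ P.k) (ha : P.LA ≤ a) (f : ℕ → ℕ)
    (hf : ∀ l < P.LA, Approx P j (a + 1 - l) 2 v (f l)) :
    ((∑ l ∈ range P.LA, tent a l (f l) : ℕ) : ℝ) ≤
        (1 + 16 / 2 ^ P.dl) * (gam P j * (2 ^ P.a0 * v)) ∧
      min ((1 - 8 / 2 ^ P.dl) * ((2 : ℝ) ^ P.a0 * v / gam P j)) (2 ^ a) - 2 ^ (a - P.LA) ≤
        ((∑ l ∈ range P.LA, tent a l (f l) : ℕ) : ℝ) := by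
  have hd := ako_dl hP
  have hg := (gam_le hP hj).1
  have hd0 : (0 : ℝ) < 2 ^ P.dl := by positivity
  have h0 : (0 : ℝ) ≤ 1 / 2 ^ P.dl := by positivity
  have h1 : (1 : ℝ) / 2 ^ P.dl ≤ 1 / 16 := one_div_le_one_div_of_le (by norm_num) (by linarith)
  have e16 : (16 : ℝ) / 2 ^ P.dl = 16 * (1 / 2 ^ P.dl) := by ring
  have e8 : (8 : ℝ) / 2 ^ P.dl = 8 * (1 / 2 ^ P.dl) := by ring
  have hY : (0 : ℝ) ≤ gam P j * (2 ^ P.a0 * v) := by positivity
  have hy : (0 : ℝ) ≤ 2 ^ P.a0 * v / gam P j := by positivity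
  have key : ∀ l < P.LA, (2 : ℝ) ^ (a - l) = 2 * 2 ^ (a - l - 1) ∧
      (2 : ℝ) ^ (a + 1 - l) = 4 * 2 ^ (a - l - 1) := by
    intro l hl
    have e1 : a - l = (a - l - 1) + 1 := by omega
    have e2 : a + 1 - l = (a - l - 1) + 2 := by omega
    constructor
    · conv_lhs => rw [e1]
      rw [pow_succ]; ring
    · rw [e2, pow_add]; ring
  rw [Nat.cast_sum, e16, e8]
  constructor
  · have h2 : ∑ l ∈ range P.LA, (tent a l (f l) : ℝ) ≤ ∑ l ∈ range P.LA,
        (min ((1 + 16 * (1 / 2 ^ P.dl)) * (gam P j * (2 ^ P.a0 * v))) (2 ^ (a - l)) -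
          min ((1 + 16 * (1 / 2 ^ P.dl)) * (gam P j * (2 ^ P.a0 * v))) (2 ^ (a - l - 1))) := by
      refine Finset.sum_le_sum fun l hl => ?_
      have hl' := Finset.mem_range.1 hl
      have h3 := (hf l hl').1
      rw [(key l hl').2] at h3
      rw [tent_cast, (key l hl').1]
      refine ako_tent_up (by positivity) h0 h1 (h3.trans (le_of_eq ?_))
      ring
    rw [ako_telescope] at h2
    have h4 : (0 : ℝ) ≤ min ((1 + 16 * (1 / 2 ^ P.dl)) * (gam P j * (2 ^ P.a0 * v)))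
        (2 ^ (a - P.LA)) := le_min (by positivity) (by positivity)
    have h5 := min_le_left ((1 + 16 * (1 / 2 ^ P.dl)) * (gam P j * (2 ^ P.a0 * v))) ((2 : ℝ) ^ a)
    linarith
  · have h2 : ∑ l ∈ range P.LA,
        (min ((1 - 8 * (1 / 2 ^ P.dl)) * ((2 : ℝ) ^ P.a0 * v / gam P j)) (2 ^ (a - l)) -
          min ((1 - 8 * (1 / 2 ^ P.dl)) * ((2 : ℝ) ^ P.a0 * v / gam P j)) (2 ^ (a - l - 1))) ≤
        ∑ l ∈ range P.LA, (tent a l (f l) : ℝ) := by
      refine Finset.sum_le_sum fun l hl => ?_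
      have hl' := Finset.mem_range.1 hl
      have h3 := (hf l hl').2
      rw [(key l hl').2] at h3
      rw [tent_cast, (key l hl').1]
      refine ako_tent_down (by positivity) h0 h1 hy (le_trans (le_of_eq ?_) h3)
      ring
    rw [ako_telescope] at h2
    have h5 := min_le_right ((1 - 8 * (1 / 2 ^ P.dl)) * ((2 : ℝ) ^ P.a0 * v / gam P j))
      ((2 : ℝ) ^ (a - P.LA))
    linarith

theorem wid_eq (P : Par) (a : ℕ) : wid P a = tlen P a * res P a := by
  unfold wid tlen res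
  rw [← pow_add]
  congr 1
  omega

/-- The entry of a table for a grid position. -/
theorem fa_abody (sd : ℕ → ℕ) (A : ℕ → ℕ → ℕ → ℕ → List ℕ) (j i a s : ℕ) (hs : res P a ∣ s) :
    fa P (abody P sd c A j i a) a s = min (2 ^ a) (if j = 0 then 2 ^ P.a0 * c i s
      else strat P.nA P.LA (ar P j) sd (fun l r => tent a l
        (zh P (A (j - P.ha) (i * ar P j + r) (a + 1 - l)) (a + 1 - l) s)) /
          2 ^ (P.nA - P.lb * min j P.ha)) := by
  have hw : 0 < wid P a := by unfold wid; positivity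
  have hr : 0 < res P a := by unfold res; positivity
  have h1 : s % wid P a / res P a < tlen P a := by
    rw [Nat.div_lt_iff_lt_mul hr, ← wid_eq]
    exact Nat.mod_lt _ hw
  have h2 : res P a ∣ s % wid P a :=
    (Nat.dvd_mod_iff ⟨tlen P a, by rw [wid_eq, mul_comm]⟩).2 hs
  have h3 : s / wid P a * wid P a + s % wid P a / res P a * res P a = s := by
    rw [Nat.div_mul_cancel h2, Nat.div_add_mod']
  unfold fa abody
  rw [List.getD_eq_getElem _ _ (by simpa using h1)]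
  simp only [List.getElem_map, List.getElem_range]
  rw [h3]

theorem ako_sum_min (x : ℕ → ℝ) {b : ℝ} (hb : 0 ≤ b) (hx : ∀ r, 0 ≤ x r) (n : ℕ) :
    min (∑ r ∈ range n, x r) b ≤ ∑ r ∈ range n, min (x r) b := by
  induction n with
  | zero => simp
  | succ n ih =>
    rw [Finset.sum_range_succ, Finset.sum_range_succ]
    have h1 : 0 ≤ ∑ r ∈ range n, x r := Finset.sum_nonneg fun r _ => hx r
    have h2 := hx n
    refine le_trans ?_ (add_le_add_left ih _)
    simp only [min_def]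
    split_ifs <;> linarith

theorem ar_eq (P : Par) (j : ℕ) : ar P j = P.B ^ min j P.ha := by
  unfold ar Par.B
  rw [← pow_mul]

theorem ako_ha_pos (P : Par) : 0 < P.ha := Nat.succ_pos _

/-- The entries that are read for a child lie in the domain. -/
theorem DomA.child {j i a s r l s' : ℕ} (hD : DomA P j i a s) (hj : j ≠ 0) (hr : r < ar P j)
    (hl : l < P.LA) (hs : s' ≤ s + 3 * wid P (a + 1 - l)) :
    DomA P (j - P.ha) (i * ar P j + r) (a + 1 - l) s' := by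
  obtain ⟨⟨n1, n2⟩, lo, hi, pos⟩ := hD
  have hha := ako_ha_pos P
  refine ⟨⟨by omega, ?_⟩, ?_, by omega, ?_⟩
  · have e : P.k - (j - P.ha) = (P.k - j) + min j P.ha := by omega
    rw [e, pow_add, ← ar_eq]
    have h1 : (i + 1) * ar P j ≤ P.B ^ (P.k - j) * ar P j := Nat.mul_le_mul_right _ n2
    rw [add_mul, one_mul] at h1
    omega
  · have h1 : (j - P.ha + 1) * P.LA ≤ j * P.LA := Nat.mul_le_mul_right _ (by omega)
    rw [add_mul, one_mul] at lo
    omega
  · have h1 : wid P (a + 1 - l) ≤ 2 ^ (P.am + P.k + 1 - P.a0) := by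
      unfold wid
      exact Nat.pow_le_pow_right (by norm_num) (by omega)
    unfold pA at pos ⊢
    have h2 : 4 * 2 ^ (P.am + P.k + 1 - P.a0) * (P.k - j + 1 + 1) ≤
        4 * 2 ^ (P.am + P.k + 1 - P.a0) * (P.k - (j - P.ha) + 1) :=
      Nat.mul_le_mul_left _ (by omega)
    rw [mul_add _ _ 1, mul_one] at h2
    omega

theorem tent_le (a l y : ℕ) : tent a l y ≤ 2 ^ (a - l - 1) := by
  unfold tent
  have h1 : 2 ^ (a - l) ≤ 2 * 2 ^ (a - l - 1) := by
    rw [← pow_succ']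
    exact Nat.pow_le_pow_right (by norm_num) (by omega)
  omega

theorem ako_lA (hP : P.Ok) : P.dl + 1 ≤ P.lA := by
  have h1 := hP.hA
  have h2 : 1 ≤ P.LA := by unfold Par.LA; omega
  have h3 : 1 ≤ P.lcnt := by unfold Par.lcnt; omega
  have h4 : 16 * 1 * 2 ^ (2 * P.dl) * 1 ≤ 16 * P.LA * 2 ^ (2 * P.dl) * P.lcnt := by gcongr
  have h5 : 2 ^ (2 * P.dl + 4) ≤ 2 ^ P.lA := by
    rw [pow_add]
    omega
  have h6 := (Nat.pow_le_pow_iff_right (by norm_num : 1 < 2)).1 h5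
  omega

/-- The arithmetic of one entry. -/
theorem ako_arith {D g g' Y T X S W : ℝ} {n : ℕ} (h0 : 0 < D) (h1 : D ≤ 1 / 16) (hg' : 1 ≤ g')
    (hg : (1 + 20 * D) * g' ≤ g) (hY : 0 ≤ Y) (hS : 0 < S) (hW : 8 ≤ D * W)
    (hT1 : T ≤ (1 + 16 * D) * (g' * Y)) (hT2 : min ((1 - 8 * D) * (Y / g')) W - D * W / 4 ≤ T)
    (hX1 : X ≤ (1 + D / 4) * (S * T) + S * (D * W / 8))
    (hX2 : (1 - D / 4) * (S * T) - S * (D * W / 8) ≤ X)
    (hn1 : S * n ≤ X) (hn2 : X ≤ S * (n + 1)) :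
    min W (n : ℝ) ≤ g * Y + D * W ∧ min (Y / g) W - D * W ≤ min W (n : ℝ) := by
  have hW0 : 0 < W := by
    by_contra h
    nlinarith
  have hDW : 0 < D * W := by linarith
  constructor
  · have a1 : (n : ℝ) ≤ (1 + D / 4) * T + D * W / 8 := by
      refine le_of_mul_le_mul_left ?_ hS
      nlinarith
    have a2 : (1 + D / 4) * T ≤ (1 + D / 4) * ((1 + 16 * D) * (g' * Y)) :=
      mul_le_mul_of_nonneg_left hT1 (by linarith)
    have a3 : 0 ≤ g' * Y := by positivity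
    have a4 : (1 + D / 4) * (1 + 16 * D) ≤ 1 + 20 * D := by nlinarith
    have a5 := mul_le_mul_of_nonneg_right a4 a3
    have a6 := mul_le_mul_of_nonneg_right hg hY
    have a7 := min_le_right W (n : ℝ)
    nlinarith
  · have a1 : (1 - D / 4) * T - D * W / 8 ≤ n + 1 := by
      refine le_of_mul_le_mul_left ?_ hS
      nlinarith
    have a2 := mul_le_mul_of_nonneg_left hT2 (by linarith : 0 ≤ 1 - D / 4)
    have a3 : Y / g ≤ (1 - 8 * D) * (Y / g') := by
      have b1 : 0 < g' := by linarith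
      have b2 : 0 < g := by nlinarith
      have b3 : g' ≤ (1 - 8 * D) * g := by
        have := mul_le_mul_of_nonneg_left hg (by linarith : 0 ≤ 1 - 8 * D)
        have b4 : 1 ≤ (1 - 8 * D) * (1 + 20 * D) := by nlinarith
        nlinarith
      rw [← mul_div_assoc, div_le_div_iff₀ b2 b1]
      nlinarith
    have a4 : min (Y / g) W ≤ min ((1 - 8 * D) * (Y / g')) W := min_le_min a3 le_rfl
    have a5 := min_le_right ((1 - 8 * D) * (Y / g')) W
    have a6 := min_le_right (Y / g) W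
    have a7 := mul_le_mul_of_nonneg_left a5 h0.le
    have a8 : 0 ≤ D * (D * W) := by positivity
    refine le_min (by linarith) ?_
    nlinarith

open Classical in
/-- One entry. -/
theorem ako_step (hP : P.Ok) (hc : ∀ i p, c i p ≤ 1) {A : ℕ → ℕ → ℕ → ℕ → List ℕ} {j i a s : ℕ}
    (hj : j ≠ 0) (hA : AkoLev P c A (j - P.ha)) (hD : DomA P j i a s) (hs : res P a ∣ s) :
    av (fun u : Fin P.NS → Fin P.E =>
      if ¬ Approx P j a 1 (td P c j i s)
        (fa P (abody P (fun i => bv u (i % P.NS)) c A j i a) a s) then (1 : ℝ) else 0) ≤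
      2 * Real.exp (-(P.lcnt : ℝ)) := by
  have hjk : j ≤ P.k := hD.node.1
  have hj' : j - P.ha ≤ P.k := by omega
  have hha := ako_ha_pos P
  have hlo := hD.lo
  rw [add_mul, one_mul] at hlo
  have hLA : P.LA ≤ a := by omega
  have hd := ako_dl hP
  have hd0 : (0 : ℝ) < 2 ^ P.dl := by positivity
  obtain ⟨D, hDdef⟩ : ∃ D : ℝ, D = 1 / 2 ^ P.dl := ⟨_, rfl⟩
  have h0 : 0 < D := by rw [hDdef]; positivity
  have h1 : D ≤ 1 / 16 := by
    rw [hDdef]
    exact one_div_le_one_div_of_le (by norm_num) (by linarith)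
  have hDD : D * 2 ^ P.dl = 1 := by rw [hDdef]; field_simp
  obtain ⟨y, hy⟩ : ∃ y : ℕ → ℕ → ℕ, y = fun l r => tent a l
      (zh P (A (j - P.ha) (i * ar P j + r) (a + 1 - l)) (a + 1 - l) s) := ⟨_, rfl⟩
  have hmin : P.lb * min j P.ha ≤ P.lb * P.ha := Nat.mul_le_mul_left _ (min_le_right _ _)
  have hE : 0 < P.E := by unfold Par.E; positivity
  have hB : ar P j ∣ P.E := by
    unfold ar Par.E Par.lE
    exact pow_dvd_pow 2 (by omega)
  have hn : 2 ^ P.nA ≤ P.NS := by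
    unfold Par.NS Par.lN
    exact Nat.pow_le_pow_right (by norm_num) (by omega)
  have hL : P.LA ≤ P.nA + 1 := by
    have := ako_lA hP
    unfold Par.LA Par.nA
    omega
  have hLA1 : 1 ≤ P.LA := by unfold Par.LA; omega
  have hM : (0 : ℝ) < P.LA * 2 ^ a / 2 := by
    have : (0 : ℝ) < P.LA := by exact_mod_cast hLA1
    exact div_pos (mul_pos this (pow_pos two_pos _)) two_pos
  have hyM : ∀ r < ar P j, ((∑ l ∈ range P.LA, 2 ^ l * y l r : ℕ) : ℝ) ≤ P.LA * 2 ^ a / 2 := by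
    intro r _
    have h2 : 2 * ∑ l ∈ range P.LA, 2 ^ l * y l r ≤ P.LA * 2 ^ a := by
      rw [Finset.mul_sum]
      refine (Finset.sum_le_card_nsmul _ _ (2 ^ a) fun l hl => ?_).trans (by simp)
      have hl' := Finset.mem_range.1 hl
      have e : 2 ^ a = 2 * (2 ^ l * 2 ^ (a - l - 1)) := by
        rw [← pow_add, ← pow_succ']
        congr 1
        omega
      rw [e, hy]
      exact Nat.mul_le_mul_left _ (Nat.mul_le_mul_left _ (tent_le _ _ _))
    have h3 : (2 : ℝ) * ((∑ l ∈ range P.LA, 2 ^ l * y l r : ℕ) : ℝ) ≤ P.LA * 2 ^ a := by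
      exact_mod_cast h2
    linarith
  obtain ⟨S, hS⟩ : ∃ S : ℕ, S = 2 ^ (P.nA - P.lb * min j P.ha) := ⟨_, rfl⟩
  have hS0 : 0 < S := by rw [hS]; positivity
  have hS0' : (0 : ℝ) < S := by exact_mod_cast hS0
  have hSA : 2 ^ P.lA ≤ S := by
    rw [hS]
    refine Nat.pow_le_pow_right (by norm_num) ?_
    unfold Par.nA
    omega
  have hSe : (2 : ℝ) ^ P.nA / (ar P j : ℝ) = S := by
    have e : 2 ^ P.nA = S * ar P j := by
      rw [hS]
      unfold ar
      rw [← pow_add]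
      congr 1
      unfold Par.nA
      omega
    have e' : (2 : ℝ) ^ P.nA = S * (ar P j : ℝ) := by exact_mod_cast e
    have h2 : (ar P j : ℝ) ≠ 0 := by
      unfold ar
      positivity
    rw [e']
    field_simp
  have hpa : (0 : ℝ) < 2 ^ a := pow_pos two_pos _
  have hpq : (0 : ℝ) < 2 ^ P.a0 := pow_pos two_pos _
  have ht : (0 : ℝ) ≤ S * (D * 2 ^ a / 8) :=
    mul_nonneg hS0'.le (div_pos (mul_pos h0 hpa) (by norm_num)).le
  have hup := strat_up (NS := P.NS) hE hB hn hL y hM (η := D / 4) (by linarith) (by linarith)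
    ht hyM
  have hdown := strat_down (NS := P.NS) hE hB hn hL y hM (η := D / 4) (by linarith)
    (by linarith) ht hyM
  rw [hSe] at hup hdown
  have hexp : Real.exp (-(D / 4 * (S * (D * 2 ^ a / 8)) / (P.LA * 2 ^ a / 2))) ≤
      Real.exp (-(P.lcnt : ℝ)) := by
    refine Real.exp_le_exp.2 (neg_le_neg ?_)
    rw [le_div_iff₀ hM]
    have h2 : ((16 * P.LA * 2 ^ (2 * P.dl) * P.lcnt : ℕ) : ℝ) ≤ S := by
      exact_mod_cast hP.hA.trans hSA
    push_cast at h2
    have h3 := mul_le_mul_of_nonneg_left h2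
      (div_pos (mul_pos (mul_pos h0 h0) hpa) (by norm_num : (0 : ℝ) < 32)).le
    have h4 : D * D * 2 ^ a / 32 * (16 * (P.LA : ℝ) * 2 ^ (2 * P.dl) * P.lcnt) =
        (D * 2 ^ P.dl) * (D * 2 ^ P.dl) * (P.lcnt * (P.LA * 2 ^ a / 2)) := by
      rw [two_mul, pow_add]
      ring
    rw [h4, hDD] at h3
    linarith
  -- the sum of the tents
  have hten : ∀ r < ar P j,
      ((∑ l ∈ range P.LA, y l r : ℕ) : ℝ) ≤ (1 + 16 * D) *
        (gam P (j - P.ha) * (2 ^ P.a0 * (tb P c (j - P.ha) (i * ar P j + r) s : ℝ))) ∧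
      min ((1 - 8 * D) * ((2 : ℝ) ^ P.a0 * (tb P c (j - P.ha) (i * ar P j + r) s : ℝ) /
        gam P (j - P.ha))) (2 ^ a) - 2 ^ (a - P.LA) ≤ ((∑ l ∈ range P.LA, y l r : ℕ) : ℝ) := by
    intro r hr
    have h2 := tents hP hj' hLA (v := tb P c (j - P.ha) (i * ar P j + r) s)
      (fun l => zh P (A (j - P.ha) (i * ar P j + r) (a + 1 - l)) (a + 1 - l) s)
      (fun l hl => zh_approx hP hc hj' _ _ _ _ fun s' h3 h4 =>
        hA _ _ _ (hD.child hj hr hl h4) h3)
    have e16 : (16 : ℝ) / 2 ^ P.dl = 16 * D := by rw [hDdef]; ring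
    have e8 : (8 : ℝ) / 2 ^ P.dl = 8 * D := by rw [hDdef]; ring
    rw [e16, e8] at h2
    rw [hy]
    exact h2
  have hg' := (gam_le hP hj').1
  have htd : (td P c j i s : ℝ) =
      ∑ r ∈ range (ar P j), (tb P c (j - P.ha) (i * ar P j + r) s : ℝ) := by
    rw [td_pos hj, Nat.cast_sum]
  have hT1 : ((∑ r ∈ range (ar P j), ∑ l ∈ range P.LA, y l r : ℕ) : ℝ) ≤
      (1 + 16 * D) * (gam P (j - P.ha) * (2 ^ P.a0 * (td P c j i s : ℝ))) := by
    rw [Nat.cast_sum, htd, Finset.mul_sum, Finset.mul_sum, Finset.mul_sum]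
    exact Finset.sum_le_sum fun r hr => (hten r (Finset.mem_range.1 hr)).1
  have hT2 : min ((1 - 8 * D) * ((2 : ℝ) ^ P.a0 * (td P c j i s : ℝ) / gam P (j - P.ha))) (2 ^ a) -
      D * 2 ^ a / 4 ≤ ((∑ r ∈ range (ar P j), ∑ l ∈ range P.LA, y l r : ℕ) : ℝ) := by
    have h2 := ako_sum_min (fun r => (1 - 8 * D) * ((2 : ℝ) ^ P.a0 *
      (tb P c (j - P.ha) (i * ar P j + r) s : ℝ) / gam P (j - P.ha))) (b := 2 ^ a)
      hpa.le (fun r => mul_nonneg (by linarith)
        (div_nonneg (mul_nonneg hpq.le (Nat.cast_nonneg _)) (by linarith))) (ar P j)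
    have h3 := Finset.sum_le_sum fun r hr => (hten r (Finset.mem_range.1 hr)).2
    rw [Finset.sum_sub_distrib, Finset.sum_const, Finset.card_range, nsmul_eq_mul] at h3
    rw [← Finset.mul_sum, ← Finset.sum_div, ← Finset.mul_sum, ← htd] at h2
    have h4 : ar P j * 2 ^ (a - P.LA) * 4 * 2 ^ P.dl ≤ 2 ^ a := by
      unfold ar
      rw [show (4 : ℕ) = 2 ^ 2 by norm_num, ← pow_add, ← pow_add, ← pow_add]
      refine Nat.pow_le_pow_right (by norm_num) ?_
      unfold Par.LA at hLA ⊢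
      omega
    have h5 : (ar P j : ℝ) * 2 ^ (a - P.LA) * 4 * 2 ^ P.dl ≤ 2 ^ a := by exact_mod_cast h4
    have h6 := mul_le_mul_of_nonneg_left h5 h0.le
    have h7 : D * ((ar P j : ℝ) * 2 ^ (a - P.LA) * 4 * 2 ^ P.dl) =
        (D * 2 ^ P.dl) * ((ar P j : ℝ) * 2 ^ (a - P.LA) * 4) := by ring
    rw [h7, hDD] at h6
    rw [Nat.cast_sum]
    linarith
  have hg : (1 + 20 * D) * gam P (j - P.ha) ≤ gam P j := by
    unfold gam
    have e20 : (20 : ℝ) / 2 ^ P.dl = 20 * D := by rw [hDdef]; ring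
    rw [e20, ← pow_succ']
    exact pow_le_pow_right₀ (by linarith) (by omega)
  have hW : 8 ≤ D * 2 ^ a := by
    have h2 : 8 * 2 ^ P.dl ≤ 2 ^ a := by
      rw [show (8 : ℕ) = 2 ^ 3 by norm_num, ← pow_add]
      exact Nat.pow_le_pow_right (by norm_num) (by omega)
    have h3 : (8 : ℝ) * 2 ^ P.dl ≤ 2 ^ a := by exact_mod_cast h2
    have h4 := mul_le_mul_of_nonneg_left h3 h0.le
    rw [mul_left_comm, hDD, mul_one] at h4
    exact h4
  have hfin := add_le_add (hup.trans hexp) (hdown.trans hexp)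
  rw [← av_add, ← two_mul] at hfin
  refine le_trans (av_mono fun u => ?_) hfin
  by_cases c1 : (1 + D / 4) * ((S : ℝ) *
      ((∑ r ∈ range (ar P j), ∑ l ∈ range P.LA, y l r : ℕ) : ℝ)) + S * (D * 2 ^ a / 8) <
      (strat P.nA P.LA (ar P j) (bv u) y : ℝ)
  · rw [if_pos c1]
    split_ifs <;> norm_num
  by_cases c2 : (strat P.nA P.LA (ar P j) (bv u) y : ℝ) < (1 - D / 4) * ((S : ℝ) *
      ((∑ r ∈ range (ar P j), ∑ l ∈ range P.LA, y l r : ℕ) : ℝ)) - S * (D * 2 ^ a / 8)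
  · rw [if_pos c2]
    split_ifs <;> norm_num
  rw [if_neg c1, if_neg c2, if_neg (not_not.2 ?_)]
  · norm_num
  have hst : strat P.nA P.LA (ar P j) (fun i => bv u (i % P.NS)) y =
      strat P.nA P.LA (ar P j) (bv u) y :=
    strat_congr (fun i hi => by rw [Nat.mod_eq_of_lt (lt_of_lt_of_le hi hn)])
      (fun _ _ _ _ _ => rfl)
  rw [fa_abody _ _ _ _ _ _ hs, if_neg hj, ← hy, ← hS, hst]
  have hn1 : (S : ℝ) * ((strat P.nA P.LA (ar P j) (bv u) y / S : ℕ) : ℝ) ≤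
      (strat P.nA P.LA (ar P j) (bv u) y : ℝ) := by
    exact_mod_cast Nat.mul_div_le _ _
  have hn2 : (strat P.nA P.LA (ar P j) (bv u) y : ℝ) ≤
      (S : ℝ) * (((strat P.nA P.LA (ar P j) (bv u) y / S : ℕ) : ℝ) + 1) := by
    exact_mod_cast (Nat.lt_mul_div_succ _ hS0).le
  have h2 := ako_arith h0 h1 hg' hg (mul_nonneg hpq.le (Nat.cast_nonneg _)) hS0' hW hT1 hT2 (not_lt.1 c1) (not_lt.1 c2)
    hn1 hn2
  unfold Approx
  have e1 : (1 : ℝ) * 2 ^ a / 2 ^ P.dl = D * 2 ^ a := by rw [hDdef]; ring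
  rw [e1, Nat.cast_min, Nat.cast_pow, Nat.cast_ofNat]
  exact h2

theorem ako_NS_pos (P : Par) : 0 < P.NS := by unfold Par.NS; positivity

theorem blk_setBlk_self (S v : ℕ → ℕ) (b : ℕ) :
    blk P (setBlk P.NS S b v) b = fun i => v (i % P.NS) := by
  funext i
  unfold blk setBlk
  have h1 : (b * P.NS + i % P.NS) / P.NS = b := by
    rw [add_comm, Nat.add_mul_div_right _ _ (ako_NS_pos P),
      Nat.div_eq_of_lt (Nat.mod_lt _ (ako_NS_pos P)), zero_add]
  rw [if_pos h1, add_comm, Nat.add_mul_mod_self_right, Nat.mod_mod]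

theorem blk_setBlk_ne (S v : ℕ → ℕ) {b b' : ℕ} (h : b' ≠ b) :
    blk P (setBlk P.NS S b v) b' = blk P S b' := by
  funext i
  unfold blk setBlk
  have h1 : (b' * P.NS + i % P.NS) / P.NS = b' := by
    rw [add_comm, Nat.add_mul_div_right _ _ (ako_NS_pos P),
      Nat.div_eq_of_lt (Nat.mod_lt _ (ako_NS_pos P)), zero_add]
  rw [if_neg (by rw [h1]; exact h)]

theorem akoLev_zero {S : ℕ → ℕ} (X : Sys P S c) : AkoLev P c X.A 0 := by
  intro i a s _ hs
  have e : X.A 0 i a = abody P (blk P S (bA 0)) c X.A 0 i a := funext fun b => X.eqA 0 i a b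
  rw [e, fa_abody _ _ _ _ _ _ hs, if_pos rfl, td_zero]
  unfold Approx gam
  rw [pow_zero, one_mul, div_one, Nat.cast_min]
  push_cast
  have h1 : (0 : ℝ) ≤ 1 * 2 ^ a / 2 ^ P.dl := by positivity
  have h2 := min_le_right ((2 : ℝ) ^ a) (2 ^ P.a0 * (c i s : ℝ))
  rw [min_comm ((2 : ℝ) ^ P.a0 * (c i s : ℝ))]
  constructor <;> linarith

theorem ako_abody_congr (sd : ℕ → ℕ) {A A' : ℕ → ℕ → ℕ → ℕ → List ℕ} {j : ℕ}
    (h : A (j - P.ha) = A' (j - P.ha)) (i a : ℕ) :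
    abody P sd c A j i a = abody P sd c A' j i a := by
  funext b
  unfold abody
  rw [h]

open Classical in
/-- One entry, with all seeds. -/
theorem ako_entry (hP : P.Ok) (hc : ∀ i p, c i p ≤ 1) (F : Fam P c) {j : ℕ} (hj : j ≠ 0)
    (hk : j ≤ P.k) (i a s : ℕ) :
    av (fun u : Fin P.N → Fin P.E =>
      if AkoLev P c (F.sys (bv u)).A (j - P.ha) ∧ DomA P j i a s ∧ res P a ∣ s ∧
        ¬ Approx P j a 1 (td P c j i s) (fa P ((F.sys (bv u)).A j i a) a s)
      then (1 : ℝ) else 0) ≤ 2 * Real.exp (-(P.lcnt : ℝ)) := by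
  have hE : 0 < P.E := by unfold Par.E; positivity
  have : Nonempty (Fin P.E) := ⟨⟨0, hE⟩⟩
  have hha := ako_ha_pos P
  have hb : (bA j + 1) * P.NS ≤ P.N := by
    unfold Par.N Par.nb bA
    refine Nat.mul_le_mul_right _ ?_
    have h1 : P.ne + P.k + 2 ≤ (P.ne + P.k + 2) ^ 2 := Nat.le_self_pow (by norm_num) _
    omega
  rw [av_block hE (ako_NS_pos P) hb (fun S =>
    if AkoLev P c (F.sys S).A (j - P.ha) ∧ DomA P j i a s ∧ res P a ∣ s ∧
      ¬ Approx P j a 1 (td P c j i s) (fa P ((F.sys S).A j i a) a s) then (1 : ℝ) else 0)]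
  refine av_le fun u => ?_
  have hdep : ∀ v : ℕ → ℕ, (F.sys (setBlk P.NS (bv u) (bA j) v)).A (j - P.ha) =
      (F.sys (bv u)).A (j - P.ha) := by
    intro v
    refine F.depA _ _ (j - P.ha) (fun j' hj' => blk_setBlk_ne _ _ ?_) _ le_rfl
    unfold bA
    omega
  by_cases h : AkoLev P c (F.sys (bv u)).A (j - P.ha) ∧ DomA P j i a s ∧ res P a ∣ s
  · refine le_trans (av_mono fun v => ?_) (ako_step hP hc hj h.1 h.2.1 h.2.2)
    have e : (F.sys (setBlk P.NS (bv u) (bA j) (bv v))).A j i a =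
        abody P (fun i => bv v (i % P.NS)) c (F.sys (bv u)).A j i a := by
      rw [← ako_abody_congr _ (hdep (bv v)), ← blk_setBlk_self (bv u) (bv v) (bA j)]
      exact funext fun b => (F.sys _).eqA j i a b
    rw [e]
    split_ifs with h1 h2 h3
    · exact absurd h2 h1.2.2.2
    all_goals norm_num
  · refine le_trans (av_le fun v => ?_) (by positivity : (0 : ℝ) ≤ _)
    rw [if_neg]
    intro h1
    refine h ⟨?_, h1.2.1, h1.2.2.1⟩
    have h2 := h1.1
    unfold AkoLev at h2 ⊢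
    rw [hdep] at h2
    exact h2

theorem ako_count (hP : P.Ok) :
    P.k * (P.B ^ P.k * ((P.am + P.k + 1) * (pA P 0 + 1))) * 2 ^ 10 ≤ 2 ^ P.lcnt := by
  have h1 : P.k + 1 ≤ 2 ^ P.k := Nat.lt_two_pow_self
  have h2 : P.am + P.k + 1 ≤ 2 ^ (P.am + P.k) := Nat.lt_two_pow_self
  have h3 : P.B ^ P.k = 2 ^ (P.lb * P.k) := by
    unfold Par.B
    rw [← pow_mul]
  have h4 : 2 ^ (P.lb * P.k) ≤ 2 ^ P.km := by
    refine Nat.pow_le_pow_right (by norm_num) ?_
    unfold Par.km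
    omega
  have h5 : 2 ^ (P.am + P.k + 1 - P.a0) ≤ 2 ^ P.km * 2 ^ P.k * 8 := by
    rw [show (8 : ℕ) = 2 ^ 3 by norm_num, ← pow_add, ← pow_add]
    refine Nat.pow_le_pow_right (by norm_num) ?_
    unfold Par.am Par.km
    omega
  have hx := hP.lx
  have hy := hP.ly
  have h6 : pA P 0 + 1 ≤ 2 ^ (P.km + 2 * P.k + 6) := by
    unfold pA pmax
    rw [Nat.sub_zero]
    have e : 2 ^ (P.km + 2 * P.k + 6) = 64 * (2 ^ P.km * 2 ^ P.k * 2 ^ P.k) := by
      rw [two_mul, pow_add, pow_add, pow_add]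
      ring
    have a0 : 1 ≤ 2 ^ P.k := Nat.one_le_two_pow
    have a1 : 2 ^ P.km ≤ 2 ^ P.km * 2 ^ P.k := Nat.le_mul_of_pos_right _ a0
    have a2 : 2 ^ P.km * 2 ^ P.k ≤ 2 ^ P.km * 2 ^ P.k * 2 ^ P.k := Nat.le_mul_of_pos_right _ a0
    have a3 : 4 * 2 ^ P.km * (P.k + 1) ≤ 4 * (2 ^ P.km * 2 ^ P.k) := by
      rw [mul_assoc]
      exact Nat.mul_le_mul_left _ (Nat.mul_le_mul_left _ h1)
    have a4 : 4 * 2 ^ (P.am + P.k + 1 - P.a0) * (P.k + 1) ≤
        4 * (2 ^ P.km * 2 ^ P.k * 8) * 2 ^ P.k := Nat.mul_le_mul (Nat.mul_le_mul_left _ h5) h1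
    have a5 : 4 * (2 ^ P.km * 2 ^ P.k * 8) * 2 ^ P.k = 32 * (2 ^ P.km * 2 ^ P.k * 2 ^ P.k) := by
      ring
    omega
  have h7 : P.k ≤ 2 ^ P.k := by omega
  calc P.k * (P.B ^ P.k * ((P.am + P.k + 1) * (pA P 0 + 1))) * 2 ^ 10
      ≤ 2 ^ P.k * (2 ^ (P.lb * P.k) * (2 ^ (P.am + P.k) * 2 ^ (P.km + 2 * P.k + 6))) * 2 ^ 10 := by
        rw [h3]
        gcongr
    _ = 2 ^ P.lcnt := by
        rw [← pow_add, ← pow_add, ← pow_add, ← pow_add]
        congr 1
        unfold Par.lcnt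
        omega

theorem ako_exp (n : ℕ) : 2 ^ n * Real.exp (-(n : ℝ)) ≤ 1 := by
  have h1 : (2 : ℝ) ≤ Real.exp 1 := by
    have := Real.add_one_le_exp 1
    linarith
  have h2 : (2 : ℝ) ^ n ≤ Real.exp n := by
    rw [← Real.exp_one_pow]
    exact pow_le_pow_left₀ (by norm_num) h1 n
  have h3 := mul_le_mul_of_nonneg_right h2 (Real.exp_pos (-(n : ℝ))).le
  rw [← Real.exp_add, add_neg_cancel, Real.exp_zero] at h3
  exact h3

open Classical in
/-- All entries. -/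
theorem ako_prob (hP : P.Ok) (hc : ∀ i p, c i p ≤ 1) (F : Fam P c) :
    av (fun u : Fin P.N → Fin P.E =>
      if ¬ AkoOk P c (F.sys (bv u)).A then (1 : ℝ) else 0) ≤ 1 / 6 := by
  have hha := ako_ha_pos P
  have h1 : ∀ u : Fin P.N → Fin P.E, (if ¬ AkoOk P c (F.sys (bv u)).A then (1 : ℝ) else 0) ≤
      ∑ t ∈ Icc 1 P.k ×ˢ (range (P.B ^ P.k) ×ˢ (range (P.am + P.k + 1) ×ˢ range (pA P 0 + 1))),
        if AkoLev P c (F.sys (bv u)).A (t.1 - P.ha) ∧ DomA P t.1 t.2.1 t.2.2.1 t.2.2.2 ∧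
          res P t.2.2.1 ∣ t.2.2.2 ∧ ¬ Approx P t.1 t.2.2.1 1 (td P c t.1 t.2.1 t.2.2.2)
            (fa P ((F.sys (bv u)).A t.1 t.2.1 t.2.2.1) t.2.2.1 t.2.2.2)
        then (1 : ℝ) else 0 := by
    intro u
    by_cases h : AkoOk P c (F.sys (bv u)).A
    · rw [if_neg (not_not.2 h)]
      exact Finset.sum_nonneg fun t _ => by split_ifs <;> norm_num
    · rw [if_pos h]
      have hex : ∃ j, ¬ AkoLev P c (F.sys (bv u)).A j := not_forall.1 h
      have hj := Nat.find_spec hex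
      have hmin : ∀ m < Nat.find hex, AkoLev P c (F.sys (bv u)).A m :=
        fun m hm => not_not.1 (Nat.find_min hex hm)
      obtain ⟨j, hjj⟩ : ∃ j, j = Nat.find hex := ⟨_, rfl⟩
      rw [← hjj] at hj hmin
      have hj0 : j ≠ 0 := by
        rintro rfl
        exact hj (akoLev_zero _)
      obtain ⟨i, a, s, hD, hs, hn⟩ : ∃ i a s, DomA P j i a s ∧ res P a ∣ s ∧
          ¬ Approx P j a 1 (td P c j i s) (fa P ((F.sys (bv u)).A j i a) a s) := by
        by_contra h2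
        refine hj fun i a s hD hs => ?_
        by_contra h3
        exact h2 ⟨i, a, s, hD, hs, h3⟩
      have hmem : (j, i, a, s) ∈ Icc 1 P.k ×ˢ (range (P.B ^ P.k) ×ˢ
          (range (P.am + P.k + 1) ×ˢ range (pA P 0 + 1))) := by
        obtain ⟨⟨n1, n2⟩, _, hi, pos⟩ := hD
        simp only [Finset.mem_product, Finset.mem_Icc, Finset.mem_range]
        refine ⟨⟨by omega, n1⟩, ?_, by omega, ?_⟩
        · exact lt_of_lt_of_le n2 (Nat.pow_le_pow_right (cmp_B_pos P) (Nat.sub_le _ _))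
        · refine Nat.lt_succ_of_le (pos.trans ?_)
          unfold pA
          exact Nat.add_le_add_left (Nat.mul_le_mul_left _ (by omega)) _
      refine le_trans ?_ (Finset.single_le_sum (fun t _ => by split_ifs <;> norm_num) hmem)
      rw [if_pos ⟨hmin _ (by omega), hD, hs, hn⟩]
  refine (av_mono h1).trans ?_
  rw [av_sum]
  refine (Finset.sum_le_card_nsmul _ _ (2 * Real.exp (-(P.lcnt : ℝ))) fun t ht => ?_).trans ?_
  · have h2 := Finset.mem_Icc.1 (Finset.mem_product.1 ht).1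
    exact ako_entry hP hc F (by omega) h2.2 _ _ _
  · rw [Finset.card_product, Finset.card_product, Finset.card_product, Nat.card_Icc,
      Finset.card_range, Finset.card_range, Finset.card_range, Nat.add_sub_cancel, nsmul_eq_mul]
    have h2 : ((P.k * (P.B ^ P.k * ((P.am + P.k + 1) * (pA P 0 + 1))) : ℕ) : ℝ) * 2 ^ 10 ≤
        2 ^ P.lcnt := by exact_mod_cast ako_count hP
    have h3 := ako_exp P.lcnt
    have h4 := mul_le_mul_of_nonneg_right h2 (Real.exp_pos (-(P.lcnt : ℝ))).le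
    nlinarith

end Vale.Agent.P315Z
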