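import Vale.Agent.P315Z.Defs

/-! P315Z: definitions used in the analysis only (conditions on the parameters, the comparator
cells along a fixed path `z`, good nodes, the tree distance of the start algorithm). -/

set_option autoImplicit false

namespace Vale.Agent.P315Z

open Finset

/-- `2 ^ lcnt` bounds the number of entries of tables of the start algorithm in the domain. -/
def Par.lcnt (P : Par) : ℕ := P.am + P.km + P.lb * P.k + 4 * P.k + 16

/-- The conditions on the parameters. -/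
structure Par.Ok (P : Par) : Prop where
  lb1 : 1 ≤ P.lb
  k1 : 1 ≤ P.k
  le1 : 1 ≤ P.le
  lx : P.lx < P.B ^ P.k
  ly : P.ly < P.B ^ P.k
  hK : P.lc + P.lg + 9 ≤ P.lK
  hcap : P.gd * P.gd * (4 * P.lnn + 2) ≤ P.capd
  hS : 128 * (P.K * P.K) * (P.lm + 2 * P.lG + P.lg + 5) ≤ 2 ^ P.lS
  hdl : 256 * (P.k + 1) ≤ 2 ^ P.dl
  hA : 16 * P.LA * 2 ^ (2 * P.dl) * P.lcnt ≤ 2 ^ P.lA
  hth1 : 16 * P.k * 2 ^ P.le ≤ P.m * P.gd
  hth2 : 40 * (P.k + 1) * 2 ^ (2 * P.leta + P.le) ≤ P.m * P.m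
  hth3 : 20 * 2 ^ (2 * P.leta + P.le) ≤ P.m
  hne : 2 * P.la0 + 4 ≤ P.ne

/-- The node `(j, i)` exists. -/
def Node (P : Par) (j i : ℕ) : Prop := j ≤ P.k ∧ i < P.B ^ (P.k - j)

/-- The path `z` starts at `s0`, ends at `s1` and has cost at most `d ≤ B ^ k`. -/
structure PathOk (P : Par) (c : ℕ → ℕ → ℕ) (z : ℕ → ℕ) (d : ℕ) : Prop where
  c1 : ∀ i p, c i p ≤ 1
  z0 : z 0 = P.s0
  z1 : z (P.B ^ P.k) = P.s1
  cost : ∑ i ∈ range (P.B ^ P.k), leafc c i (z i) (z (i + 1)) ≤ d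
  dle : d ≤ P.B ^ P.k

section cmp

variable (P : Par) (c : ℕ → ℕ → ℕ) (z : ℕ → ℕ)

/-- The cost of the path in the node `(j, i)`. -/
def mu (j i : ℕ) : ℕ := ∑ r ∈ Ico (i * P.B ^ j) ((i + 1) * P.B ^ j), leafc c r (z r) (z (r + 1))

/-- The scale of the comparator label, by recursion on the depth. -/
def kapD : ℕ → ℕ → ℕ
  | 0, i => Nat.clog 2 (2 ^ P.la1 * mu P c z P.k i)
  | n + 1, i => max (Nat.clog 2 (2 ^ P.la1 * mu P c z (P.k - (n + 1)) i))
      (kapD n (i / P.B) - P.h)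

/-- The scale of the comparator label of the node `(j, i)`. -/
def kap (j i : ℕ) : ℕ := kapD P c z (P.k - j) i

/-- The comparator cell of the node `(j, i)`. -/
def cs (j i : ℕ) : Cell :=
  ⟨j, i, kap P c z j i, z (i * P.B ^ j) / 2 ^ kap P c z j i - 1,
    z (i * P.B ^ j) - z (i * P.B ^ j) % mesh P (kap P c z j i),
    z ((i + 1) * P.B ^ j) - z ((i + 1) * P.B ^ j) % mesh P (kap P c z j i)⟩

/-- The rounding error of the end points of the comparator cell. -/
def gg (j i : ℕ) : ℕ := mesh P (kap P c z j i) - 1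

/-- The sum of a function over the nodes of level `j`. -/
def lsum (f : ℕ → ℕ → ℝ) (j : ℕ) : ℝ := ∑ i ∈ range (P.B ^ (P.k - j)), f j i

/-- All rounding errors. -/
noncomputable def ggs : ℝ := ∑ j ∈ range (P.k + 1), lsum P (fun j i => (gg P c z j i : ℝ)) j

/-- The sum of the values `D` of the comparator cells of all inner nodes. -/
noncomputable def xs (D : Cell → ℕ) : ℝ :=
  ∑ j ∈ Icc 1 P.k, lsum P (fun j i => (D (cs P c z j i) : ℝ)) j

/-- The jumps of the comparator path in the node `(j, i)`. -/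
def jj (j i : ℕ) : ℕ := 2 * gg P c z j i + 2 * ∑ r ∈ range P.B, gg P c z (j - 1) (i * P.B + r)

variable (R D1 : Cell → ℕ)

/-- The weight of a node. -/
def wh (j i : ℕ) : ℕ := R (cs P c z j i) + 2 * gg P c z j i

/-- The total weight of the children. -/
def ssum (j i : ℕ) : ℕ := ∑ r ∈ range P.B, wh P c z R (j - 1) (i * P.B + r)

/-- The drift of the path in a node. -/
def dz (j i : ℕ) : ℝ := (z ((i + 1) * P.B ^ j) : ℝ) - z (i * P.B ^ j)

/-- The gain of energy. -/
noncomputable def inc (j i : ℕ) : ℝ :=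
  ∑ r ∈ range P.B, dz P z (j - 1) (i * P.B + r) ^ 2 / wh P c z R (j - 1) (i * P.B + r) -
    dz P z j i ^ 2 / ssum P c z R j i

/-- Good nodes, for the reference values `R` and the values `D1` one step later. -/
structure Good (j i : ℕ) : Prop where
  j0 : j ≠ 0
  w0 : 0 < R (cs P c z j i)
  gap : 2 ^ P.leta * (ssum P c z R j i + 2 * gg P c z j i - D1 (cs P c z j i)) ≤ R (cs P c z j i)
  drop : 2 ^ P.leta * (R (cs P c z j i) - D1 (cs P c z j i)) ≤ R (cs P c z j i)
  inc : (2 : ℝ) ^ (2 * P.leta) * inc P c z R j i ≤ ssum P c z R j i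
  slope : P.gd * Nat.dist (cs P c z j i).p (cs P c z j i).q ≤
    (P.gd - 1) * phi P R (cs P c z j i) P.B (cs P c z j i).q
  grid : 2 ^ P.leta * gg P c z j i ≤ R (cs P c z j i)

open Classical in
/-- The dress of the comparator cell. -/
noncomputable def dress (j i : ℕ) : ℕ :=
  if j < P.k ∧ Good P c z R D1 (j + 1) (i / P.B) then
    ta P R (cs P c z (j + 1) (i / P.B)) (i % P.B)
  else Nat.clog 2 (P.BK * R (cs P c z j i))

/-- Good nodes that are not light. -/
def Fine (j i : ℕ) : Prop :=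
  Good P c z R D1 j i ∧ 2 ^ dress P c z R D1 j i ≤ 8 * (P.BK * R (cs P c z j i))

open Classical in
/-- The loss of a node in one epoch. -/
noncomputable def loss (j i : ℕ) : ℝ :=
  if Fine P c z R D1 j i then 5 / (P.gd : ℝ) * R (cs P c z j i)
  else (D1 (cs P c z j i) : ℝ) - Nat.dist (cs P c z j i).p (cs P c z j i).q

/-- What is known on the reference values. -/
structure RefOk : Prop where
  dist_le : ∀ e, Dom P e → Nat.dist e.p e.q ≤ R e
  dist_le1 : ∀ j i, Node P j i → Nat.dist (cs P c z j i).p (cs P c z j i).q ≤ D1 (cs P c z j i)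
  start : ∀ j i, Node P j i → R (cs P c z j i) ≤ 2 ^ P.la0 * (mu P c z j i + gg P c z j i)
  leaf : ∀ i, Node P 0 i → R (cs P c z 0 i) ≤ mu P c z 0 i + 3 * gg P c z 0 i
  mono : ∀ j i, Node P j i → D1 (cs P c z j i) ≤ R (cs P c z j i)
  dp : ∀ j i, Node P j i → j ≠ 0 →
    D1 (cs P c z j i) ≤ phi P R (cs P c z j i) P.B (cs P c z j i).q

end cmp

/-- The sampling fails for the box with corner `c`: the estimate of some line of the family is off
by more than `2 ^ lS * σ * a`, `a = 2 ^ τ / (B K)`. -/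
def SFail (P : Par) (sd : ℕ → ℕ) (R D : Cell → ℕ) (H : Cell → ℕ → ℕ) (c : Cell) (τ : ℕ) : Prop :=
  ∃ e ∈ fam P R c τ, (2 : ℝ) ^ P.lS * 2 ^ τ / 2 ^ P.h3 <
    |(est P sd R D H τ e : ℝ) - 2 ^ P.lS * (zv P R D H e : ℝ)|

/-! ### The start algorithm -/

/-- The tree distance. -/
noncomputable def td (P : Par) (c : ℕ → ℕ → ℕ) (j i s : ℕ) : ℕ :=
  if _h : j = 0 then c i s
  else ∑ r ∈ range (ar P j),
    sInf {v | ∃ s', v = td P c (j - P.ha) (i * ar P j + r) s' + 2 * Nat.dist s' s}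
termination_by j
decreasing_by unfold Par.ha; omega

/-- The tree distance with the best shift. -/
noncomputable def tb (P : Par) (c : ℕ → ℕ → ℕ) (j i s : ℕ) : ℕ :=
  sInf {v | ∃ s', v = td P c j i s' + 2 * Nat.dist s' s}

/-- Bound for the positions in the tables at level `j`. -/
def pA (P : Par) (j : ℕ) : ℕ := pmax P 0 + 4 * 2 ^ (P.am + P.k + 1 - P.a0) * (P.k - j + 1)

/-- The entries of tables that are reached from the domain. -/
structure DomA (P : Par) (j i a s : ℕ) : Prop where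
  node : Node P j i
  lo : (j + 1) * P.LA + P.dl + 3 ≤ a
  hi : a ≤ P.am + (P.k - j)
  pos : s ≤ pA P j

/-- The multiplicative error at level `j`. -/
noncomputable def gam (P : Par) (j : ℕ) : ℝ := (1 + 20 / 2 ^ P.dl) ^ j

/-- The number `f` is a good estimate of `2 ^ a0 * v` at scale `a`, additive error
`κ * 2 ^ a / 2 ^ dl`. -/
def Approx (P : Par) (j a : ℕ) (κ : ℝ) (v f : ℕ) : Prop :=
  (f : ℝ) ≤ gam P j * (2 ^ P.a0 * v) + κ * 2 ^ a / 2 ^ P.dl ∧
    min ((2 : ℝ) ^ P.a0 * v / gam P j) (2 ^ a) - κ * 2 ^ a / 2 ^ P.dl ≤ f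

/-- All entries at level `j` are good. -/
def AkoLev (P : Par) (c : ℕ → ℕ → ℕ) (A : ℕ → ℕ → ℕ → ℕ → List ℕ) (j : ℕ) : Prop :=
  ∀ i a s, DomA P j i a s → res P a ∣ s → Approx P j a 1 (td P c j i s) (fa P (A j i a) a s)

/-- The start algorithm succeeds. -/
def AkoOk (P : Par) (c : ℕ → ℕ → ℕ) (A : ℕ → ℕ → ℕ → ℕ → List ℕ) : Prop :=
  ∀ j, AkoLev P c A j

end Vale.Agent.P315Z
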