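import Vale.Agent.P315.RAM.Inst

/-! P315Z: the main program with single comparisons of symbols as queries. -/

set_option autoImplicit false

namespace Vale.Agent.P315Z

open Vale.Agent.P315 Vale.Agent.P315.RAM
open Vale.Agent.Lib.PolyTime (PT Enc esize)

/-- The answer to the query `q`: `0` if `x[q / D] = y[q % D]`, else `1`. -/
def bitOf (x y : List ℕ) (D q : ℕ) : ℕ := if x.getD (q / D) 0 = y.getD (q % D) 0 then 0 else 1

/-- Parameters as functions of the two lengths: `m` bits of the numbers, `N` seeds, which are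
residues mod `e`, `Q` rounds, `D` the base of the codes of the queries. The feed begins with the
two lengths. -/
structure BitF where
  m : ℕ × ℕ → ℕ
  N : ℕ × ℕ → ℕ
  e : ℕ × ℕ → ℕ
  Q : ℕ × ℕ → ℕ
  D : ℕ × ℕ → ℕ
  pt_m : PT ∅ m
  pt_N : PT ∅ N
  pt_e : PT ∅ e
  pt_Q : PT ∅ Q
  pt_D : PT ∅ D

/-- The answers. -/
def BitF.ans (F : BitF) (x y : List ℕ) : ℕ → List ℕ := fun q => [bitOf x y (F.D (len2 x y)) q]

/-- The conditions on the parameters; the queries are below `Vb`, sizes of states at most `S`,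
everything at most `R`. -/
structure BitF.Fits (F : BitF) (x y : List ℕ) (S Vb R : ℕ) : Prop where
  hx : x.length < 2 ^ F.m (len2 x y)
  hy : y.length < 2 ^ F.m (len2 x y)
  m0 : 0 < F.m (len2 x y)
  e0 : 0 < F.e (len2 x y)
  e1 : F.e (len2 x y) ≤ 2 ^ F.m (len2 x y)
  lin : 10 * (x.length + y.length + 10) ≤ R
  sm : 4 * F.m (len2 x y) + 10 ≤ R
  sN : (2 + F.N (len2 x y)) * (2 * F.m (len2 x y) + 1) + S + 2 * F.m (len2 x y) + 10 ≤ R
  se : F.e (len2 x y) ≤ R
  sQ : F.Q (len2 x y) ≤ R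
  sV : Vb ≤ R
  sD : F.D (len2 x y) ≤ R

/-- The number of steps of the main program. -/
def BitF.cost (F : BitF) (k₁ k₂ : ℕ) (x y : List ℕ) (S : ℕ) : ℕ :=
  mainCost k₁ k₂ (x.length + y.length) (F.m (len2 x y)) (2 + F.N (len2 x y))
    (F.Q (len2 x y)) S 1 50

/-- The program for a query. -/
def bitCell : Prog :=
  .seq (.set 67 (.op .eq (.get 0 (.op .div (.reg 60) (.reg 53)))
    (.get 1 (.op .mod (.reg 60) (.reg 53)))))
  (.seq (.put 191 (.lit 0) (.op .sub (.lit 1) (.reg 67))) (.set 67 (.lit 1)))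

theorem bitCell_spec {E : Env} {σ : State} {x y : List ℕ} {D q : ℕ}
    (h0 : σ.arr 0 = fun i => x.getD i 0) (h1 : σ.arr 1 = fun i => y.getD i 0)
    (h60 : σ.reg 60 = q) (h53 : σ.reg 53 = D) :
    Spec E σ bitCell 50 (fun σ' => σ'.reg 67 = 1 ∧ σ'.arr 191 0 = bitOf x y D q) := by
  have hR := E.hR
  unfold bitCell
  refine Spec.cmp_seq (a := 50) (d := 0) (q / D) (q % D) rfl rfl (by decide)
    (by simp [Expr.eval, Op.eval, h60, h53]) (by simp [Expr.eval, Op.eval, h60, h53]) ?_
  refine Spec.put_seq 0 (bitOf x y D q) (by decide) rfl rfl (by decide) rfl ?_ (fun _ => ?_) ?_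
  · simp only [Expr.eval, Op.eval, State.setReg_reg, if_true, h0, h1, bitOf]
    split_ifs <;> rfl
  · unfold bitOf
    split_ifs <;> omega
  · refine Spec.set 1 rfl (by decide) rfl (fun _ => by omega) fun _ => ⟨by simp, by simp⟩

/-- The general form of the parameters. -/
def BitF.toParF (F : BitF) : ParF where
  m := F.m
  N := F.N
  e := F.e
  Q := F.Q
  regs := [(53, F.D), (80, Prod.fst), (81, Prod.snd)]
  pre := [(80, Prod.fst), (81, Prod.snd)]
  pt_m := F.pt_m
  pt_N := F.pt_N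
  pt_e := F.pt_e
  pt_Q := F.pt_Q
  pt_regs := by
    intro g hg
    simp only [List.mem_cons, List.not_mem_nil, or_false] at hg
    rcases hg with rfl | rfl | rfl
    · exact F.pt_D
    · exact PT.fst'
    · exact PT.snd'
  pre_mem := by
    intro g hg
    exact List.mem_cons_of_mem _ hg
  nodup := by simp
  place := by
    intro i hi
    simp only [List.map_cons, List.map_nil, List.mem_cons, List.not_mem_nil, or_false] at hi
    omega

theorem BitF.cellOk (F : BitF) : CellOk F.toParF bitCell := by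
  refine ⟨fun i hi => ?_, fun j hj => ?_⟩
  · have h : i = 67 := by simpa [bitCell, Prog.wr] using hi
    subst h
    simp [BitF.toParF]
  · have h : j = 191 := by simpa [bitCell, Prog.wa] using hj
    omega

theorem BitF.runOk {α : Type} [Enc α] {St : Strat α} {F : BitF} {E : Env} {x y : List ℕ}
    {S Vb R : ℕ} (hF : F.Fits x y S Vb R) (hR : R ≤ E.R)
    (hSt : St.RunOk (F.ans x y) (F.Q (len2 x y)) (F.toParF.feed x y E.ρ) S Vb R) :
    RunOk St F.toParF bitCell E x y (F.ans x y) S 1 50 (fun q => q < Vb) := by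
  refine ⟨?_, ?_, hF.hx, hF.hy, ?_, hF.e0, hF.e1, hSt.ask, hSt.size, hSt.sizeQ,
    hSt.out.trans hR, ?_, ?_, hF.se.trans hR, hF.sQ.trans hR, ?_, hF.lin.trans hR⟩
  · intro σ q hpre h60 _
    refine (bitCell_spec hpre.a0 hpre.a1 h60
      (hpre.regs (53, F.D) (by simp [BitF.toParF]))).mono le_rfl ?_
    rintro σ' ⟨h1, h2⟩
    refine ⟨h1, fun i hi => ?_⟩
    have hi0 : i = 0 := by simpa [BitF.ans] using hi
    subst hi0
    exact h2
  · intro q hq
    have h1 := hF.sV
    refine ⟨by omega, by simp [BitF.ans], fun v hv => ?_⟩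
    have h2 : v = bitOf x y (F.D (len2 x y)) q := by simpa [BitF.ans] using hv
    have h3 : 2 ^ 1 ≤ 2 ^ F.m (len2 x y) := Nat.pow_le_pow_right (by norm_num) hF.m0
    have h4 : v ≤ 1 := by
      rw [h2]
      unfold bitOf
      split_ifs <;> omega
    show v < 2 ^ F.m (len2 x y)
    omega
  · intro v hv
    simp only [ParF.pfx, BitF.toParF, List.map_cons, List.map_nil, List.mem_cons,
      List.not_mem_nil, or_false] at hv
    rcases hv with rfl | rfl
    · exact hF.hx
    · exact hF.hy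
  · have := hF.sm
    show F.m (len2 x y) ≤ E.R
    omega
  · have h1 := hF.sN
    have h2 : 2 + F.N (len2 x y) ≤ (2 + F.N (len2 x y)) * (2 * F.m (len2 x y) + 1) :=
      Nat.le_mul_of_pos_right _ (by omega)
    show 2 + F.N (len2 x y) ≤ E.R
    omega
  · intro g hg
    simp only [BitF.toParF, List.mem_cons, List.not_mem_nil, or_false] at hg
    have h1 := hF.lin
    rcases hg with rfl | rfl | rfl
    · exact hF.sD.trans hR
    · show x.length ≤ E.R
      omega
    · show y.length ≤ E.R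
      omega

/-- The main theorem of the RAM part. -/
theorem bit_solves {α : Type} [Enc α] (St : Strat α) : ∃ k₂ : ℕ, ∀ (F : BitF) (n0 c1 : ℕ)
    (S Vb : List ℕ → List ℕ → ℕ), 1 ≤ n0 →
    (∀ x y : List ℕ, n0 ≤ max x.length y.length →
      F.Fits x y (S x y) (Vb x y) ((max x.length y.length + 2) ^ c1)) →
    (∀ x y : List ℕ, n0 ≤ max x.length y.length → ∃ j, F.e (len2 x y) = 2 ^ j) →
    (∀ x y : List ℕ, n0 ≤ max x.length y.length → ∀ cs : List ℕ,
      cs.length = F.N (len2 x y) → (∀ v ∈ cs, v < F.e (len2 x y)) →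
      St.RunOk (F.ans x y) (F.Q (len2 x y)) ([x.length, y.length] ++ cs) (S x y) (Vb x y)
        ((max x.length y.length + 2) ^ c1)) →
    ∃ k₁ : ℕ, ∀ (good : List ℕ → List ℕ → ℕ → Prop) (t : ℕ → ℝ),
      (∀ x y : List ℕ, n0 ≤ max x.length y.length →
        ((F.cost k₁ k₂ x y (S x y) + 8 : ℕ) : ℝ) ≤ t (max x.length y.length)) →
      (∀ n : ℕ, n < n0 → ((360 * ((n0 + 1) * (2 * n0 + 1)) + 10 : ℕ) : ℝ) ≤ t n) →
      (∀ x y : List ℕ, good x y (ED x y)) →
      (∀ x y : List ℕ, n0 ≤ max x.length y.length →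
        2 * Nat.card (Fin (F.N (len2 x y)) → Fin (F.e (len2 x y))) ≤
          3 * Nat.card {c : Fin (F.N (len2 x y)) → Fin (F.e (len2 x y)) //
            good x y (St.fin (F.ans x y) (F.Q (len2 x y))
              (H873.feedP [x.length, y.length] c))}) →
      ∃ (P : Prog) (k : ℕ), Top.Solves P good t k := by
  obtain ⟨k₂, hk₂⟩ := main_prog St
  refine ⟨k₂, fun F n0 c1 S Vb hn0 hFits he2 hrun => ?_⟩
  obtain ⟨Big, k₁, hBig⟩ := hk₂ F.toParF bitCell F.cellOk
  refine ⟨k₁, fun good t ht ht0 hgood0 hgood => ?_⟩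
  set c0 := c1 * (k₁ + k₂ + 1) + (2 * n0 + 1) with hc0
  have h1 : 2 * n0 + 1 ≤ 2 ^ c0 :=
    (Nat.lt_two_pow_self (n := 2 * n0 + 1)).le.trans (Nat.pow_le_pow_right (by norm_num) (by omega))
  have hpow : ∀ n k, k ≤ k₁ + k₂ + 1 → ((n + 2) ^ c1) ^ k ≤ (n + 2) ^ c0 := by
    intro n k hk
    rw [← pow_mul]
    refine Nat.pow_le_pow_right (by omega) ?_
    have := Nat.mul_le_mul_left c1 hk
    omega
  refine ⟨_, _, H873.solves_split3 (Big := Big) (good := good) (t := t) (n0 := n0) (c0 := c0)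
    (S := 100) hn0 h1 le_rfl (fun x y => F.cost k₁ k₂ x y (S x y)) (fun x y => F.N (len2 x y))
    (fun x y => F.e (len2 x y)) (fun x y => [x.length, y.length])
    (fun x y l => St.fin (F.ans x y) (F.Q (len2 x y)) l) ?_ ht ht0 ?_ hgood0 hgood⟩
  · intro x y E hn hR _
    have hF := hFits x y hn
    have hfeed : F.toParF.feed x y E.ρ =
        [x.length, y.length] ++ (List.range (F.N (len2 x y))).map
          (fun i => E.ρ (0 + i) % F.e (len2 x y)) := rfl
    have hRR : (max x.length y.length + 2) ^ c1 ≤ E.R := by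
      rw [hR]
      have := hpow (max x.length y.length) 1 (by omega)
      rwa [pow_one] at this
    have hrun' : St.RunOk (F.ans x y) (F.Q (len2 x y)) (F.toParF.feed x y E.ρ) (S x y) (Vb x y)
        ((max x.length y.length + 2) ^ c1) := by
      rw [hfeed]
      refine hrun x y hn _ (by simp) ?_
      intro v hv
      obtain ⟨i, -, rfl⟩ := List.mem_map.mp hv
      exact Nat.mod_lt _ hF.e0
    have hsp := hBig E x y (F.ans x y) (S x y) _ _ _ (BitF.runOk hF hRR hrun') ?_ ?_
    · exact hsp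
    · refine (Nat.pow_le_pow_left hF.sm k₁).trans ?_
      rw [hR]
      exact hpow _ _ (by omega)
    · refine (Nat.pow_le_pow_left hF.sN k₂).trans ?_
      rw [hR]
      exact hpow _ _ (by omega)
  · intro x y hn
    obtain ⟨j, hj⟩ := he2 x y hn
    refine ⟨j, hj, ?_⟩
    rw [← hj]
    refine (hFits x y hn).se.trans (Nat.pow_le_pow_right (by omega) ?_)
    have h2 : c1 * 1 ≤ c1 * (k₁ + k₂ + 1) := Nat.mul_le_mul_left _ (by omega)
    omega

end Vale.Agent.P315Z
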