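import Vale.Agent.P315.Lev
import Vale.Agent.P315Z.Base

/-! P315Z: diagonals as positions. Row `0` and the rows after `|x|` are void, row `i` belongs to
the symbol `x[i-1]`; at time `1 ≤ i ≤ |x| + 1` the position `p` is the point
`p + (i - 1) - off` of `y`. -/

set_option autoImplicit false

namespace Vale.Agent.P315Z

open Finset Vale.Agent.P315

theorem cbit_le_one (x y : List ℕ) (off i p : ℕ) : cbit x y off i p ≤ 1 := by
  unfold cbit
  split_ifs <;> omega

/-- The distance of the end points is a potential. -/
theorem pot_dist (c : ℕ → ℕ → ℕ) : Pot c (fun _ _ p q => Nat.dist p q) := by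
  refine ⟨?_, ?_, ?_, ?_⟩
  · intro _ _ p q p' q'
    unfold Nat.dist
    omega
  · intro _ _ _ p r q _ _
    unfold Nat.dist
    omega
  · intro i p q
    unfold leafc Nat.dist
    omega
  · intro _ p q
    exact le_rfl

/-- The trivial bound. -/
theorem Pot.triv {c : ℕ → ℕ → ℕ} {V : ℕ → ℕ → ℕ → ℕ → ℕ} (h : Pot c V) (hc : ∀ i p, c i p ≤ 1)
    (a n p q : ℕ) : V a (a + n) p q ≤ Nat.dist p q + n := by
  induction n with
  | zero => simpa using h.nil a p q
  | succ n ih =>
    have h1 := h.chain a (a + n) (a + n + 1) p q q (by omega) (by omega)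
    have h2 := h.leaf (a + n) q q
    have h3 := hc (a + n) q
    have h4 : leafc c (a + n) q q ≤ c (a + n) q + Nat.dist q q := min_le_left _ _
    rw [Nat.dist_self] at h4
    rw [← add_assoc]
    omega

/-- The first `k` symbols, padded by zeros. -/
def pre (l : List ℕ) (k : ℕ) : List ℕ := (List.range k).map fun i => l.getD i 0

theorem pre_zero (l : List ℕ) : pre l 0 = [] := rfl

theorem pre_succ (l : List ℕ) (k : ℕ) : pre l (k + 1) = pre l k ++ [l.getD k 0] := by
  unfold pre
  rw [List.range_succ, List.map_append]
  rfl

theorem pre_length (l : List ℕ) (k : ℕ) : (pre l k).length = k := by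
  simp [pre]

theorem pre_self (l : List ℕ) : pre l l.length = l := by
  apply List.ext_getElem
  · simp [pre]
  · intro i h1 h2
    simp [pre, h2]

/-- The table of the distances of the initial pieces. -/
def tabG (x y : List ℕ) (m j : ℕ) : ℕ := lev (pre x m) (pre y j)

theorem tabG_zero_left (x y : List ℕ) (j : ℕ) : tabG x y 0 j = j := by
  unfold tabG
  rw [pre_zero, lev_nil_left, pre_length]

theorem tabG_zero_right (x y : List ℕ) (m : ℕ) : tabG x y m 0 = m := by
  unfold tabG
  rw [pre_zero, lev_nil_right, pre_length]

theorem tabG_succ (x y : List ℕ) (m j : ℕ) : tabG x y (m + 1) (j + 1) =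
    min (min (tabG x y m (j + 1) + 1) (tabG x y (m + 1) j + 1))
      (tabG x y m j + if x.getD m 0 = y.getD j 0 then 0 else 1) := by
  unfold tabG
  rw [pre_succ x m, pre_succ y j, lev_snoc_snoc]

theorem tabG_ins (x y : List ℕ) (m j : ℕ) : tabG x y m (j + 1) ≤ tabG x y m j + 1 := by
  unfold tabG
  rw [pre_succ]
  exact lev_add_right _ _ _

theorem tabG_ins' (x y : List ℕ) (m j : ℕ) : tabG x y m j ≤ tabG x y m (j + 1) + 1 := by
  unfold tabG
  rw [pre_succ]
  exact lev_drop_right _ _ _

theorem tabG_del (x y : List ℕ) (m j : ℕ) : tabG x y (m + 1) j ≤ tabG x y m j + 1 := by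
  cases j with
  | zero => rw [tabG_zero_right, tabG_zero_right]
  | succ j => rw [tabG_succ]; omega

theorem tabG_sub (x y : List ℕ) (m j : ℕ) : tabG x y (m + 1) (j + 1) ≤
    tabG x y m j + if x.getD m 0 = y.getD j 0 then 0 else 1 := by
  rw [tabG_succ]; omega

/-- The height function. -/
def hgt (x y : List ℕ) (off m p : ℕ) : ℕ := tabG x y m (p + m - off) + (off - (p + m))

theorem hgt_succ (x y : List ℕ) (off m p : ℕ) :
    hgt x y off m (p + 1) ≤ hgt x y off m p + 1 ∧ hgt x y off m p ≤ hgt x y off m (p + 1) + 1 := by
  unfold hgt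
  rcases le_or_gt off (p + m) with h | h
  · have e1 : p + 1 + m - off = (p + m - off) + 1 := by omega
    rw [e1]
    have h1 := tabG_ins x y m (p + m - off)
    have h2 := tabG_ins' x y m (p + m - off)
    omega
  · have e1 : p + 1 + m - off = 0 := by omega
    have e2 : p + m - off = 0 := by omega
    rw [e1, e2]
    omega

theorem hgt_add (x y : List ℕ) (off m p d : ℕ) :
    hgt x y off m (p + d) ≤ hgt x y off m p + d ∧ hgt x y off m p ≤ hgt x y off m (p + d) + d := by
  induction d with
  | zero => simp
  | succ d ih =>
    have := hgt_succ x y off m (p + d)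
    rw [← add_assoc]
    omega

theorem hgt_lip (x y : List ℕ) (off m p q : ℕ) :
    hgt x y off m p ≤ hgt x y off m q + Nat.dist p q := by
  rcases le_total p q with h | h
  · obtain ⟨d, rfl⟩ := Nat.exists_eq_add_of_le h
    have := hgt_add x y off m p d
    unfold Nat.dist
    omega
  · obtain ⟨d, rfl⟩ := Nat.exists_eq_add_of_le h
    have := hgt_add x y off m q d
    unfold Nat.dist
    omega

theorem hgt_del (x y : List ℕ) (off m p : ℕ) :
    hgt x y off (m + 1) p ≤ hgt x y off m (p + 1) + 1 := by
  unfold hgt
  have e1 : p + (m + 1) = p + 1 + m := by omega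
  rw [e1]
  have := tabG_del x y m (p + 1 + m - off)
  omega

theorem hgt_diag (x y : List ℕ) (off m p : ℕ) (hm : m < x.length) :
    hgt x y off (m + 1) p ≤ hgt x y off m p + cbit x y off (m + 1) p := by
  unfold hgt cbit
  rw [if_neg (by omega)]
  simp only [Nat.add_sub_cancel]
  rcases le_or_gt off (p + m) with h | h
  · have e1 : p + (m + 1) - off = (p + m - off) + 1 := by omega
    rw [e1]
    have h1 := tabG_sub x y m (p + m - off)
    split_ifs at h1 ⊢ <;> omega
  · have e1 : p + (m + 1) - off = 0 := by omega
    have e2 : p + m - off = 0 := by omega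
    rw [e1, e2, tabG_zero_right, tabG_zero_right, if_neg (by omega)]
    omega

/-- The height at time `i`. -/
def hgtT (x y : List ℕ) (off i p : ℕ) : ℕ := hgt x y off (min (i - 1) x.length) p

theorem hgtT_step (x y : List ℕ) (off i p q : ℕ) :
    hgtT x y off (i + 1) q ≤ hgtT x y off i p + leafc (cbit x y off) i p q := by
  unfold hgtT leafc
  by_cases hi : i = 0 ∨ x.length < i
  · have e1 : min (i + 1 - 1) x.length = min (i - 1) x.length := by omega
    rw [e1]
    have h1 := hgt_lip x y off (min (i - 1) x.length) q p
    unfold Nat.dist at h1 ⊢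
    omega
  · obtain ⟨m, rfl⟩ : ∃ m, i = m + 1 := ⟨i - 1, by omega⟩
    have e1 : min (m + 1 + 1 - 1) x.length = m + 1 := by omega
    have e2 : min (m + 1 - 1) x.length = m := by omega
    rw [e1, e2]
    have h1 := hgt_diag x y off m p (by omega)
    have h2 := hgt_lip x y off (m + 1) q p
    have h3 := hgt_lip x y off (m + 1) q (p - 1)
    have h4 : hgt x y off (m + 1) (p - 1) ≤ hgt x y off m p + 1 := by
      rcases Nat.eq_zero_or_pos p with h0 | h0
      · subst h0
        have := cbit_le_one x y off (m + 1) 0
        simp only [Nat.zero_sub]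
        omega
      · obtain ⟨r, rfl⟩ : ∃ r, p = r + 1 := ⟨p - 1, by omega⟩
        exact hgt_del x y off m r
    rw [Nat.dist_comm] at h2 h3
    omega

/-- A potential whose value for the whole strip is the edit distance. -/
theorem exists_pot (x y : List ℕ) {off N : ℕ} (hoff : x.length ≤ off) (hN : x.length < N) :
    ∃ V, Pot (cbit x y off) V ∧ V 0 N off (off + y.length - x.length) = ED x y := by
  refine ⟨fun a b p q => hgtT x y off b q - hgtT x y off a p, ⟨?_, ?_, ?_, ?_⟩, ?_⟩
  · intro a b p q p' q'
    have h1 := hgt_lip x y off (min (b - 1) x.length) q q'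
    have h2 := hgt_lip x y off (min (a - 1) x.length) p' p
    rw [Nat.dist_comm] at h2
    unfold hgtT
    omega
  · intro a b d p r q _ _
    omega
  · intro i p q
    have := hgtT_step x y off i p q
    omega
  · intro a p q
    have h1 := hgt_lip x y off (min (a - 1) x.length) q p
    rw [Nat.dist_comm] at h1
    unfold hgtT
    omega
  · have e1 : min (N - 1) x.length = x.length := by omega
    have e2 : min (0 - 1) x.length = 0 := by omega
    have e3 : off + y.length - x.length + x.length - off = y.length := by omega
    have e4 : off - (off + y.length - x.length + x.length) = 0 := by omega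
    simp only [hgtT, hgt, e1, e2, e3, e4, tabG_zero_left]
    unfold tabG
    rw [pre_self, pre_self, ED_eq_lev]
    omega

/-- Position `p` can be reached at time `n` with cost at most `k`. -/
def Reach (c : ℕ → ℕ → ℕ) (off n p k : ℕ) : Prop :=
  ∃ z : ℕ → ℕ, z 0 = off ∧ z n = p ∧ ∑ i ∈ range n, leafc c i (z i) (z (i + 1)) ≤ k

theorem Reach.mono {c : ℕ → ℕ → ℕ} {off n p k k' : ℕ} (h : Reach c off n p k) (hk : k ≤ k') :
    Reach c off n p k' := by
  obtain ⟨z, h0, h1, h2⟩ := h
  exact ⟨z, h0, h1, h2.trans hk⟩

theorem sum_update (c : ℕ → ℕ → ℕ) (z : ℕ → ℕ) (n q : ℕ) :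
    ∑ i ∈ range (n + 1), leafc c i (Function.update z (n + 1) q i)
      (Function.update z (n + 1) q (i + 1)) =
      ∑ i ∈ range n, leafc c i (z i) (z (i + 1)) + leafc c n (z n) q := by
  rw [sum_range_succ, Function.update_self, Function.update_of_ne (by omega)]
  congr 1
  apply sum_congr rfl
  intro i hi
  have := mem_range.mp hi
  rw [Function.update_of_ne (by omega), Function.update_of_ne (by omega)]

theorem Reach.step {c : ℕ → ℕ → ℕ} {off n p k : ℕ} (h : Reach c off n p k) (q : ℕ) :
    Reach c off (n + 1) q (k + leafc c n p q) := by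
  obtain ⟨z, h0, h1, h2⟩ := h
  refine ⟨Function.update z (n + 1) q, ?_, ?_, ?_⟩
  · rw [Function.update_of_ne (by omega), h0]
  · rw [Function.update_self]
  · rw [sum_update, h1]
    omega

theorem Reach.jump {c : ℕ → ℕ → ℕ} {off n p k : ℕ} (h : Reach c off (n + 1) p k) :
    Reach c off (n + 1) (p + 1) (k + 1) := by
  obtain ⟨z, h0, h1, h2⟩ := h
  refine ⟨Function.update z (n + 1) (p + 1), ?_, ?_, ?_⟩
  · rw [Function.update_of_ne (by omega), h0]
  · rw [Function.update_self]
  · rw [sum_update]
    rw [sum_range_succ, h1] at h2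
    have : leafc c n (z n) (p + 1) ≤ leafc c n (z n) p + 1 := by
      unfold leafc Nat.dist
      omega
    omega

theorem reach_tab (x y : List ℕ) {off : ℕ} (hoff : x.length ≤ off) :
    ∀ m ≤ x.length, ∀ j ≤ y.length,
      Reach (cbit x y off) off (m + 1) (off + j - m) (tabG x y m j) := by
  intro m
  induction m with
  | zero =>
    intro _ j _
    have h0 : Reach (cbit x y off) off 0 off 0 := ⟨fun _ => off, rfl, rfl, by simp⟩
    refine (h0.step _).mono ?_
    rw [tabG_zero_left]
    have : cbit x y off 0 off = 0 := by simp [cbit]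
    unfold leafc Nat.dist
    omega
  | succ m ihm =>
    intro hm j
    have hdel : ∀ j ≤ y.length, Reach (cbit x y off) off (m + 1 + 1) (off + j - (m + 1))
        (tabG x y m j + 1) := by
      intro j hj
      refine ((ihm (by omega) j hj).step _).mono ?_
      unfold leafc Nat.dist
      omega
    induction j with
    | zero =>
      intro hj
      refine (hdel 0 hj).mono ?_
      rw [tabG_zero_right, tabG_zero_right]
    | succ j ihj =>
      intro hj
      rw [tabG_succ]
      rcases min_choice (min (tabG x y m (j + 1) + 1) (tabG x y (m + 1) j + 1))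
        (tabG x y m j + if x.getD m 0 = y.getD j 0 then 0 else 1) with h | h
      · rw [h]
        rcases min_choice (tabG x y m (j + 1) + 1) (tabG x y (m + 1) j + 1) with h' | h'
        · rw [h']
          exact hdel (j + 1) hj
        · rw [h']
          have := (ihj (by omega)).jump
          have e : off + j - (m + 1) + 1 = off + (j + 1) - (m + 1) := by omega
          rwa [e] at this
      · rw [h]
        refine ((ihm (by omega) j (by omega)).step _).mono ?_
        have e1 : cbit x y off (m + 1) (off + j - m) =
            if x.getD m 0 = y.getD j 0 then 0 else 1 := by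
          unfold cbit
          have e2 : off + j - m + (m + 1 - 1) - off = j := by omega
          rw [if_neg (by omega), if_pos (by omega), e2]
          simp only [Nat.add_sub_cancel]
        have e3 : leafc (cbit x y off) (m + 1) (off + j - m) (off + (j + 1) - (m + 1)) ≤
            cbit x y off (m + 1) (off + j - m) +
              Nat.dist (off + j - m) (off + (j + 1) - (m + 1)) := min_le_left _ _
        have e4 : Nat.dist (off + j - m) (off + (j + 1) - (m + 1)) = 0 := by
          unfold Nat.dist
          omega
        omega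

/-- An optimal path. -/
theorem exists_path (x y : List ℕ) {off N : ℕ} (hoff : x.length ≤ off) (hN : x.length < N) :
    ∃ z : ℕ → ℕ, z 0 = off ∧ z N = off + y.length - x.length ∧
      ∑ i ∈ range N, leafc (cbit x y off) i (z i) (z (i + 1)) ≤ ED x y := by
  obtain ⟨d, rfl⟩ : ∃ d, N = x.length + 1 + d := ⟨N - (x.length + 1), by omega⟩
  have h : Reach (cbit x y off) off (x.length + 1 + d) (off + y.length - x.length) (ED x y) := by
    clear hN
    induction d with
    | zero =>
      have := reach_tab x y hoff x.length le_rfl y.length le_rfl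
      unfold tabG at this
      rw [pre_self, pre_self, ← ED_eq_lev] at this
      exact this
    | succ d ih =>
      refine (ih.step _).mono ?_
      have e1 : cbit x y off (x.length + 1 + d) (off + y.length - x.length) = 0 := by
        unfold cbit
        rw [if_pos (by omega)]
      unfold leafc Nat.dist
      omega
  exact h

theorem ED_le_max (x y : List ℕ) : ED x y ≤ max x.length y.length := by
  rw [ED_eq_lev]
  induction x generalizing y with
  | nil => simp [lev_nil_left]
  | cons a x ih =>
    cases y with
    | nil => simp [lev_nil_right]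
    | cons b y =>
      have h1 := lev_sub_le a b x y
      have h2 := ih y
      simp only [List.length_cons]
      split_ifs at h1 <;> omega

end Vale.Agent.P315Z
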