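import Vale.Agent.P315Z.Ana
import Vale.Agent.P315Z.Geom

/-! P315Z: lists of cells and the dynamic programme over the children. -/

set_option autoImplicit false

namespace Vale.Agent.P315Z

open Finset
open Vale.Agent.P315.H155 (minD argminN minD_le_of_mem minD_mem argminN_lt argminN_le)

variable {P : Par}

theorem minL_le {l : List ℕ} {a : ℕ} (h : a ∈ l) : minL l ≤ a := by
  exact minD_le_of_mem h

theorem minL_mem {l : List ℕ} (h : l ≠ []) : minL l ∈ l := by
  rcases minD_mem l (l.headD 0) with h1 | h1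
  · unfold minL
    rw [h1]
    cases l with
    | nil => exact absurd rfl h
    | cons a l => simp
  · exact h1

theorem argL_mem {α : Type} {l : List α} (h : l ≠ []) (d : α) (f : α → ℕ) : argL l d f ∈ l := by
  have h1 := argminN_lt (List.length_pos_iff.2 h) fun i => f (l.getD i d)
  unfold argL
  rw [List.getD_eq_getElem _ _ h1]
  exact List.getElem_mem h1

theorem argL_le {α : Type} {l : List α} (d : α) (f : α → ℕ) {a : α} (h : a ∈ l) :
    f (argL l d f) ≤ f a := by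
  obtain ⟨i, hi, rfl⟩ := List.getElem_of_mem h
  have h1 := argminN_le (fun i => f (l.getD i d)) hi
  rwa [List.getD_eq_getElem _ _ hi] at h1

theorem find_congr {α : Type} {p q : α → Bool} {l : List α} (h : ∀ a ∈ l, p a = q a) :
    l.find? p = l.find? q := by
  induction l with
  | nil => rfl
  | cons a l ih =>
    rw [List.find?_cons, List.find?_cons, h a (by simp), ih fun b hb => h b (by simp [hb])]

theorem all_congr' {α : Type} {p q : α → Bool} {l : List α} (h : ∀ a ∈ l, p a = q a) :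
    l.all p = l.all q := by
  induction l with
  | nil => rfl
  | cons a l ih =>
    rw [List.all_cons, List.all_cons, h a (by simp), ih fun b hb => h b (by simp [hb])]

theorem argminN_congr {n : ℕ} {f g : ℕ → ℕ} (h : ∀ i < n, f i = g i) :
    argminN n f = argminN n g := by
  unfold argminN
  rw [find_congr fun i hi => all_congr' fun j hj => ?_]
  rw [h i (List.mem_range.1 hi), h j (List.mem_range.1 hj)]

theorem argL_congr {α : Type} {l : List α} (d : α) {f g : α → ℕ} (h : ∀ a ∈ l, f a = g a) :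
    argL l d f = argL l d g := by
  unfold argL
  rw [argminN_congr (g := fun i => g (l.getD i d)) fun i hi => h _ ?_]
  rw [List.getD_eq_getElem _ _ hi]
  exact List.getElem_mem hi

theorem mesh_pos (ka : ℕ) : 0 < mesh P ka := Nat.two_pow_pos _

theorem pow_eq_mesh (ka : ℕ) : 2 ^ ka = 2 ^ min ka P.lG * mesh P ka := by
  rw [mesh, ← pow_add]
  congr 1
  omega

theorem mem_gpts {ka x p : ℕ} :
    p ∈ gpts P ka x ↔ x * 2 ^ ka ≤ p ∧ p ≤ (x + 3) * 2 ^ ka ∧ mesh P ka ∣ p := by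
  have h := pow_eq_mesh (P := P) ka
  have hm := mesh_pos (P := P) ka
  simp only [gpts, List.mem_map, List.mem_range]
  generalize 2 ^ min ka P.lG = g at *
  generalize mesh P ka = m at *
  rw [h]
  constructor
  · rintro ⟨t, ht, rfl⟩
    refine ⟨Nat.le_add_right _ _, ?_, ⟨x * g + t, by ring⟩⟩
    have : t * m ≤ 3 * g * m := Nat.mul_le_mul_right _ (by omega)
    nlinarith
  · rintro ⟨h1, h2, u, rfl⟩
    have h3 : x * g ≤ u := Nat.le_of_mul_le_mul_left (by nlinarith) hm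
    have h4 : u ≤ (x + 3) * g := Nat.le_of_mul_le_mul_left (by nlinarith) hm
    obtain ⟨t, rfl⟩ := Nat.exists_eq_add_of_le h3
    exact ⟨t, by nlinarith, by ring⟩

theorem mem_cellsAt {j i ka x : ℕ} {c : Cell} : c ∈ cellsAt P j i ka x ↔
    c.j = j ∧ c.i = i ∧ c.ka = ka ∧ c.x = x ∧ c.p ∈ gpts P ka x ∧ c.q ∈ gpts P ka x := by
  simp only [cellsAt, List.mem_flatMap, List.mem_map]
  constructor
  · rintro ⟨p, hp, q, hq, rfl⟩
    exact ⟨rfl, rfl, rfl, rfl, hp, hq⟩
  · rintro ⟨rfl, rfl, rfl, rfl, hp, hq⟩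
    exact ⟨_, hp, _, hq, rfl⟩

theorem mem_kids {e c : Cell} {r : ℕ} : c ∈ kids P e r ↔
    c.j = e.j - 1 ∧ c.i = e.i * P.B + r ∧ c.ka ≤ e.ka ∧ e.ka ≤ c.ka + P.h ∧
      e.x * 2 ^ (e.ka - c.ka) - 1 ≤ c.x ∧
      c.x < e.x * 2 ^ (e.ka - c.ka) - 1 + (3 * 2 ^ (e.ka - c.ka) + 2) ∧ c ∈ sibs P c := by
  simp only [kids, List.mem_flatMap, List.mem_range, sibs, mem_cellsAt, true_and]
  constructor
  · rintro ⟨δ, hδ, t, ht, h1, h2, h3, h4, h5, h6⟩
    have h7 : e.ka - c.ka = δ := by omega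
    rw [h7, h3, h4]
    exact ⟨h1, h2, by omega, by omega, by omega, by omega, h5, h6⟩
  · rintro ⟨h1, h2, h3, h4, h5, h6, h7, h8⟩
    have h9 : e.ka - (e.ka - c.ka) = c.ka := by omega
    obtain ⟨t, ht⟩ := Nat.exists_eq_add_of_le h5
    refine ⟨e.ka - c.ka, by omega, t, by omega, h1, h2, h9.symm, ht, ?_, ?_⟩
    · rwa [h9, ← ht]
    · rwa [h9, ← ht]

theorem kids_ne_nil (e : Cell) (r : ℕ) : kids P e r ≠ [] := by
  have h : (e.x - 1) * 2 ^ e.ka ∈ gpts P e.ka (e.x - 1) :=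
    mem_gpts.2 ⟨le_rfl, Nat.mul_le_mul_right _ (by omega),
      Dvd.dvd.mul_left (pow_eq_mesh (P := P) e.ka ▸ Dvd.intro_left _ rfl) _⟩
  refine List.ne_nil_of_mem (a := ⟨e.j - 1, e.i * P.B + r, e.ka, e.x - 1, (e.x - 1) * 2 ^ e.ka,
    (e.x - 1) * 2 ^ e.ka⟩) (mem_kids.2 ⟨rfl, rfl, le_rfl, by simp, by simp, by simp, ?_⟩)
  exact mem_cellsAt.2 ⟨rfl, rfl, rfl, rfl, h, h⟩

/-- The same node and the same label. -/
def Same (e e' : Cell) : Prop := e.j = e'.j ∧ e.i = e'.i ∧ e.ka = e'.ka ∧ e.x = e'.x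

theorem Same.kids {e e' : Cell} (h : Same e e') (r : ℕ) : kids P e r = kids P e' r := by
  unfold P315Z.kids
  rw [h.1, h.2.1, h.2.2.1, h.2.2.2]

theorem Same.sibs {e e' : Cell} (h : Same e e') : sibs P e = sibs P e' := by
  unfold P315Z.sibs
  rw [h.1, h.2.1, h.2.2.1, h.2.2.2]

theorem same_of_mem_sibs {e c : Cell} (h : c ∈ sibs P e) : Same c e := by
  obtain ⟨h1, h2, h3, h4, -⟩ := mem_cellsAt.1 h
  exact ⟨h1, h2, h3, h4⟩

theorem self_mem_sibs {e c : Cell} (h : c ∈ sibs P e) : c ∈ sibs P c := by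
  rwa [(same_of_mem_sibs h).sibs]

theorem same_box (c : Cell) (τ : ℕ) : Same (box P c τ) c := ⟨rfl, rfl, rfl, rfl⟩

theorem om_pos (τ : ℕ) : 0 < om P τ := Nat.two_pow_pos _

theorem box_box (c : Cell) (τ : ℕ) : box P (box P c τ) τ = box P c τ := by
  have h : ∀ a : ℕ, (a - a % om P τ) % om P τ = 0 := fun a =>
    Nat.mod_eq_zero_of_dvd (Nat.dvd_sub_mod a)
  simp only [box, h, Nat.sub_zero]

theorem dist_box_p (c : Cell) (τ : ℕ) : Nat.dist (box P c τ).p c.p ≤ om P τ - 1 := by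
  have h1 := Nat.mod_lt c.p (om_pos (P := P) τ)
  have h2 := Nat.mod_le c.p (om P τ)
  simp only [box, Nat.dist]
  omega

theorem dist_box_q (c : Cell) (τ : ℕ) : Nat.dist (box P c τ).q c.q ≤ om P τ - 1 := by
  have h1 := Nat.mod_lt c.q (om_pos (P := P) τ)
  have h2 := Nat.mod_le c.q (om P τ)
  simp only [box, Nat.dist]
  omega

theorem length_gpts (ka x : ℕ) : (gpts P ka x).length ≤ 3 * 2 ^ P.lG + 1 := by
  have : 2 ^ min ka P.lG ≤ 2 ^ P.lG := Nat.pow_le_pow_right two_pos (min_le_right _ _)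
  simp only [gpts, List.length_map, List.length_range]
  omega

theorem length_flatMap_le {α β : Type} (l : List α) (f : α → List β) {n : ℕ}
    (h : ∀ a ∈ l, (f a).length ≤ n) : (l.flatMap f).length ≤ l.length * n := by
  induction l with
  | nil => simp
  | cons a l ih =>
    have h1 := h a (by simp)
    have h2 := ih fun b hb => h b (by simp [hb])
    rw [List.flatMap_cons, List.length_append, List.length_cons, Nat.succ_mul]
    omega

theorem length_cellsAt (j i ka x : ℕ) : (cellsAt P j i ka x).length ≤ 2 ^ (2 * P.lG + 4) := by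
  have h := length_gpts (P := P) ka x
  have h1 : 0 < 2 ^ P.lG := Nat.two_pow_pos _
  refine (length_flatMap_le _ _ (n := 4 * 2 ^ P.lG) fun a _ => ?_).trans ?_
  · rw [List.length_map]; omega
  · rw [show 2 ^ (2 * P.lG + 4) = 4 * 2 ^ P.lG * (4 * 2 ^ P.lG) by ring]
    exact Nat.mul_le_mul_right _ (by omega)

theorem length_sibs (e : Cell) : (sibs P e).length ≤ 2 ^ (2 * P.lG + 4) := by
  exact length_cellsAt _ _ _ _

theorem length_kids (e : Cell) (r : ℕ) : (kids P e r).length ≤ 2 ^ P.lnn := by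
  have h0 : 0 < 2 ^ P.lb := Nat.two_pow_pos _
  refine (length_flatMap_le _ _ (n := 8 * 2 ^ P.lb * 2 ^ (2 * P.lG + 4)) fun δ hδ => ?_).trans ?_
  · refine (length_flatMap_le _ _ fun t _ => length_cellsAt _ _ _ _).trans
      (Nat.mul_le_mul_right _ ?_)
    have h1 : δ ≤ P.lb + 1 := by
      have := List.mem_range.1 hδ
      unfold Par.h at this
      omega
    have h2 : 2 ^ δ ≤ 2 ^ (P.lb + 1) := Nat.pow_le_pow_right two_pos h1
    rw [List.length_range]
    rw [pow_succ] at h2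
    omega
  · have h1 : P.lb < 2 ^ P.lb := Nat.lt_two_pow_self
    rw [List.length_range, Par.lnn, show 2 ^ (2 * P.lG + 2 * P.lb + 8) =
      2 * 2 ^ P.lb * (8 * 2 ^ P.lb * 2 ^ (2 * P.lG + 4)) by ring]
    refine Nat.mul_le_mul_right _ ?_
    unfold Par.h
    omega

theorem Dom.sibs {e c : Cell} (h : Dom P e) (hc : c ∈ sibs P e) : Dom P c := by
  obtain ⟨h1, h2, h3, h4, h5, h6⟩ := mem_cellsAt.1 hc
  refine ⟨h1 ▸ h.j, ?_, h3 ▸ h.ka, ?_, ?_, ?_⟩
  · rw [h1, h2]; exact h.i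
  · rw [h1, h3, h4]; exact h.x
  · rw [h1]; exact (mem_gpts.1 h5).2.1.trans h.x
  · rw [h1]; exact (mem_gpts.1 h6).2.1.trans h.x

theorem Dom.kids {e c : Cell} {r : ℕ} (h : Dom P e) (hj : e.j ≠ 0) (hr : r < P.B)
    (hc : c ∈ kids P e r) : Dom P c := by
  obtain ⟨h1, h2, h3, -, -, h6, h7⟩ := mem_kids.1 hc
  obtain ⟨-, -, -, -, h8, h9⟩ := mem_cellsAt.1 h7
  have hk := h.j
  have hx : (c.x + 3) * 2 ^ c.ka ≤ pmax P c.j := by
    have e1 : pmax P c.j = pmax P e.j + 4 * 2 ^ P.km := by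
      unfold pmax
      rw [h1, show P.k - (e.j - 1) + 1 = P.k - e.j + 1 + 1 by omega]
      ring
    have e2 : 2 ^ e.ka = 2 ^ (e.ka - c.ka) * 2 ^ c.ka := by
      rw [← pow_add]; congr 1; omega
    have e3 : c.x + 3 ≤ (e.x + 3) * 2 ^ (e.ka - c.ka) + 4 := by
      rw [add_mul]; omega
    have e4 : 2 ^ c.ka ≤ 2 ^ P.km := Nat.pow_le_pow_right two_pos (h3.trans h.ka)
    have e5 := h.x
    have e6 := Nat.mul_le_mul_right (2 ^ c.ka) e3
    rw [add_mul _ 4, mul_assoc, ← e2] at e6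
    omega
  refine ⟨by omega, ?_, h3.trans h.ka, hx, (mem_gpts.1 h8).2.1.trans hx,
    (mem_gpts.1 h9).2.1.trans hx⟩
  rw [h1, h2, show P.k - (e.j - 1) = P.k - e.j + 1 by omega, pow_succ]
  have e1 := Nat.mul_le_mul_right P.B (Nat.succ_le_of_lt h.i)
  rw [Nat.succ_mul] at e1
  omega

theorem Dom.box {e : Cell} (h : Dom P e) (τ : ℕ) : Dom P (box P e τ) := by
  exact ⟨h.j, h.i, h.ka, h.x, (Nat.sub_le _ _).trans h.p, (Nat.sub_le _ _).trans h.q⟩

theorem dom_root {ka : ℕ} (h : ka ≤ P.km) : Dom P (rootCell P ka) := by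
  have e1 : pmax P P.k = P.lx + P.ly + 4 * 2 ^ P.km := by simp [pmax]
  refine ⟨le_rfl, by simp [rootCell], h, ?_, ?_, ?_⟩
  · show (P.lx / 2 ^ ka - 1 + 3) * 2 ^ ka ≤ pmax P P.k
    have e2 : 2 ^ ka ≤ 2 ^ P.km := Nat.pow_le_pow_right two_pos h
    have e3 := Nat.div_mul_le_self P.lx (2 ^ ka)
    have e4 := Nat.mul_le_mul_right (2 ^ ka) (Nat.sub_le (P.lx / 2 ^ ka) 1)
    rw [add_mul]
    omega
  · show P.lx ≤ pmax P P.k
    omega
  · show P.ly ≤ pmax P P.k
    omega

theorem phi_zero (val : Cell → ℕ) (e : Cell) (s : ℕ) : phi P val e 0 s = Nat.dist e.p s := by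
  simp [phi, dpTab, ev, minL, minD]

theorem phi_succ (val : Cell → ℕ) (e : Cell) (r s : ℕ) : phi P val e (r + 1) s =
    minL ((kids P e r).map fun c => phi P val e r c.p + val c + Nat.dist c.q s) := by
  unfold phi dpTab
  rw [List.range_succ, List.map_append, List.foldl_append]
  simp only [List.map_cons, List.map_nil, List.foldl_cons, List.foldl_nil, dpStep]
  rw [ev, List.map_map, List.map_map]
  rfl

theorem phi_succ_le (val : Cell → ℕ) {e c : Cell} {r : ℕ} (hc : c ∈ kids P e r) (s : ℕ) :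
    phi P val e (r + 1) s ≤ phi P val e r c.p + val c + Nat.dist c.q s := by
  rw [phi_succ]
  exact minL_le (List.mem_map_of_mem hc)

theorem phi_succ_ex (val : Cell → ℕ) (e : Cell) (r s : ℕ) : ∃ c ∈ kids P e r,
    phi P val e (r + 1) s = phi P val e r c.p + val c + Nat.dist c.q s := by
  rw [phi_succ]
  obtain ⟨c, hc, h⟩ := List.mem_map.1 (minL_mem (l := (kids P e r).map fun c =>
    phi P val e r c.p + val c + Nat.dist c.q s) (by simpa using kids_ne_nil e r))
  exact ⟨c, hc, h.symm⟩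

theorem phi_lip (val : Cell → ℕ) (e : Cell) (r s s' : ℕ) :
    phi P val e r s ≤ phi P val e r s' + Nat.dist s' s := by
  cases r with
  | zero => rw [phi_zero, phi_zero]; exact Nat.dist.triangle_inequality _ _ _
  | succ r =>
    obtain ⟨c, hc, h⟩ := phi_succ_ex (P := P) val e r s'
    have h1 := phi_succ_le val hc s
    have h2 := Nat.dist.triangle_inequality c.q s' s
    omega

theorem phi_lip_start (val : Cell → ℕ) {e e' : Cell} (h : Same e e') (r s : ℕ) :
    phi P val e r s ≤ phi P val e' r s + Nat.dist e.p e'.p := by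
  induction r generalizing s with
  | zero =>
    rw [phi_zero, phi_zero, add_comm]
    exact Nat.dist.triangle_inequality _ _ _
  | succ r ih =>
    obtain ⟨c, hc, h1⟩ := phi_succ_ex (P := P) val e' r s
    have h2 := phi_succ_le val (h.kids r ▸ hc : c ∈ kids P e r) s
    have h3 := ih c.p
    omega

theorem phi_mono {val val' : Cell → ℕ} {e : Cell} {r : ℕ}
    (h : ∀ r' < r, ∀ c ∈ kids P e r', val c ≤ val' c) (s : ℕ) :
    phi P val e r s ≤ phi P val' e r s := by
  induction r generalizing s with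
  | zero => rw [phi_zero, phi_zero]
  | succ r ih =>
    obtain ⟨c, hc, h1⟩ := phi_succ_ex (P := P) val' e r s
    have h2 := phi_succ_le val hc s
    have h3 := ih (fun r' hr' => h r' (by omega)) c.p
    have h4 := h r (by omega) c hc
    omega

theorem phi_congr {val val' : Cell → ℕ} {e : Cell} {r : ℕ}
    (h : ∀ r' < r, ∀ c ∈ kids P e r', val c = val' c) (s : ℕ) :
    phi P val e r s = phi P val' e r s := by
  exact le_antisymm (phi_mono (fun r' hr c hc => (h r' hr c hc).le) s)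
    (phi_mono (fun r' hr c hc => (h r' hr c hc).ge) s)

/-- Continuation from `r` to `r'` along the cells `g`, jumps at most `b`. -/
theorem phi_path (val : Cell → ℕ) (e : Cell) (g : ℕ → Cell) {r r' : ℕ} (hr : r ≤ r')
    (hg : ∀ u, r ≤ u → u < r' → g u ∈ kids P e u) (y : ℕ → ℕ) :
    phi P val e r' (y r') ≤ phi P val e r (y r) + ∑ u ∈ Ico r r',
      (Nat.dist (y u) (g u).p + val (g u) + Nat.dist (g u).q (y (u + 1))) := by
  induction r', hr using Nat.le_induction with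
  | base => simp
  | succ r' hr ih =>
    have h1 := ih fun u h1 h2 => hg u h1 (by omega)
    have h2 := phi_succ_le val (hg r' hr (by omega)) (y (r' + 1))
    have h3 := phi_lip (P := P) val e r' (g r').p (y r')
    rw [sum_Ico_succ_top hr]
    omega

theorem node_mul {j : ℕ} (hj : j ≠ 0) (i r : ℕ) :
    (i * P.B + r) * P.B ^ (j - 1) = i * P.B ^ j + r * P.B ^ (j - 1) := by
  obtain ⟨j, rfl⟩ := Nat.exists_eq_succ_of_ne_zero hj
  rw [Nat.succ_sub_one, pow_succ]
  ring

theorem phi_valid {c : ℕ → ℕ → ℕ} {V : ℕ → ℕ → ℕ → ℕ → ℕ} (hV : Pot c V) {val : Cell → ℕ}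
    {e : Cell} (hj : e.j ≠ 0) {r : ℕ} (h : ∀ r' < r, ∀ c' ∈ kids P e r', cv P V c' ≤ val c')
    (s : ℕ) :
    V (e.i * P.B ^ e.j) (e.i * P.B ^ e.j + r * P.B ^ (e.j - 1)) e.p s ≤ phi P val e r s := by
  induction r generalizing s with
  | zero => rw [phi_zero, zero_mul, add_zero]; exact hV.nil _ _ _
  | succ r ih =>
    obtain ⟨c', hc, h1⟩ := phi_succ_ex (P := P) val e r s
    have h2 := ih (fun r' hr' => h r' (by omega)) c'.p
    have h3 := h r (by omega) c' hc
    obtain ⟨h4, h5, -⟩ := mem_kids.1 hc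
    rw [cv, h4, h5, add_assoc, node_mul hj, node_mul hj] at h3
    have h6 := hV.chain (e.i * P.B ^ e.j) (e.i * P.B ^ e.j + r * P.B ^ (e.j - 1))
      (e.i * P.B ^ e.j + (r + 1) * P.B ^ (e.j - 1)) e.p c'.p s (Nat.le_add_right _ _)
      (Nat.add_le_add_left (Nat.mul_le_mul_right _ (Nat.le_succ r)) _)
    have h7 := hV.lip (e.i * P.B ^ e.j + r * P.B ^ (e.j - 1))
      (e.i * P.B ^ e.j + (r + 1) * P.B ^ (e.j - 1)) c'.p s c'.p c'.q
    rw [Nat.dist_self, Nat.dist_comm s] at h7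
    omega

/-- A chain of bounds for the children gives a bound for the cell. -/
theorem cv_chain {c : ℕ → ℕ → ℕ} {V : ℕ → ℕ → ℕ → ℕ → ℕ} (hV : Pot c V) {e : Cell}
    (hj : e.j ≠ 0) (y f : ℕ → ℕ) (h0 : y 0 = e.p) (h1 : y P.B = e.q)
    (h : ∀ r < P.B, V ((e.i * P.B + r) * P.B ^ (e.j - 1)) ((e.i * P.B + r + 1) * P.B ^ (e.j - 1))
      (y r) (y (r + 1)) ≤ f r) : cv P V e ≤ ∑ r ∈ range P.B, f r := by
  have key : ∀ r ≤ P.B, V (e.i * P.B * P.B ^ (e.j - 1)) ((e.i * P.B + r) * P.B ^ (e.j - 1))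
      (y 0) (y r) ≤ ∑ r ∈ range r, f r := by
    intro r
    induction r with
    | zero => intro _; simpa using hV.nil (e.i * P.B * P.B ^ (e.j - 1)) (y 0) (y 0)
    | succ r ih =>
      intro hr
      have h2 := hV.chain (e.i * P.B * P.B ^ (e.j - 1)) ((e.i * P.B + r) * P.B ^ (e.j - 1))
        ((e.i * P.B + r + 1) * P.B ^ (e.j - 1)) (y 0) (y r) (y (r + 1))
        (Nat.mul_le_mul_right _ (by omega)) (Nat.mul_le_mul_right _ (by omega))
      have h3 := ih (by omega)
      have h4 := h r (by omega)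
      rw [sum_range_succ, ← add_assoc]
      omega
  have h2 := key P.B le_rfl
  have h3 : ∀ i, i * P.B * P.B ^ (e.j - 1) = i * P.B ^ e.j := fun i => by
    simpa using node_mul (P := P) hj i 0
  rw [h0, h1, ← Nat.succ_mul, h3, h3] at h2
  exact h2

theorem ubest_le (U : Cell → ℕ → ℕ) {c : Cell} {τ : ℕ} (h : τ ≤ c.ka + P.h2) :
    ubest P U c ≤ U c τ := by
  exact minL_le (List.mem_map_of_mem (List.mem_range.2 (by omega)))

theorem ubest_ex (U : Cell → ℕ → ℕ) (c : Cell) : ∃ τ ≤ c.ka + P.h2, ubest P U c = U c τ := by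
  obtain ⟨τ, h1, h2⟩ := List.mem_map.1 (minL_mem (l := (List.range (c.ka + P.h2 + 1)).map
    fun τ => U c τ) (by simp))
  exact ⟨τ, Nat.lt_succ_iff.1 (List.mem_range.1 h1), h2.symm⟩

theorem mem_tube {R : Cell → ℕ} {e c : Cell} {r : ℕ} : c ∈ tube P R e r ↔
    c ∈ kids P e r ∧ ta P R e r ≤ c.ka + P.h2 ∧ Nat.dist c.p (st P R e r) ≤ rad P R e ∧
      Nat.dist c.q (st P R e (r + 1)) ≤ rad P R e ∧ P.BK * R c ≤ wt P R e r ∧
      P.BK * Nat.dist c.p c.q ≤ wt P R e r := by
  simp only [tube, List.mem_filter, Bool.and_eq_true, decide_eq_true_eq, and_assoc]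

theorem sum_map_range (n : ℕ) (f : ℕ → ℕ) :
    ((List.range n).map f).sum = ∑ r ∈ range n, f r := rfl

theorem adm_iff {R : Cell → ℕ} {e : Cell} {τ : ℕ} : adm P R e τ = true ↔
    e.j ≠ 0 ∧ 2 ^ τ ≤ 8 * (P.BK * R e) ∧ P.BK * R e ≤ 2 ^ τ ∧
      ∑ r ∈ range P.B, wt P R e r ≤ P.BK * R e + 3 * (P.B * R e) ∧
      (∀ r < P.B, Nat.dist (st P R e r) e.p ≤ 2 * R e) ∧ ∀ r < P.B, tube P R e r ≠ [] := by
  rw [← sum_map_range]
  simp only [adm, Bool.and_eq_true, decide_eq_true_eq, List.all_eq_true, List.mem_range,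
    and_assoc, Bool.not_eq_eq_eq_not, Bool.not_true, List.isEmpty_eq_false_iff]

theorem mem_fam {R : Cell → ℕ} {c e : Cell} {τ : ℕ} : e ∈ fam P R c τ ↔
    e ∈ sibs P c ∧ (box P e τ).p = c.p ∧ (box P e τ).q = c.q ∧ adm P R e τ = true := by
  simp only [fam, List.mem_filter, Bool.and_eq_true, decide_eq_true_eq, and_assoc]

theorem tc_mem {R : Cell → ℕ} {e : Cell} {r : ℕ} (h : tube P R e r ≠ []) (u : ℕ) :
    tc P R e r u ∈ tube P R e r := by
  unfold tc
  generalize tube P R e r = l at h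
  by_cases hu : u < l.length
  · rw [List.getD_eq_getElem _ _ hu]
    exact List.getElem_mem hu
  · rw [List.getD_eq_default _ _ (by omega)]
    cases l with
    | nil => exact absurd rfl h
    | cons a l => simp

theorem st_zero (R : Cell → ℕ) (e : Cell) : st P R e 0 = e.p := by
  simp [st]

theorem st_last (R : Cell → ℕ) (e : Cell) : st P R e P.B = e.q := by
  have : P.B ≠ 0 := (Nat.two_pow_pos _).ne'
  simp [st, this]

/-! The line of a cell depends on the reference values of the cell and of its children only. -/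

theorem st_congr {R R' : Cell → ℕ} {e : Cell} (h : ∀ r < P.B, ∀ c ∈ kids P e r, R c = R' c)
    (r : ℕ) : st P R e r = st P R' e r := by
  unfold st
  split_ifs with h1 h2
  · rfl
  · rfl
  · rw [phi_congr h]
    refine argL_congr _ fun s _ => ?_
    rw [phi_congr (r := r) fun r' hr => h r' (by omega)]

theorem wt_congr {R R' : Cell → ℕ} {e : Cell} (h0 : R e = R' e)
    (h : ∀ r < P.B, ∀ c ∈ kids P e r, R c = R' c) {r : ℕ} (hr : r < P.B) :
    wt P R e r = wt P R' e r := by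
  unfold wt
  rw [st_congr h, st_congr h, h0, phi_congr (r := r + 1) fun r' hr => h r' (by omega),
    phi_congr (r := r) fun r' hr => h r' (by omega)]

theorem ta_congr {R R' : Cell → ℕ} {e : Cell} (h0 : R e = R' e)
    (h : ∀ r < P.B, ∀ c ∈ kids P e r, R c = R' c) {r : ℕ} (hr : r < P.B) :
    ta P R e r = ta P R' e r := by
  unfold ta
  rw [wt_congr h0 h hr]

theorem tube_congr {R R' : Cell → ℕ} {e : Cell} (h0 : R e = R' e)
    (h : ∀ r < P.B, ∀ c ∈ kids P e r, R c = R' c) {r : ℕ} (hr : r < P.B) :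
    tube P R e r = tube P R' e r := by
  unfold tube
  refine List.filter_congr fun c hc => ?_
  rw [ta_congr h0 h hr, wt_congr h0 h hr, st_congr h, st_congr h, h r hr c hc, rad, rad, h0]

theorem adm_congr {R R' : Cell → ℕ} {e : Cell} (h0 : R e = R' e)
    (h : e.j ≠ 0 → ∀ r < P.B, ∀ c ∈ kids P e r, R c = R' c) (τ : ℕ) :
    adm P R e τ = adm P R' e τ := by
  rw [Bool.eq_iff_iff, adm_iff, adm_iff]
  refine and_congr_right fun hj => ?_
  rw [h0, sum_congr rfl fun r hr => wt_congr h0 (h hj) (mem_range.1 hr)]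
  simp only [st_congr (h hj)]
  refine and_congr_right fun _ => and_congr_right fun _ => and_congr_right fun _ =>
    and_congr_right fun _ => forall₂_congr fun r hr => ?_
  rw [tube_congr h0 (h hj) hr]

end Vale.Agent.P315Z
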