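import Vale.Agent.P315Z.Keys
import Vale.Agent.P315Z.Dp

/-! P315Z: the number of boxes and of tables that are asked for. -/

set_option autoImplicit false

namespace Vale.Agent.P315Z

variable {P : Par}

namespace Box

theorem length_dedup_le {α : Type} [DecidableEq α] {l L : List α} (h : ∀ a ∈ l, a ∈ L) :
    l.dedup.length ≤ L.length :=
  (List.subperm_of_subset (List.nodup_dedup l) fun a ha => h a (List.mem_dedup.1 ha)).length_le

theorem length_range_le {β : Type} (k : ℕ) (f : ℕ → List β) {n : ℕ}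
    (h : ∀ a < k, (f a).length ≤ n) : ((List.range k).flatMap f).length ≤ k * n := by
  have h1 := length_flatMap_le (List.range k) f fun a ha => h a (List.mem_range.1 ha)
  rwa [List.length_range] at h1

theorem div_le_of_le {a b n w : ℕ} (hw : 0 < w) (h : a ≤ b + n * w) : a / w ≤ b / w + n :=
  (Nat.div_le_div_right h).trans (Nat.add_mul_div_right b n hw).le

theorem near {a b n w : ℕ} (hw : 0 < w) (h : Nat.dist a b ≤ n * w) :
    ∃ s < 2 * n + 1, a / w = b / w - n + s := by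
  have h1 : a / w ≤ b / w + n := div_le_of_le hw (by unfold Nat.dist at h; omega)
  have h2 : b / w ≤ a / w + n := div_le_of_le hw (by unfold Nat.dist at h; omega)
  generalize a / w = x at *
  generalize b / w = y at *
  exact ⟨x - (y - n), by omega, by omega⟩

theorem sub_mod_eq (a w : ℕ) : a - a % w = a / w * w := by
  have := Nat.div_add_mod' a w
  omega

theorem lt_pow_sub {u l n : ℕ} (h : u * 2 ^ l < 2 ^ n) : u < 2 ^ (n - l) := by
  by_contra hc
  have h1 : 2 ^ n ≤ 2 ^ (n - l) * 2 ^ l := by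
    rw [← pow_add]
    exact Nat.pow_le_pow_right two_pos (by omega)
  have h2 := Nat.mul_le_mul_right (2 ^ l) (not_lt.1 hc)
  omega

theorem BK_eq : P.BK = P.B * P.K := by
  rw [Par.BK, Par.h2, pow_add, Par.B, Par.K]

theorem h3_eq : 2 ^ P.h3 = P.BK * P.K := by
  rw [Par.BK, Par.K, ← pow_add, Par.h3, Par.h2]
  congr 1
  omega

theorem pow_le_om (t : ℕ) : 2 ^ t ≤ 2 ^ P.h3 * om P t := by
  rw [om, ← pow_add]
  exact Nat.pow_le_pow_right two_pos (by omega)

theorem four_le_K (hP : P.Ok) : 4 ≤ P.K := by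
  have h := hP.hK
  exact Nat.pow_le_pow_right (n := 2) (i := 2) two_pos (by omega)

theorem lK_le (hP : P.Ok) : P.lK + 4 ≤ P.lS := by
  have h := hP.hS
  have h1 : 0 < P.K := Nat.two_pow_pos _
  have h2 : 2 ^ (P.lK + 4) = 16 * P.K := by rw [pow_add, Par.K]; omega
  have h3 : 2 ^ (P.lK + 4) ≤ 2 ^ P.lS := by
    refine le_trans ?_ ((Nat.le_mul_of_pos_right _ (by omega)).trans h)
    rw [h2]
    nlinarith
  exact (Nat.pow_le_pow_iff_right one_lt_two).1 h3

theorem LA_le (hP : P.Ok) : P.LA ≤ P.nA + 1 := by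
  have h := hP.hA
  have h1 : 0 < P.LA := by unfold Par.LA; omega
  have h2 : 0 < P.lcnt := by unfold Par.lcnt; omega
  have h3 : 2 ^ (4 + 2 * P.dl) ≤ 2 ^ P.lA := by
    refine le_trans ?_ ((Nat.le_mul_of_pos_right _ h2).trans h)
    rw [pow_add]
    exact Nat.mul_le_mul_right _ (Nat.le_mul_of_pos_right _ h1)
  have h4 := (Nat.pow_le_pow_iff_right one_lt_two).1 h3
  unfold Par.LA Par.nA
  omega

theorem le_pow_ta (R : Cell → ℕ) (e : Cell) (r : ℕ) : wt P R e r ≤ 2 ^ ta P R e r :=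
  Nat.le_pow_clog one_lt_two _

theorem R_le_wt (R : Cell → ℕ) (e : Cell) (r : ℕ) : R e ≤ wt P R e r := Nat.le_add_left _ _

theorem rad_le (R : Cell → ℕ) (e : Cell) (r : ℕ) : rad P R e ≤ om P (ta P R e r) := by
  have h1 := ((R_le_wt (P := P) R e r).trans (le_pow_ta R e r)).trans (pow_le_om (P := P) _)
  apply Nat.div_le_of_le_mul
  refine h1.trans (Nat.mul_le_mul_right _ (Nat.pow_le_pow_right two_pos (by omega)))

/-- The boxes of dress `t` in one row with the start point in a window of `n` widths. -/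
def rowL (P : Par) (j i ka t lo n : ℕ) : List (Cell × ℕ) :=
  (List.range (P.h + 1)).flatMap fun κ => (List.range n).flatMap fun a =>
    (List.range 4).flatMap fun ξ => (List.range (2 * P.K + 1)).map fun b =>
      (⟨j, i, ka - κ, (lo + a) * om P t / 2 ^ (ka - κ) - ξ, (lo + a) * om P t,
        (lo + a - P.K + b) * om P t⟩, t)

theorem length_rowL (j i ka t lo n : ℕ) :
    (rowL P j i ka t lo n).length ≤ (P.h + 1) * (n * (4 * (2 * P.K + 1))) := by
  refine length_range_le _ _ fun κ _ => length_range_le _ _ fun a _ =>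
    length_range_le _ _ fun ξ _ => ?_
  rw [List.length_map, List.length_range]

theorem mem_rowL {R : Cell → ℕ} {e c : Cell} {r lo n a : ℕ} (hc : c ∈ tube P R e r)
    (ha : a < n) (hp : c.p / om P (ta P R e r) = lo + a) :
    (box P c (ta P R e r), ta P R e r) ∈
      rowL P (e.j - 1) (e.i * P.B + r) e.ka (ta P R e r) lo n := by
  obtain ⟨h1, h2, -, -, -, h3⟩ := mem_tube.1 hc
  obtain ⟨k1, k2, k3, k4, -, -, k5⟩ := mem_kids.1 h1
  obtain ⟨-, -, -, -, k6, -⟩ := mem_cellsAt.1 k5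
  obtain ⟨k7, k8, -⟩ := mem_gpts.1 k6
  have hw := om_pos (P := P) (ta P R e r)
  have hd : Nat.dist c.q c.p ≤ P.K * om P (ta P R e r) := by
    have b1 := (h3.trans (le_pow_ta R e r)).trans (pow_le_om (P := P) _)
    rw [h3_eq, mul_assoc] at b1
    rw [Nat.dist_comm]
    exact Nat.le_of_mul_le_mul_left b1 (Nat.two_pow_pos _)
  obtain ⟨b, hb, hq⟩ := near hw hd
  have hk : e.ka - (e.ka - c.ka) = c.ka := by omega
  have hdv : om P (ta P R e r) ∣ 2 ^ c.ka := by
    refine pow_dvd_pow 2 ?_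
    unfold Par.h2 at h2
    unfold Par.h3
    omega
  have hx : c.p / om P (ta P R e r) * om P (ta P R e r) / 2 ^ c.ka = c.p / 2 ^ c.ka := by
    obtain ⟨v, hv⟩ := hdv
    rw [hv, ← Nat.div_div_eq_div_mul, ← Nat.div_div_eq_div_mul, Nat.mul_div_cancel _ hw]
  have hx1 : c.x ≤ c.p / 2 ^ c.ka := (Nat.le_div_iff_mul_le (Nat.two_pow_pos _)).2 k7
  have hx2 : c.p / 2 ^ c.ka ≤ c.x + 3 := by
    apply Nat.div_le_of_le_mul
    rwa [mul_comm]
  simp only [rowL, List.mem_flatMap, List.mem_map, List.mem_range]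
  refine ⟨e.ka - c.ka, by omega, a, ha, c.p / 2 ^ c.ka - c.x, by omega, b, hb, ?_⟩
  rw [hk, ← hp, ← hq, hx, box, sub_mod_eq, sub_mod_eq, k1, k2]
  congr 2
  omega

theorem pow_lL : 2 ^ (P.lb + P.lL) =
    2 ^ P.nH * (P.K * P.K) * 512 * 2 ^ Nat.clog 2 (P.h + 1) * 2 ^ Nat.clog 2 (P.h2 + 5) := by
  rw [Par.K, Par.lL, Par.nH]
  ring

theorem fin_le {n : ℕ} (h : n ≤ (P.h2 + 5) * (2 ^ P.nH * ((P.h + 1) * (64 * (P.K * P.K))))) :
    8 * n ≤ 2 ^ (P.lb + P.lL) := by
  rw [pow_lL]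
  have h1 : P.h + 1 ≤ 2 ^ Nat.clog 2 (P.h + 1) := Nat.le_pow_clog one_lt_two _
  have h2 : P.h2 + 5 ≤ 2 ^ Nat.clog 2 (P.h2 + 5) := Nat.le_pow_clog one_lt_two _
  calc 8 * n ≤ 8 * ((P.h2 + 5) * (2 ^ P.nH * ((P.h + 1) * (64 * (P.K * P.K))))) := by gcongr
    _ = 2 ^ P.nH * (P.K * P.K) * 512 * (P.h + 1) * (P.h2 + 5) := by ring
    _ ≤ _ := by gcongr

/-- The dress of a child of an admissible cell. -/
theorem ta_bounds (hP : P.Ok) {R : Cell → ℕ} {e : Cell} {τ r : ℕ} (h : adm P R e τ = true)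
    (hr : r < P.B) : ta P R e r ≤ τ + 1 ∧ τ ≤ ta P R e r + P.h2 + 3 := by
  obtain ⟨-, h1, h2, h3, -, -⟩ := adm_iff.1 h
  constructor
  · have a1 : wt P R e r ≤ ∑ r ∈ Finset.range P.B, wt P R e r :=
      Finset.single_le_sum (f := fun r => wt P R e r) (fun _ _ => Nat.zero_le _)
        (Finset.mem_range.2 hr)
    have a2 : 3 * (P.B * R e) ≤ P.BK * R e := by
      have := four_le_K hP
      rw [BK_eq, mul_comm P.B P.K, mul_assoc]
      exact Nat.mul_le_mul_right _ (by omega)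
    refine (Nat.clog_le_iff_le_pow one_lt_two).2 ?_
    rw [pow_succ]
    omega
  · have a1 := (R_le_wt (P := P) R e r).trans (le_pow_ta R e r)
    have a2 : 2 ^ τ ≤ 2 ^ (ta P R e r + P.h2 + 3) := by
      refine h1.trans ?_
      rw [pow_add, pow_add, Par.BK, mul_comm 8, mul_comm (2 ^ P.h2)]
      exact Nat.mul_le_mul_right _ (Nat.mul_le_mul_right _ a1)
    exact (Nat.pow_le_pow_iff_right one_lt_two).1 a2

/-- The start points of the cells in the tubes of a family. -/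
theorem dist_fam (hP : P.Ok) {R : Cell → ℕ} {c e c' : Cell} {τ r : ℕ} (he : e ∈ fam P R c τ)
    (hr : r < P.B) (hc : c' ∈ tube P R e r) :
    Nat.dist c'.p c.p ≤ (2 * P.K * 2 ^ (τ + 1 - ta P R e r) - 1) * om P (ta P R e r) := by
  obtain ⟨-, h1, -, h2⟩ := mem_fam.1 he
  obtain ⟨h3, -⟩ := ta_bounds hP h2 hr
  obtain ⟨-, -, h4, -, h5, -⟩ := adm_iff.1 h2
  obtain ⟨-, -, h6, -⟩ := mem_tube.1 hc
  have a1 := h5 r hr
  have a2 := dist_box_p (P := P) e τ
  rw [h1] at a2
  have a3 := rad_le (P := P) R e r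
  have hK := four_le_K hP
  have hw := om_pos (P := P) (ta P R e r)
  have hδ : 0 < 2 ^ (τ + 1 - ta P R e r) := Nat.two_pow_pos _
  have a4 : 2 * R e ≤ P.K * (2 ^ (τ + 1 - ta P R e r) * om P (ta P R e r)) := by
    have b1 : 2 ^ (τ + 1) = 2 ^ (τ + 1 - ta P R e r) * 2 ^ ta P R e r := by
      rw [← pow_add]; congr 1; omega
    have b2 := Nat.mul_le_mul_left (2 ^ (τ + 1 - ta P R e r)) (pow_le_om (P := P) (ta P R e r))
    rw [← b1, h3_eq, pow_succ] at b2
    refine Nat.le_of_mul_le_mul_left (c := P.BK) ?_ (Nat.two_pow_pos _)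
    calc P.BK * (2 * R e) = P.BK * R e * 2 := by ring
      _ ≤ 2 ^ τ * 2 := Nat.mul_le_mul_right _ h4
      _ ≤ _ := b2
      _ = _ := by ring
  have a5 : om P τ ≤ 2 ^ (τ + 1 - ta P R e r) * om P (ta P R e r) := by
    rw [om, om, ← pow_add]
    exact Nat.pow_le_pow_right two_pos (by omega)
  have a6 : om P (ta P R e r) ≤ 2 ^ (τ + 1 - ta P R e r) * om P (ta P R e r) :=
    Nat.le_mul_of_pos_left _ hδ
  have a7 := Nat.mul_le_mul_right (2 ^ (τ + 1 - ta P R e r) * om P (ta P R e r)) hK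
  rw [Nat.sub_mul, one_mul, mul_assoc, mul_assoc]
  generalize 2 ^ (τ + 1 - ta P R e r) * om P (ta P R e r) = v at *
  generalize P.K * v = z at *
  unfold Nat.dist at *
  omega

end Box

open Box

theorem length_sBox (hP : P.Ok) (sd : ℕ → ℕ) (R : Cell → ℕ) (c : Cell) (τ : ℕ) :
    8 * (sBox P sd R c τ).length ≤ 2 ^ (P.lb + P.lL) := by
  have hK := four_le_K hP
  have hS := lK_le hP
  refine fin_le ((length_dedup_le (L := (List.range (P.h2 + 5)).flatMap fun δ =>
    (List.range (2 ^ (P.nH - δ))).flatMap fun u => rowL P (c.j - 1) (c.i * P.B + sd u % P.B) c.ka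
      (τ + 1 - δ) (c.p / om P (τ + 1 - δ) - (2 * P.K * 2 ^ δ - 1))
        (2 * (2 * P.K * 2 ^ δ - 1) + 1)) fun a ha => ?_).trans ?_)
  · obtain ⟨e, he, ha⟩ := List.mem_flatMap.1 ha
    obtain ⟨u, -, ha⟩ := List.mem_flatMap.1 ha
    split_ifs at ha with hu
    · obtain ⟨c', hc, rfl⟩ := List.mem_map.1 ha
      have hr : sd u % P.B < P.B := Nat.mod_lt _ (Nat.two_pow_pos _)
      obtain ⟨h1, -, -, h2⟩ := mem_fam.1 he
      obtain ⟨h3, h4⟩ := ta_bounds hP h2 hr
      obtain ⟨s1, s2, s3, -⟩ := same_of_mem_sibs h1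
      obtain ⟨s, hs, hp⟩ := near (om_pos _) (dist_fam hP he hr hc)
      refine List.mem_flatMap.2 ⟨τ + 1 - ta P R e (sd u % P.B), List.mem_range.2 (by omega),
        List.mem_flatMap.2 ⟨u, List.mem_range.2 (lt_pow_sub hu), ?_⟩⟩
      have h5 : τ + 1 - (τ + 1 - ta P R e (sd u % P.B)) = ta P R e (sd u % P.B) := by omega
      rw [h5, ← s1, ← s2, ← s3]
      exact mem_rowL hc hs hp
    · exact absurd ha List.not_mem_nil
  · refine length_range_le _ _ fun δ hδ => ?_
    refine (length_range_le _ _ fun u _ => length_rowL _ _ _ _ _ _).trans ?_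
    have h1 : 2 ^ P.nH = 2 ^ (P.nH - δ) * 2 ^ δ := by
      rw [← pow_add]
      congr 1
      unfold Par.h2 at hδ
      unfold Par.nH
      omega
    have h2 : 0 < 2 * P.K * 2 ^ δ := Nat.mul_pos (by omega) (Nat.two_pow_pos _)
    have h3 : 2 * (2 * P.K * 2 ^ δ - 1) + 1 ≤ 2 * (2 * P.K * 2 ^ δ) := by omega
    have h4 : 2 * P.K + 1 ≤ 4 * P.K := by omega
    calc _ ≤ 2 ^ (P.nH - δ) * ((P.h + 1) * (2 * (2 * P.K * 2 ^ δ) * (4 * (4 * P.K)))) := by gcongr
      _ = _ := by rw [h1]; ring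

theorem length_lBox (hP : P.Ok) (R : Cell → ℕ) (e : Cell) :
    8 * (lBox P R e).length ≤ 2 ^ (P.lb + P.lL) := by
  have hK := four_le_K hP
  refine fin_le ((length_dedup_le (L := (List.range P.B).flatMap fun r =>
    rowL P (e.j - 1) (e.i * P.B + r) e.ka (ta P R e r) (st P R e r / om P (ta P R e r) - 1)
      (2 * 1 + 1)) fun a ha => ?_).trans ?_)
  · obtain ⟨r, hr, ha⟩ := List.mem_flatMap.1 ha
    obtain ⟨c', hc, rfl⟩ := List.mem_map.1 ha
    obtain ⟨-, -, h1, -⟩ := mem_tube.1 hc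
    obtain ⟨s, hs, hp⟩ := near (n := 1) (om_pos (P := P) (ta P R e r))
      (h1.trans ((rad_le R e r).trans (one_mul _).ge))
    exact List.mem_flatMap.2 ⟨r, hr, mem_rowL hc hs hp⟩
  · refine (length_range_le _ _ fun r _ => length_rowL _ _ _ _ _ _).trans ?_
    refine le_trans ?_ (Nat.le_mul_of_pos_left _ (by omega))
    have h1 : P.B ≤ 2 ^ P.nH := Nat.pow_le_pow_right two_pos (Nat.le_add_left _ _)
    have h2 : (2 * 1 + 1) * (4 * (2 * P.K + 1)) ≤ 64 * (P.K * P.K) := by nlinarith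
    gcongr

namespace Box

theorem tlen_mul_res (a : ℕ) : tlen P a * res P a = wid P a := by
  rw [tlen, res, wid, ← pow_add]
  congr 1
  omega

theorem wid_pos (a : ℕ) : 0 < wid P a := Nat.two_pow_pos _

theorem cands_bounds {a s r : ℕ} (h : r ∈ cands P a s) :
    s ≤ r + 2 * wid P a ∧ r ≤ s + 3 * wid P a := by
  obtain ⟨t, ht, rfl⟩ := List.mem_map.1 h
  have ht := List.mem_range.1 ht
  have h1 := tlen_mul_res (P := P) a
  have h2 : 0 < res P a := Nat.two_pow_pos _
  have h3 : res P a ≤ wid P a := h1 ▸ Nat.le_mul_of_pos_left _ (Nat.two_pow_pos _)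
  have h4 := Nat.div_add_mod' (s - wid P a) (res P a)
  have h5 := Nat.mod_lt (s - wid P a) h2
  have h6 : t * res P a ≤ (2 * tlen P a + 1) * res P a := Nat.mul_le_mul_right _ (by omega)
  rw [add_mul, mul_assoc, h1, one_mul] at h6
  rw [add_mul]
  omega

end Box

theorem length_qA (hP : P.Ok) (sd : ℕ → ℕ) {j : ℕ} (hj : j ≠ 0) (i a b : ℕ) :
    (qA P sd j i a b).length ≤ 7 * P.LA * 2 ^ P.nA := by
  rw [qA, if_neg hj]
  refine (length_dedup_le (L := (List.range P.LA).flatMap fun l =>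
    (List.range (2 ^ (P.nA - l))).flatMap fun u => (List.range (2 ^ l + 6)).map fun v =>
      kA (j - P.ha) (i * ar P j + sd u % ar P j) (a + 1 - l)
        (b * wid P a / wid P (a + 1 - l) - 2 + v)) fun k hk => ?_).trans ?_
  · obtain ⟨u, -, hk⟩ := List.mem_flatMap.1 hk
    obtain ⟨l, hl, hk⟩ := List.mem_flatMap.1 hk
    split_ifs at hk with hu
    · obtain ⟨t, ht, hk⟩ := List.mem_flatMap.1 hk
      obtain ⟨r, hr, rfl⟩ := List.mem_map.1 hk
      obtain ⟨h1, h2⟩ := cands_bounds hr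
      have hw := wid_pos (P := P) (a + 1 - l)
      have h3 : t * res P a ≤ wid P a := by
        rw [← tlen_mul_res]
        exact Nat.mul_le_mul_right _ (List.mem_range.1 ht).le
      have h4 : wid P a ≤ 2 ^ l * wid P (a + 1 - l) := by
        rw [wid, wid, ← pow_add]
        exact Nat.pow_le_pow_right two_pos (by omega)
      have h5 : b * wid P a / wid P (a + 1 - l) ≤ r / wid P (a + 1 - l) + 2 :=
        div_le_of_le hw (by omega)
      have h6 : r / wid P (a + 1 - l) ≤ b * wid P a / wid P (a + 1 - l) + (2 ^ l + 3) :=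
        div_le_of_le hw (by rw [add_mul]; omega)
      refine List.mem_flatMap.2 ⟨l, hl, List.mem_flatMap.2 ⟨u, List.mem_range.2 (lt_pow_sub hu),
        List.mem_map.2 ⟨r / wid P (a + 1 - l) - (b * wid P a / wid P (a + 1 - l) - 2),
          List.mem_range.2 (by omega), ?_⟩⟩⟩
      congr 1
      generalize r / wid P (a + 1 - l) = x at *
      generalize b * wid P a / wid P (a + 1 - l) = y at *
      omega
    · exact absurd hk List.not_mem_nil
  · rw [mul_comm 7, mul_assoc]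
    refine length_range_le _ _ fun l hl => ?_
    refine (length_range_le (n := 2 ^ l + 6) _ _ fun u _ => ?_).trans ?_
    · rw [List.length_map, List.length_range]
    · have h0 := LA_le hP
      have h1 : 2 ^ P.nA = 2 ^ (P.nA - l) * 2 ^ l := by
        rw [← pow_add]
        congr 1
        omega
      have h2 : 0 < 2 ^ l := Nat.two_pow_pos _
      rw [h1, mul_left_comm]
      exact Nat.mul_le_mul_left _ (by omega)

end Vale.Agent.P315Z
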