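import Vale.Agent.P315Z.Dp

/-! P315Z: the comparator cells. -/

set_option autoImplicit false

namespace Vale.Agent.P315Z

open Finset

variable {P : Par} {c : ℕ → ℕ → ℕ} {z : ℕ → ℕ} {d : ℕ}

theorem cmp_B_pos (P : Par) : 0 < P.B := by
  unfold Par.B; positivity

theorem cmp_pow_pred (P : Par) {j : ℕ} (hj : j ≠ 0) : P.B ^ j = P.B * P.B ^ (j - 1) := by
  obtain ⟨n, rfl⟩ := Nat.exists_eq_succ_of_ne_zero hj
  simp [pow_succ, mul_comm]

theorem Node.child {j i r : ℕ} (h : Node P j i) (hj : j ≠ 0) (hr : r < P.B) :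
    Node P (j - 1) (i * P.B + r) := by
  obtain ⟨h1, h2⟩ := h
  refine ⟨by omega, ?_⟩
  have e : P.k - (j - 1) = (P.k - j) + 1 := by omega
  rw [e, pow_succ]
  have : (i + 1) * P.B ≤ P.B ^ (P.k - j) * P.B := Nat.mul_le_mul_right _ h2
  have e2 : (i + 1) * P.B = i * P.B + P.B := by ring
  omega

theorem Node.parent {j i : ℕ} (h : Node P j i) (hj : j < P.k) : Node P (j + 1) (i / P.B) := by
  obtain ⟨_, h2⟩ := h
  refine ⟨by omega, ?_⟩
  have e : P.k - j = (P.k - (j + 1)) + 1 := by omega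
  rw [e, pow_succ] at h2
  exact (Nat.div_lt_iff_lt_mul (cmp_B_pos P)).2 h2

theorem cmp_sum_range_mul {M : Type} [AddCommMonoid M] (g : ℕ → M) (n b : ℕ) :
    ∑ i ∈ range (n * b), g i = ∑ i ∈ range n, ∑ r ∈ range b, g (i * b + r) := by
  induction n with
  | zero => simp
  | succ n ih => rw [Nat.succ_mul, Finset.sum_range_add, ih, Finset.sum_range_succ]

/-- A sum over a level, grouped by the parents. -/
theorem lsum_child (f : ℕ → ℕ → ℝ) {j : ℕ} (hj : j ≠ 0) (hk : j ≤ P.k) :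
    lsum P f (j - 1) = lsum P (fun j i => ∑ r ∈ range P.B, f (j - 1) (i * P.B + r)) j := by
  unfold lsum
  have e : P.k - (j - 1) = (P.k - j) + 1 := by omega
  rw [e, pow_succ, cmp_sum_range_mul]

theorem lsum_top (f : ℕ → ℕ → ℝ) : lsum P f P.k = f P.k 0 := by
  unfold lsum
  simp

theorem cmp_sum_Ico (g : ℕ → ℕ) (a m n : ℕ) :
    ∑ r ∈ Ico (a * m) ((a + n) * m), g r =
      ∑ u ∈ range n, ∑ r ∈ Ico ((a + u) * m) ((a + u + 1) * m), g r := by
  induction n with
  | zero => simp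
  | succ n ih =>
    rw [Finset.sum_range_succ, ← ih, ← add_assoc, Finset.sum_Ico_consecutive]
    · exact Nat.mul_le_mul_right _ (by omega)
    · exact Nat.mul_le_mul_right _ (by omega)

theorem mu_child {j : ℕ} (hj : j ≠ 0) (i : ℕ) :
    mu P c z j i = ∑ r ∈ range P.B, mu P c z (j - 1) (i * P.B + r) := by
  unfold mu
  rw [← cmp_sum_Ico, cmp_pow_pred P hj]
  congr 2 <;> ring

theorem lsum_mu (h : PathOk P c z d) {j : ℕ} (hj : j ≤ P.k) :
    lsum P (fun j i => (mu P c z j i : ℝ)) j ≤ d := by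
  unfold lsum
  have h1 := cmp_sum_Ico (fun r => leafc c r (z r) (z (r + 1))) 0 (P.B ^ j) (P.B ^ (P.k - j))
  simp only [zero_mul, zero_add] at h1
  rw [← pow_add, Nat.sub_add_cancel hj, ← Finset.range_eq_Ico] at h1
  have h2 : ∑ i ∈ range (P.B ^ (P.k - j)), mu P c z j i ≤ d := by
    unfold mu
    rw [← h1]
    exact h.cost
  beta_reduce
  exact_mod_cast h2

theorem cmp_dist_le_leafc (c : ℕ → ℕ → ℕ) (i p q : ℕ) : Nat.dist p q ≤ leafc c i p q := by
  unfold leafc Nat.dist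
  omega

theorem cmp_dist_le_sum (c : ℕ → ℕ → ℕ) (z : ℕ → ℕ) {a b : ℕ} (h : a ≤ b) :
    Nat.dist (z a) (z b) ≤ ∑ r ∈ Ico a b, leafc c r (z r) (z (r + 1)) := by
  induction b, h using Nat.le_induction with
  | base => simp
  | succ b hb ih =>
    rw [Finset.sum_Ico_succ_top hb]
    have h1 := cmp_dist_le_leafc c b (z b) (z (b + 1))
    have h2 := Nat.dist.triangle_inequality (z a) (z b) (z (b + 1))
    omega

theorem dist_le_mu {j i a : ℕ} (h1 : i * P.B ^ j ≤ a) (h2 : a ≤ (i + 1) * P.B ^ j) :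
    Nat.dist (z (i * P.B ^ j)) (z a) ≤ mu P c z j i := by
  refine (cmp_dist_le_sum c z h1).trans ?_
  unfold mu
  exact Finset.sum_le_sum_of_subset (Finset.Ico_subset_Ico le_rfl h2)

theorem kap_top (i : ℕ) : kap P c z P.k i = Nat.clog 2 (2 ^ P.la1 * mu P c z P.k i) := by
  unfold kap
  rw [Nat.sub_self]
  rfl

theorem kap_eq {j : ℕ} (hj : j < P.k) (i : ℕ) :
    kap P c z j i = max (Nat.clog 2 (2 ^ P.la1 * mu P c z j i))
      (kap P c z (j + 1) (i / P.B) - P.h) := by
  unfold kap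
  have e : P.k - j = (P.k - (j + 1)) + 1 := by omega
  have e2 : P.k - (P.k - (j + 1) + 1) = j := by omega
  rw [e, kapD, e2]

theorem kap_child_eq {j i r : ℕ} (hk : j ≤ P.k) (hj : j ≠ 0) (hr : r < P.B) :
    kap P c z (j - 1) (i * P.B + r) =
      max (Nat.clog 2 (2 ^ P.la1 * mu P c z (j - 1) (i * P.B + r))) (kap P c z j i - P.h) := by
  rw [kap_eq (by omega)]
  have e : j - 1 + 1 = j := by omega
  have e2 : (i * P.B + r) / P.B = i := by
    rw [add_comm, Nat.add_mul_div_right _ _ (cmp_B_pos P), Nat.div_eq_of_lt hr, zero_add]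
  rw [e, e2]

theorem mu_le_kap {j : ℕ} (hj : j ≤ P.k) (i : ℕ) :
    2 ^ P.la1 * mu P c z j i ≤ 2 ^ kap P c z j i := by
  refine (Nat.le_pow_clog (by norm_num : 1 < 2) _).trans (Nat.pow_le_pow_right (by norm_num) ?_)
  rcases hj.lt_or_eq with h | h
  · rw [kap_eq h]
    exact le_max_left _ _
  · rw [h, kap_top]

theorem mu_child_le {j i r : ℕ} (hj : j ≠ 0) (hr : r < P.B) :
    mu P c z (j - 1) (i * P.B + r) ≤ mu P c z j i := by
  rw [mu_child hj i]
  exact Finset.single_le_sum (f := fun r => mu P c z (j - 1) (i * P.B + r))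
    (fun _ _ => Nat.zero_le _) (Finset.mem_range.2 hr)

theorem kap_child {j i r : ℕ} (h : Node P j i) (hj : j ≠ 0) (hr : r < P.B) :
    kap P c z (j - 1) (i * P.B + r) ≤ kap P c z j i ∧
      kap P c z j i ≤ kap P c z (j - 1) (i * P.B + r) + P.h := by
  rw [kap_child_eq h.1 hj hr]
  refine ⟨max_le ?_ (Nat.sub_le _ _), ?_⟩
  · refine (Nat.clog_le_iff_le_pow (by norm_num)).2 ?_
    exact (Nat.mul_le_mul_left _ (mu_child_le hj hr)).trans (mu_le_kap h.1 i)
  · have := le_max_right (Nat.clog 2 (2 ^ P.la1 * mu P c z (j - 1) (i * P.B + r)))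
      (kap P c z j i - P.h)
    omega

theorem mu_root_le (h : PathOk P c z d) : mu P c z P.k 0 ≤ d := by
  have h1 := lsum_mu h (le_refl P.k)
  rw [lsum_top] at h1
  exact_mod_cast h1

theorem kap_root (h : PathOk P c z d) : kap P c z P.k 0 ≤ P.km := by
  rw [kap_top]
  refine (Nat.clog_le_iff_le_pow (by norm_num)).2 ?_
  unfold Par.km
  rw [pow_add]
  refine Nat.mul_le_mul_left _ (((mu_root_le h).trans h.dle).trans (le_of_eq ?_))
  unfold Par.B
  rw [← pow_mul]

theorem gg_child {j i r : ℕ} (h : Node P j i) (hj : j ≠ 0) (hr : r < P.B) :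
    gg P c z (j - 1) (i * P.B + r) ≤ gg P c z j i := by
  unfold gg mesh
  refine Nat.sub_le_sub_right (Nat.pow_le_pow_right (by norm_num) ?_) 1
  exact Nat.sub_le_sub_right (kap_child h hj hr).1 _

theorem gg_le (j i : ℕ) : 2 ^ P.lG * gg P c z j i ≤ 2 ^ kap P c z j i := by
  unfold gg mesh
  rcases le_total P.lG (kap P c z j i) with h | h
  · calc 2 ^ P.lG * (2 ^ (kap P c z j i - P.lG) - 1)
        ≤ 2 ^ P.lG * 2 ^ (kap P c z j i - P.lG) := Nat.mul_le_mul_left _ (Nat.sub_le _ _)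
      _ = 2 ^ kap P c z j i := by rw [← pow_add, Nat.add_sub_cancel' h]
  · rw [Nat.sub_eq_zero_of_le h]
    simp

theorem cmp_mesh_pos (P : Par) (ka : ℕ) : 0 < mesh P ka := by
  unfold mesh; positivity

theorem cmp_round (a : ℕ) {m : ℕ} (hm : 0 < m) : a - a % m ≤ a ∧ a ≤ a - a % m + (m - 1) := by
  have h1 := Nat.mod_lt a hm
  have h2 := Nat.mod_le a m
  omega

theorem cs_p (j i : ℕ) : (cs P c z j i).p ≤ z (i * P.B ^ j) ∧
    z (i * P.B ^ j) ≤ (cs P c z j i).p + gg P c z j i :=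
  cmp_round _ (cmp_mesh_pos P _)

theorem cs_q (j i : ℕ) : (cs P c z j i).q ≤ z ((i + 1) * P.B ^ j) ∧
    z ((i + 1) * P.B ^ j) ≤ (cs P c z j i).q + gg P c z j i :=
  cmp_round _ (cmp_mesh_pos P _)

/-- A point near `a` lies in the interval of the label of `a`. -/
theorem cmp_window {a b n : ℕ} (hn : 0 < n) (h : Nat.dist a b ≤ n) :
    (a / n - 1) * n ≤ b ∧ b < (a / n - 1 + 3) * n := by
  have h1 := Nat.div_add_mod a n
  have h2 := Nat.mod_lt a hn
  unfold Nat.dist at h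
  rcases Nat.eq_zero_or_pos (a / n) with h0 | h0
  · rw [h0] at h1 ⊢
    omega
  · obtain ⟨t, ht⟩ := Nat.exists_eq_succ_of_ne_zero h0.ne'
    rw [ht] at h1 ⊢
    have e1 : n * t.succ = t * n + n := by rw [Nat.succ_eq_add_one]; ring
    have e2 : (t.succ - 1) = t := by omega
    have e3 : (t + 3) * n = t * n + 3 * n := by ring
    rw [e2, e3]
    omega

/-- The positions of the path in a node lie in the interval of the comparator label. -/
theorem cs_window {j i a : ℕ} (hj : j ≤ P.k) (h1 : i * P.B ^ j ≤ a)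
    (h2 : a ≤ (i + 1) * P.B ^ j) :
    (cs P c z j i).x * 2 ^ kap P c z j i ≤ z a ∧
      z a < ((cs P c z j i).x + 3) * 2 ^ kap P c z j i := by
  refine cmp_window (by positivity) ((dist_le_mu (c := c) h1 h2).trans ?_)
  refine le_trans ?_ (mu_le_kap hj i)
  exact Nat.le_mul_of_pos_left _ (by positivity)

theorem cmp_round_mem {ka x a : ℕ} (h1 : x * 2 ^ ka ≤ a) (h2 : a < (x + 3) * 2 ^ ka) :
    a - a % mesh P ka ∈ gpts P ka x := by
  have hd : mesh P ka ∣ a - a % mesh P ka := Nat.dvd_sub_mod a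
  refine mem_gpts.2 ⟨?_, by omega, hd⟩
  have h3 : mesh P ka ∣ x * 2 ^ ka :=
    Dvd.dvd.mul_left (pow_dvd_pow 2 (Nat.sub_le _ _)) _
  obtain ⟨u, hu⟩ := h3
  have h4 := Nat.div_add_mod a (mesh P ka)
  have h5 : u ≤ a / mesh P ka := by
    rw [Nat.le_div_iff_mul_le (cmp_mesh_pos P ka), mul_comm, ← hu]
    exact h1
  have h6 := Nat.mul_le_mul_left (mesh P ka) h5
  omega

theorem cs_mem_sibs {j i : ℕ} (h : Node P j i) : cs P c z j i ∈ sibs P (cs P c z j i) := by
  have h0 : i * P.B ^ j ≤ (i + 1) * P.B ^ j := Nat.mul_le_mul_right _ (by omega)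
  have h1 := cs_window (c := c) (z := z) h.1 le_rfl h0
  have h2 := cs_window (c := c) (z := z) h.1 h0 le_rfl
  exact mem_cellsAt.2 ⟨rfl, rfl, rfl, rfl, cmp_round_mem h1.1 h1.2, cmp_round_mem h2.1 h2.2⟩

theorem cmp_child_lo {j : ℕ} (hj : j ≠ 0) (i r : ℕ) :
    i * P.B ^ j ≤ (i * P.B + r) * P.B ^ (j - 1) := by
  rw [cmp_pow_pred P hj, ← mul_assoc]
  exact Nat.mul_le_mul_right _ (by omega)

theorem cmp_child_hi {j : ℕ} (hj : j ≠ 0) (i : ℕ) {r : ℕ} (hr : r ≤ P.B) :
    (i * P.B + r) * P.B ^ (j - 1) ≤ (i + 1) * P.B ^ j := by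
  rw [cmp_pow_pred P hj, ← mul_assoc]
  refine Nat.mul_le_mul_right _ ?_
  rw [add_mul, one_mul]
  omega

theorem cs_mem_kids {j i r : ℕ} (h : Node P j i) (hj : j ≠ 0) (hr : r < P.B) :
    cs P c z (j - 1) (i * P.B + r) ∈ kids P (cs P c z j i) r := by
  have hk := kap_child (c := c) (z := z) h hj hr
  have hw := cs_window (c := c) (z := z) h.1 (cmp_child_lo hj i r) (cmp_child_hi hj i hr.le)
  have e : 2 ^ kap P c z j i = 2 ^ (kap P c z j i - kap P c z (j - 1) (i * P.B + r)) *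
      2 ^ kap P c z (j - 1) (i * P.B + r) := by
    rw [← pow_add, Nat.sub_add_cancel hk.1]
  have hp : 0 < 2 ^ kap P c z (j - 1) (i * P.B + r) := by positivity
  rw [e, ← mul_assoc, ← mul_assoc, ← Nat.le_div_iff_mul_le hp, ← Nat.div_lt_iff_lt_mul hp,
    add_mul (cs P c z j i).x] at hw
  refine mem_kids.2 ⟨rfl, rfl, hk.1, hk.2, ?_, ?_, cs_mem_sibs (h.child hj hr)⟩
  · exact Nat.sub_le_sub_right hw.1 1
  · have h2 := hw.2
    change z ((i * P.B + r) * P.B ^ (j - 1)) / 2 ^ kap P c z (j - 1) (i * P.B + r) - 1 <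
      (cs P c z j i).x * 2 ^ (kap P c z j i - kap P c z (j - 1) (i * P.B + r)) - 1 +
        (3 * 2 ^ (kap P c z j i - kap P c z (j - 1) (i * P.B + r)) + 2)
    omega

theorem same_root (h : PathOk P c z d) : Same (rootCell P (kap P c z P.k 0)) (cs P c z P.k 0) := by
  refine ⟨rfl, rfl, rfl, ?_⟩
  change P.s0 / 2 ^ kap P c z P.k 0 - 1 = z (0 * P.B ^ P.k) / 2 ^ kap P c z P.k 0 - 1
  rw [zero_mul, h.z0]

theorem cs_dom (h : PathOk P c z d) {j i : ℕ} (hn : Node P j i) : Dom P (cs P c z j i) := by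
  obtain ⟨n, hn'⟩ : ∃ n, P.k - j = n := ⟨_, rfl⟩
  induction n generalizing j i with
  | zero =>
    have h1 := hn.1
    have hj : j = P.k := by omega
    have h2 := hn.2
    rw [hn', pow_zero] at h2
    have hi : i = 0 := by omega
    subst hj hi
    refine (dom_root (kap_root h)).sibs ?_
    rw [(same_root h).sibs]
    exact cs_mem_sibs hn
  | succ n ih =>
    have hj : j < P.k := by omega
    have hp := hn.parent hj
    have h1 := ih hp (by omega)
    have hr := Nat.mod_lt i (cmp_B_pos P)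
    have h2 := cs_mem_kids (c := c) (z := z) hp (Nat.succ_ne_zero j) hr
    rw [Nat.add_sub_cancel, Nat.div_add_mod'] at h2
    exact h1.kids (Nat.succ_ne_zero j) hr h2

/-- The size of the comparator label, zero for the scale zero. -/
def cmpY (P : Par) (c : ℕ → ℕ → ℕ) (z : ℕ → ℕ) (j i : ℕ) : ℕ :=
  if kap P c z j i = 0 then 0 else 2 ^ kap P c z j i

theorem gg_le_cmpY (j i : ℕ) : 2 ^ P.lG * gg P c z j i ≤ cmpY P c z j i := by
  unfold cmpY
  split_ifs with h
  · unfold gg mesh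
    rw [h]
    simp
  · exact gg_le j i

theorem cmp_clog {m : ℕ} (h : Nat.clog 2 m ≠ 0) : 2 ^ Nat.clog 2 m ≤ 2 * m := by
  have h1 : 1 < m := by
    by_contra h2
    exact h (Nat.clog_of_right_le_one (by omega) 2)
  have h3 := Nat.pow_pred_clog_lt_self (by norm_num : 1 < 2) h1
  obtain ⟨t, ht⟩ := Nat.exists_eq_succ_of_ne_zero h
  rw [ht] at h3 ⊢
  rw [Nat.pred_succ] at h3
  rw [Nat.succ_eq_add_one, pow_succ]
  omega

theorem cmpY_root (i : ℕ) : cmpY P c z P.k i ≤ 2 * (2 ^ P.la1 * mu P c z P.k i) := by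
  unfold cmpY
  split_ifs with h
  · exact Nat.zero_le _
  · rw [kap_top] at h ⊢
    exact cmp_clog h

theorem cmpY_child {j i r : ℕ} (hk : j ≤ P.k) (hj : j ≠ 0) (hr : r < P.B) :
    2 * P.B * cmpY P c z (j - 1) (i * P.B + r) ≤
      2 * P.B * (2 * (2 ^ P.la1 * mu P c z (j - 1) (i * P.B + r))) + cmpY P c z j i := by
  unfold cmpY
  rw [kap_child_eq hk hj hr]
  rcases le_total (kap P c z j i - P.h)
    (Nat.clog 2 (2 ^ P.la1 * mu P c z (j - 1) (i * P.B + r))) with h | h
  · rw [max_eq_left h]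
    refine le_trans ?_ (Nat.le_add_right _ _)
    refine Nat.mul_le_mul_left _ ?_
    split_ifs with h1
    · exact Nat.zero_le _
    · exact cmp_clog h1
  · rw [max_eq_right h]
    refine le_trans ?_ (Nat.le_add_left _ _)
    by_cases h1 : kap P c z j i - P.h = 0
    · rw [if_pos h1]
      exact Nat.zero_le _
    · have h2 : kap P c z j i ≠ 0 := by omega
      rw [if_neg h1, if_neg h2]
      have e : 2 * P.B = 2 ^ P.h := by
        unfold Par.B Par.h
        rw [pow_succ, mul_comm]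
      rw [e, ← pow_add]
      exact Nat.pow_le_pow_right (by norm_num) (by omega)

theorem lsum_cmpY (h : PathOk P c z d) {j : ℕ} (hj : j ≤ P.k) :
    lsum P (fun j i => (cmpY P c z j i : ℝ)) j ≤ 4 * 2 ^ P.la1 * d := by
  obtain ⟨n, hn⟩ : ∃ n, P.k - j = n := ⟨_, rfl⟩
  have hd : (0 : ℝ) ≤ 2 ^ P.la1 * d := by positivity
  induction n generalizing j with
  | zero =>
    have e : j = P.k := by omega
    subst e
    rw [lsum_top]
    have h1 := (cmpY_root (P := P) (c := c) (z := z) 0).trans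
      (Nat.mul_le_mul_left 2 (Nat.mul_le_mul_left _ (mu_root_le h)))
    have h2 : (cmpY P c z P.k 0 : ℝ) ≤ 2 * (2 ^ P.la1 * d) := by exact_mod_cast h1
    linarith
  | succ n ih =>
    have hk : j + 1 ≤ P.k := by omega
    have h1 := ih hk (by omega)
    have h2 := lsum_mu h hj
    have h3 := lsum_child (P := P) (fun j i => (cmpY P c z j i : ℝ)) (Nat.succ_ne_zero j) hk
    have h4 := lsum_child (P := P) (fun j i => (mu P c z j i : ℝ)) (Nat.succ_ne_zero j) hk
    rw [Nat.succ_eq_add_one, Nat.add_sub_cancel] at h3 h4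
    rw [h3]
    rw [h4] at h2
    unfold lsum at h1 h2 ⊢
    have hB : (0 : ℝ) < P.B := by exact_mod_cast cmp_B_pos P
    have h5 : ∀ i, ∑ r ∈ range P.B, (cmpY P c z (j + 1 - 1) (i * P.B + r) : ℝ) ≤
        2 * 2 ^ P.la1 * ∑ r ∈ range P.B, (mu P c z (j + 1 - 1) (i * P.B + r) : ℝ) +
          (cmpY P c z (j + 1) i : ℝ) / 2 := by
      intro i
      have h6 : ∀ r ∈ range P.B, (cmpY P c z (j + 1 - 1) (i * P.B + r) : ℝ) ≤
          2 * 2 ^ P.la1 * (mu P c z (j + 1 - 1) (i * P.B + r) : ℝ) +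
            (cmpY P c z (j + 1) i : ℝ) / (2 * P.B) := by
        intro r hr
        have h7 := cmpY_child (c := c) (z := z) (i := i) hk (Nat.succ_ne_zero j)
          (Finset.mem_range.1 hr)
        have h8 : 2 * (P.B : ℝ) * (cmpY P c z (j + 1 - 1) (i * P.B + r) : ℝ) ≤
            2 * P.B * (2 * (2 ^ P.la1 * (mu P c z (j + 1 - 1) (i * P.B + r) : ℝ))) +
              (cmpY P c z (j + 1) i : ℝ) := by exact_mod_cast h7
        have h9 : (0 : ℝ) < 2 * P.B := by positivity
        refine le_of_mul_le_mul_left ?_ h9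
        rw [mul_add, mul_div_cancel₀ _ h9.ne']
        linarith
      refine (Finset.sum_le_sum h6).trans (le_of_eq ?_)
      rw [Finset.sum_add_distrib, ← Finset.mul_sum, Finset.sum_const, Finset.card_range,
        nsmul_eq_mul]
      field_simp
    refine (Finset.sum_le_sum fun i _ => h5 i).trans ?_
    rw [Finset.sum_add_distrib, ← Finset.mul_sum, ← Finset.sum_div]
    have h10 := mul_le_mul_of_nonneg_left h2 (by positivity : (0 : ℝ) ≤ 2 * 2 ^ P.la1)
    linarith

/-- The rounding errors of one level. -/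
theorem lsum_gg (h : PathOk P c z d) {j : ℕ} (hj : j ≤ P.k) :
    (2 : ℝ) ^ P.lG * lsum P (fun j i => (gg P c z j i : ℝ)) j ≤ 4 * 2 ^ P.la1 * d := by
  refine le_trans ?_ (lsum_cmpY h hj)
  unfold lsum
  rw [Finset.mul_sum]
  refine Finset.sum_le_sum fun i _ => ?_
  beta_reduce
  exact_mod_cast gg_le_cmpY (P := P) (c := c) (z := z) j i

theorem ggs_le (hP : P.Ok) (h : PathOk P c z d) : 64 * 2 ^ P.le * ggs P c z ≤ d := by
  have h1 : (2 : ℝ) ^ P.lG * ggs P c z ≤ (P.k + 1) * (4 * 2 ^ P.la1 * d) := by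
    unfold ggs
    rw [Finset.mul_sum]
    refine (Finset.sum_le_sum fun j hj => lsum_gg h (Nat.lt_succ_iff.1 (Finset.mem_range.1 hj))).trans
      (le_of_eq ?_)
    rw [Finset.sum_const, Finset.card_range, nsmul_eq_mul]
    push_cast
    ring
  have h2 : (256 : ℝ) * (P.k + 1) ≤ 2 ^ P.dl := by exact_mod_cast hP.hdl
  have e : (2 : ℝ) ^ P.lG = 2 ^ P.la1 * 2 ^ P.dl * 2 ^ P.le := by
    unfold Par.lG
    rw [pow_add, pow_add]
  rw [e] at h1
  have h3 : (0 : ℝ) < 2 ^ P.la1 * 2 ^ P.dl := by positivity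
  refine le_of_mul_le_mul_left ?_ h3
  have h4 := mul_le_mul_of_nonneg_left h2 (by positivity : (0 : ℝ) ≤ 2 ^ P.la1 * d)
  nlinarith

theorem mu_leaf (i : ℕ) : mu P c z 0 i = leafc c i (z i) (z (i + 1)) := by
  unfold mu
  simp

theorem leafc_cs (hc : ∀ i p, c i p ≤ 1) (i : ℕ) :
    leafc c i (cs P c z 0 i).p (cs P c z 0 i).q ≤ mu P c z 0 i + 3 * gg P c z 0 i := by
  have h1 := cs_p (P := P) (c := c) (z := z) 0 i
  have h2 := cs_q (P := P) (c := c) (z := z) 0 i
  rw [pow_zero, mul_one] at h1 h2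
  rw [mu_leaf]
  rcases Nat.eq_zero_or_pos (gg P c z 0 i) with h0 | h0
  · have e1 : (cs P c z 0 i).p = z i := by omega
    have e2 : (cs P c z 0 i).q = z (i + 1) := by omega
    rw [e1, e2]
    omega
  · have h3 := cmp_dist_le_leafc c i (z i) (z (i + 1))
    have h4 : leafc c i (cs P c z 0 i).p (cs P c z 0 i).q ≤
        c i (cs P c z 0 i).p + Nat.dist (cs P c z 0 i).p (cs P c z 0 i).q := min_le_left _ _
    have h5 := hc i (cs P c z 0 i).p
    unfold Nat.dist at h3 h4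
    omega

/-- The boundary points of the comparator path in the node `(j, i)`: `p`, the ends of the cells of
the children, `q`. -/
def cy (P : Par) (c : ℕ → ℕ → ℕ) (z : ℕ → ℕ) (j i r : ℕ) : ℕ :=
  if r = 0 then (cs P c z j i).p else (cs P c z (j - 1) (i * P.B + (r - 1))).q

theorem cy_zero (j i : ℕ) : cy P c z j i 0 = (cs P c z j i).p := if_pos rfl

theorem cy_succ (j i r : ℕ) : cy P c z j i (r + 1) = (cs P c z (j - 1) (i * P.B + r)).q := by
  unfold cy
  rw [if_neg (Nat.succ_ne_zero r), Nat.add_sub_cancel]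

theorem jumps_aux {j i : ℕ} (hj : j ≠ 0) (n : ℕ) :
    cy P c z j i n ≤ z ((i * P.B + n) * P.B ^ (j - 1)) ∧
      ∑ r ∈ range n, Nat.dist (cy P c z j i r) (cs P c z (j - 1) (i * P.B + r)).p +
        z ((i * P.B + n) * P.B ^ (j - 1)) ≤
      cy P c z j i n + gg P c z j i + 2 * ∑ r ∈ range n, gg P c z (j - 1) (i * P.B + r) := by
  induction n with
  | zero =>
    have h1 := cs_p (P := P) (c := c) (z := z) j i
    rw [cmp_pow_pred P hj, ← mul_assoc] at h1
    rw [cy_zero, add_zero, Finset.sum_range_zero, Finset.sum_range_zero]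
    omega
  | succ n ih =>
    have h1 := cs_p (P := P) (c := c) (z := z) (j - 1) (i * P.B + n)
    have h2 := cs_q (P := P) (c := c) (z := z) (j - 1) (i * P.B + n)
    rw [cy_succ, Finset.sum_range_succ, Finset.sum_range_succ, ← add_assoc]
    have h3 : Nat.dist (cy P c z j i n) (cs P c z (j - 1) (i * P.B + n)).p + cy P c z j i n ≤
        z ((i * P.B + n) * P.B ^ (j - 1)) + gg P c z (j - 1) (i * P.B + n) := by
      unfold Nat.dist
      omega
    omega

/-- The jumps of the comparator path. -/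
theorem jumps_le {j i : ℕ} (hj : j ≠ 0) :
    ∑ r ∈ range P.B, Nat.dist (cy P c z j i r) (cs P c z (j - 1) (i * P.B + r)).p +
      Nat.dist (cy P c z j i P.B) (cs P c z j i).q ≤ jj P c z j i := by
  have h1 := jumps_aux (P := P) (c := c) (z := z) (i := i) hj P.B
  have h2 := cs_q (P := P) (c := c) (z := z) j i
  have e : (i + 1) * P.B ^ j = (i * P.B + P.B) * P.B ^ (j - 1) := by
    rw [cmp_pow_pred P hj]
    ring
  rw [e] at h2
  have h3 : Nat.dist (cy P c z j i P.B) (cs P c z j i).q + cy P c z j i P.B ≤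
      z ((i * P.B + P.B) * P.B ^ (j - 1)) + gg P c z j i := by
    unfold Nat.dist
    omega
  unfold jj
  omega

/-- The programme is at most the comparator path. -/
theorem phi_le_cs {j i : ℕ} (h : Node P j i) (hj : j ≠ 0) (val : Cell → ℕ) :
    phi P val (cs P c z j i) P.B (cs P c z j i).q ≤
      ∑ r ∈ range P.B, val (cs P c z (j - 1) (i * P.B + r)) + jj P c z j i := by
  have h1 := phi_path (P := P) val (cs P c z j i) (fun u => cs P c z (j - 1) (i * P.B + u))
    (Nat.zero_le P.B) (fun u _ hu => cs_mem_kids h hj hu) (cy P c z j i)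
  have h2 := phi_lip (P := P) val (cs P c z j i) P.B (cs P c z j i).q (cy P c z j i P.B)
  have h3 := jumps_le (P := P) (c := c) (z := z) (i := i) hj
  rw [phi_zero, cy_zero, Nat.dist_self, zero_add, ← Finset.range_eq_Ico] at h1
  simp only [cy_succ, Nat.dist_self, add_zero] at h1
  rw [Finset.sum_add_distrib] at h1
  omega

end Vale.Agent.P315Z
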