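import Vale.Agent.P315Z.Count1

/-! P315Z: the number of steps of the stack machine. -/

set_option autoImplicit false

namespace Vale.Agent.P315Z

variable {P : Par}

/-- The cost of an undressed value at time `T` and level `j`. -/
def cG (P : Par) (T j : ℕ) : ℕ := 2 ^ (P.lM + (P.lb + P.lL) * j + P.lY * T)

/-- The cost of a table at level `j`. -/
def cA (P : Par) (j : ℕ) : ℕ :=
  2 ^ (P.lT + 2 + (P.nA + Nat.clog 2 P.LA + 4) * ((j + P.hA) / P.ha))

/-- The cost of a key. -/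
def cW (P : Par) (k : Key) : ℕ :=
  if k.tag = 0 then 3 else if k.tag = 1 then cA P k.c.j
  else if k.tag = 2 then cG P k.T k.c.j
  else if k.tag = 3 then 16 * (2 ^ P.lT * cG P k.T k.c.j)
  else if k.tag = 4 then 64 * (2 ^ P.lT * cG P k.T k.c.j) else 2 ^ P.lQ

theorem cW_B (i p : ℕ) : cW P (kB i p) = 3 := rfl
theorem cW_A (j i a b : ℕ) : cW P (kA j i a b) = cA P j := rfl
theorem cW_D (T : ℕ) (c : Cell) : cW P (kD T c) = cG P T c.j := rfl
theorem cW_H (T : ℕ) (c : Cell) (τ : ℕ) : cW P (kH T c τ) = 16 * (2 ^ P.lT * cG P T c.j) := rfl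
theorem cW_U (T : ℕ) (c : Cell) (τ : ℕ) : cW P (kU T c τ) = 64 * (2 ^ P.lT * cG P T c.j) := rfl
theorem cW_O : cW P kO = 2 ^ P.lQ := rfl

/-- The cost of a list of keys. -/
def sW (P : Par) (l : List Key) : ℕ := (l.map fun k => 1 + cW P k).sum

theorem sW_nil : sW P [] = 0 := rfl

theorem sW_cons (k : Key) (l : List Key) : sW P (k :: l) = 1 + cW P k + sW P l := by
  simp [sW]

theorem sW_append (l l' : List Key) : sW P (l ++ l') = sW P l + sW P l' := by
  simp [sW]

theorem sW_le {l : List Key} {X n : ℕ} (hn : l.length ≤ n) (h : ∀ k ∈ l, cW P k ≤ X) :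
    sW P l ≤ n * (1 + X) := by
  refine le_trans ?_ (Nat.mul_le_mul_right _ hn)
  clear hn
  induction l with
  | nil => simp [sW]
  | cons a l ih =>
    rw [sW_cons, List.length_cons, Nat.succ_mul]
    have h1 := h a (List.mem_cons_self ..)
    have h2 := ih fun b hb => h b (List.mem_cons_of_mem _ hb)
    omega

theorem cG_pos (T j : ℕ) : 0 < cG P T j := by
  unfold cG
  positivity

theorem cG_mono {T T' j j' : ℕ} (hT : T ≤ T') (hj : j ≤ j') : cG P T j ≤ cG P T' j' := by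
  have h1 := Nat.mul_le_mul_left (P.lb + P.lL) hj
  have h2 := Nat.mul_le_mul_left P.lY hT
  exact ct_pw (by omega)

theorem cG_level (T j : ℕ) : cG P T (j + 1) = 2 ^ (P.lb + P.lL) * cG P T j := by
  unfold cG
  rw [← pow_add]
  congr 1
  ring

theorem cG_time (T j : ℕ) : cG P (T + 1) j = 1024 * (2 ^ P.lT * (2 ^ P.lT * cG P T j)) := by
  unfold cG Par.lY
  ring

theorem cG_le_mul (T j : ℕ) : cG P T j ≤ 2 ^ P.lT * cG P T j :=
  Nat.le_mul_of_pos_left _ (by positivity)

theorem cG_earlier {t T j j' : ℕ} (ht : t < T) (hj : j ≤ j') :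
    64 * (2 ^ P.lT * cG P t j) ≤ cG P T j' := by
  have h1 : cG P (t + 1) j ≤ cG P T j' := cG_mono ht hj
  rw [cG_time] at h1
  have h2 : 2 ^ P.lT * cG P t j ≤ 2 ^ P.lT * (2 ^ P.lT * cG P t j) :=
    Nat.le_mul_of_pos_left _ (by positivity)
  omega

/-- Cheap lists. -/
theorem sW_cheap {l : List Key} {T j : ℕ} (hn : l.length ≤ 2 ^ P.lT)
    (h : ∀ k ∈ l, cW P k ≤ cG P T j) : sW P l ≤ 2 * (2 ^ P.lT * cG P T j) := by
  refine (sW_le hn h).trans ?_
  have h1 := cG_pos (P := P) T j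
  rw [← mul_assoc, mul_comm 2, mul_assoc]
  exact Nat.mul_le_mul_left _ (by omega)

/-- Lists of keys of the level below. -/
theorem sW_below {α : Type} {l : List α} {f : α → List Key} {T j a : ℕ}
    (hn : a * l.length ≤ 2 ^ (P.lb + P.lL))
    (h : ∀ b ∈ l, ∃ j', j' + 1 = j ∧ sW P (f b) ≤ a * (4 * (2 ^ P.lT * cG P T j'))) :
    sW P (l.flatMap f) ≤ 4 * (2 ^ P.lT * cG P T j) := by
  cases j with
  | zero =>
    cases l with
    | nil => simp [sW]
    | cons b l =>
      obtain ⟨j', h1, -⟩ := h b (List.mem_cons_self ..)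
      omega
  | succ j =>
    have h1 : sW P (l.flatMap f) ≤ l.length * (a * (4 * (2 ^ P.lT * cG P T j))) := by
      clear hn
      induction l with
      | nil => simp [sW]
      | cons b l ih =>
        obtain ⟨j', h1, h2⟩ := h b (List.mem_cons_self ..)
        obtain rfl : j' = j := by omega
        have h3 := ih fun b hb => h b (List.mem_cons_of_mem _ hb)
        rw [List.flatMap_cons, sW_append, List.length_cons, Nat.succ_mul]
        omega
    refine h1.trans ?_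
    rw [cG_level]
    calc l.length * (a * (4 * (2 ^ P.lT * cG P T j)))
        = a * l.length * (4 * (2 ^ P.lT * cG P T j)) := by ring
      _ ≤ 2 ^ (P.lb + P.lL) * (4 * (2 ^ P.lT * cG P T j)) := Nat.mul_le_mul_right _ hn
      _ = _ := by ring

theorem sW_qBox {l : List (Cell × ℕ)} {T j : ℕ} (hn : 8 * l.length ≤ 2 ^ (P.lb + P.lL))
    (h : ∀ b ∈ l, BoxOk P j b) : sW P (qBox T l) ≤ 4 * (2 ^ P.lT * cG P T j) := by
  refine sW_below hn fun b hb => ⟨b.1.j, (h b hb).2.1, ?_⟩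
  have h1 := cG_le_mul (P := P) T b.1.j
  have h2 := cG_pos (P := P) T b.1.j
  rw [sW_cons, sW_cons, sW_nil, cW_D, cW_H]
  omega

theorem ct_map_flat {α β : Type} (l : List α) (f : α → β) :
    l.map f = l.flatMap fun a => [f a] := by
  induction l with
  | nil => rfl
  | cons a l ih => rw [List.map_cons, List.flatMap_cons, ih]; rfl

theorem sW_qR {t T : ℕ} (ht : t ≤ T) {e : Cell} (he : Dom P e) :
    sW P (qR P t e) ≤ 2 * (2 ^ P.lT * cG P T e.j) := by
  refine sW_cheap ((Nat.le_add_right _ _).trans (ct_len_qR t e)) fun k hk => ?_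
  obtain ⟨c, -, hj, rfl⟩ := ct_mem_qR he hk
  exact cG_mono ht hj

theorem cA_ge (j : ℕ) : 4 * 2 ^ P.lT ≤ cA P j := by
  have h1 : 2 ^ (P.lT + 2) ≤ cA P j := ct_pw (Nat.le_add_right _ _)
  rw [pow_add] at h1
  omega

theorem cA_step {j : ℕ} (hj : j ≠ 0) :
    2 ^ (P.nA + Nat.clog 2 P.LA + 4) * cA P (j - P.ha) ≤ cA P j := by
  have h0 : 0 < P.ha := by unfold Par.ha; omega
  have h1 : (j - P.ha + P.hA) / P.ha + 1 ≤ (j + P.hA) / P.ha := by
    by_cases h : P.ha ≤ j
    · rw [← Nat.add_div_right _ h0]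
      exact Nat.div_le_div_right (by omega)
    · have h2 : (j - P.ha + P.hA) / P.ha = 0 := Nat.div_eq_of_lt (by unfold Par.ha at h ⊢; omega)
      rw [h2]
      exact (Nat.le_div_iff_mul_le h0).2 (by unfold Par.ha; omega)
  have h2 := Nat.mul_le_mul_left (P.nA + Nat.clog 2 P.LA + 4) h1
  rw [Nat.mul_add, mul_one] at h2
  unfold cA
  rw [← pow_add]
  exact ct_pw (by omega)

theorem cA_le {j : ℕ} (hj : j ≤ P.k) : 2 * (2 ^ P.lT * cA P j) ≤ cG P 0 j := by
  have h0 : 0 < P.ha := by unfold Par.ha; omega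
  have h1 : (j + P.hA) / P.ha ≤ P.k / P.ha + 1 := by
    rw [← Nat.add_div_right _ h0]
    exact Nat.div_le_div_right (by unfold Par.ha; omega)
  have h2 : P.ha * ((j + P.hA) / P.ha) ≤ j + P.ha :=
    (Nat.mul_div_le _ _).trans (by unfold Par.ha; omega)
  have h3 := Nat.mul_le_mul_left P.lb h2
  have h4 := Nat.mul_le_mul_left (P.lA + Nat.clog 2 P.LA + 4) h1
  have h5 : (P.nA + Nat.clog 2 P.LA + 4) * ((j + P.hA) / P.ha) =
      (P.lA + Nat.clog 2 P.LA + 4) * ((j + P.hA) / P.ha) +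
        P.lb * (P.ha * ((j + P.hA) / P.ha)) := by
    unfold Par.nA
    ring
  have h6 : 2 * (2 ^ P.lT * cA P j) =
      2 ^ (2 * P.lT + 3 + (P.nA + Nat.clog 2 P.LA + 4) * ((j + P.hA) / P.ha)) := by
    unfold cA
    ring
  rw [h6, h5]
  refine ct_pw ?_
  rw [Nat.mul_comm (P.lA + Nat.clog 2 P.LA + 4) (P.k / P.ha + 1), Nat.mul_add P.lb] at *
  unfold Par.lM
  rw [Nat.add_mul P.lb]
  omega

variable {S : ℕ → ℕ} {o : Key → List ℕ}

theorem wt_A (hP : P.Ok) (sd : ℕ → ℕ) (j i a b : ℕ) : 3 + sW P (qA P sd j i a b) ≤ cA P j := by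
  by_cases hj : j = 0
  · subst hj
    have h1 : (qA P sd 0 i a b).length ≤ 2 ^ P.rs := by
      unfold qA
      rw [if_pos rfl, List.length_map, List.length_range]
      exact ct_tlen a
    have h2 := sW_le (P := P) (X := 3) h1 fun k hk => by
      obtain ⟨t, -, rfl⟩ := ct_mem_qA0 hk
      exact le_rfl
    have h3 := cA_ge (P := P) 0
    have h4 : 2 ^ (P.rs + 2) ≤ 2 ^ P.lT := (ct_pw ct_rs).trans ct_l1_lT'
    have h5 : 0 < 2 ^ P.rs := by positivity
    rw [pow_add] at h4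
    omega
  · have h2 := sW_le (P := P) (X := cA P (j - P.ha)) (length_qA hP sd hj i a b) fun k hk => by
      obtain ⟨v, l, t, r, -, -, -, rfl⟩ := ct_mem_qA hj hk
      exact le_rfl
    have h3 := cA_step (P := P) hj
    have h4 : P.LA ≤ 2 ^ Nat.clog 2 P.LA := Nat.le_pow_clog (by norm_num) _
    have h5 := cA_ge (P := P) (j - P.ha)
    have h6 : 0 < 2 ^ P.lT := by positivity
    have h7 : 0 < 2 ^ P.nA * 2 ^ Nat.clog 2 P.LA := by positivity
    rw [pow_add, pow_add] at h3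
    have h8 : 7 * P.LA * 2 ^ P.nA ≤ 7 * (2 ^ P.nA * 2 ^ Nat.clog 2 P.LA) := by
      rw [mul_assoc, mul_comm P.LA]
      exact Nat.mul_le_mul_left _ (Nat.mul_le_mul_left _ h4)
    have h9 := Nat.mul_le_mul_right (1 + cA P (j - P.ha)) h8
    generalize 2 ^ P.nA * 2 ^ Nat.clog 2 P.LA = y at *
    generalize cA P (j - P.ha) = w at *
    nlinarith

theorem wt_D0 (hP : P.Ok) {e : Cell} (he : Dom P e) : 3 + sW P (qD0 P e) ≤ cG P 0 e.j := by
  have h1 := cA_le (P := P) he.j
  have h2 := cA_ge (P := P) e.j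
  have h3 : 0 < 2 ^ P.lT := by positivity
  have h4 : sW P (qD0 P e) ≤ 2 ^ P.lT * (1 + cA P e.j) := by
    refine sW_le (ct_len_qD0 hP e) fun k hk => ?_
    by_cases hj : e.j = 0
    · unfold qD0 at hk
      rw [if_pos hj, List.mem_singleton] at hk
      subst hk
      rw [cW_B]
      omega
    · obtain ⟨a, r, -, -, rfl⟩ := ct_mem_qD0 hj hk
      exact le_rfl
  generalize cA P e.j = w at *
  generalize 2 ^ P.lT = y at *
  nlinarith

theorem wt_D (hP : P.Ok) (T : ℕ) {e : Cell} (he : Dom P e) :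
    3 + sW P (qD P T e) ≤ cG P (T + 1) e.j := by
  have h1 := sW_le (P := P) (X := 64 * (2 ^ P.lT * cG P T e.j)) (ct_len_qD hP T he) fun k hk => by
    obtain ⟨c, τ, -, hj, -, rfl⟩ := ct_mem_qD he hk
    exact Nat.mul_le_mul_left _ (Nat.mul_le_mul_left _ (cG_mono le_rfl hj))
  have h2 := cG_pos (P := P) T e.j
  have h3 : 0 < 2 ^ P.lT := by positivity
  have h4 := Nat.mul_pos h3 h2
  rw [cG_time]
  generalize 2 ^ P.lT * cG P T e.j = w at *
  generalize 2 ^ P.lT = y at *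
  nlinarith

theorem wt_H (hP : P.Ok) (sd : ℕ → ℕ) {t T : ℕ} (ht : ¬ T ≤ P.m → t ≤ T) {c : Cell}
    (hc : Dom P c) (τ : ℕ) :
    3 + (sW P (qH P sd t T c τ 0 o) + (sW P (qH P sd t T c τ 1 o) + sW P (qH P sd t T c τ 2 o))) ≤
      16 * (2 ^ P.lT * cG P T c.j) := by
  have h0 : 0 < 2 ^ P.lT * cG P T c.j := Nat.mul_pos (by positivity) (cG_pos _ _)
  by_cases hT : T ≤ P.m
  · simp only [qH, if_pos hT, sW_nil]
    omega
  have h1 : sW P (qH P sd t T c τ 0 o) ≤ 2 * (2 ^ P.lT * cG P T c.j) := by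
    unfold qH
    rw [if_neg hT, if_pos rfl]
    exact sW_qR (ht hT) hc
  have h2 : sW P (qH P sd t T c τ 1 o) ≤ 4 * (2 ^ P.lT * cG P T c.j) := by
    unfold qH
    rw [if_neg hT, if_neg (by norm_num), if_pos rfl]
    exact sW_qBox (length_sBox hP _ _ _ _) fun b hb => ct_sBox hc hb
  have h3 : sW P (qH P sd t T c τ 2 o) ≤ 4 * (2 ^ P.lT * cG P T c.j) := by
    unfold qH
    rw [if_neg hT, if_neg (by norm_num), if_neg (by norm_num)]
    split_ifs with h4
    · exact Nat.zero_le _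
    · exact sW_qBox (length_lBox hP _ _) fun b hb => ct_chosen hc h4 hb
  omega

theorem wt_U (hP : P.Ok) (sd : ℕ → ℕ) {t T : ℕ} (ht : ¬ T ≤ P.m → t ≤ T) {c : Cell}
    (hc : Dom P c) (τ : ℕ) :
    3 + (sW P (qU P sd t T c τ 0 o) + (sW P (qU P sd t T c τ 1 o) + sW P (qU P sd t T c τ 2 o))) ≤
      64 * (2 ^ P.lT * cG P T c.j) := by
  have h0 : 0 < cG P T c.j := cG_pos _ _
  have h0' := cG_le_mul (P := P) T c.j
  have h1 : sW P (qU P sd t T c τ 0 o) ≤ 21 * (2 ^ P.lT * cG P T c.j) := by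
    unfold qU
    rw [if_pos rfl, sW_cons, sW_cons, cW_D, cW_H]
    have h2 : sW P (if T ≤ P.m then [] else qR P t c) ≤ 2 * (2 ^ P.lT * cG P T c.j) := by
      split_ifs with hT
      · exact Nat.zero_le _
      · exact sW_qR (ht hT) hc
    have h3 : (box P c τ).j = c.j := rfl
    rw [h3]
    omega
  by_cases hT : T ≤ P.m
  · have h2 : qU P sd t T c τ 1 o = [] := by simp [qU, hT]
    have h3 : qU P sd t T c τ 2 o = [] := by simp [qU, hT]
    rw [h2, h3, sW_nil]
    omega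
  by_cases ha : adm P (oD o t) c τ = true
  swap
  · have h2 : qU P sd t T c τ 1 o = [] := by simp [qU, hT, ha]
    have h3 : qU P sd t T c τ 2 o = [] := by simp [qU, hT, ha]
    rw [h2, h3, sW_nil]
    omega
  have hj := (adm_iff.1 ha).1
  have h2 : sW P (qU P sd t T c τ 1 o) ≤ 6 * (2 ^ P.lT * cG P T c.j) := by
    rw [qU_one hT ha, sW_append]
    have h3 : sW P ((lBox P (oD o t) c).map fun b => kH T b.1 b.2) ≤
        4 * (2 ^ P.lT * cG P T c.j) := by
      rw [ct_map_flat]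
      refine sW_below (length_lBox hP _ _) fun b hb => ⟨b.1.j, (ct_lBox hc hj hb).2.1, ?_⟩
      have h4 : 0 < 2 ^ P.lT * cG P T b.1.j := Nat.mul_pos (by positivity) (cG_pos _ _)
      rw [sW_cons, sW_nil, cW_H]
      omega
    have h4 : sW P (qHist P T (oD o t) c) ≤ 2 * (2 ^ P.lT * cG P T c.j) := by
      have h5 := ct_len_qHist (P := P) T (oD o t) c
      refine sW_cheap (by omega) fun k hk => ?_
      obtain ⟨s, b, hb, ⟨h6, rfl⟩ | ⟨h6, rfl | rfl⟩⟩ := ct_mem_qHist hc hj hk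
      · exact cG_mono (j := b.1.j) h6 (by have := hb.2.1; omega)
      · have h7 := cG_earlier (P := P) (j := b.1.j) (j' := c.j) h6 (by have := hb.2.1; omega)
        rw [cW_H]
        omega
      · exact cG_earlier (j := b.1.j) h6 (by have := hb.2.1; omega)
    omega
  have h3 : sW P (qU P sd t T c τ 2 o) ≤ 4 * (2 ^ P.lT * cG P T c.j) := by
    unfold qU
    rw [if_neg (by norm_num), if_neg hT, if_pos ha, if_neg (by norm_num), ct_map_flat]
    refine sW_below (a := 32) ?_ fun r hr => ?_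
    · have h4 : 2 ^ (P.lb + 5) ≤ 2 ^ (P.lb + P.lL) := ct_pw (by unfold Par.lL; omega)
      rw [pow_add] at h4
      rw [List.length_range]
      unfold Par.B
      omega
    · have hr' := List.mem_range.1 hr
      have h4 := fun v => ct_tube hc hj hr' (tc_mem ((adm_iff.1 ha).2.2.2.2.2 r hr') v)
      refine ⟨_, (h4 ((lanePath P sd T (oD o t) (oD o) (oH o) (oU o) c).getD (r + 1) 0)).2.1, ?_⟩
      rw [sW_cons, sW_nil, cW_U]
      generalize tc P (oD o t) c r _ = a
      have h5 : 0 < 2 ^ P.lT * cG P T a.j := Nat.mul_pos (by positivity) (cG_pos _ _)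
      show _ ≤ 32 * (4 * (2 ^ P.lT * cG P T a.j))
      omega
  omega

theorem wt_O (hP : P.Ok) :
    3 + sW P ((List.range (P.km + 1)).map fun ka => kD P.Tend (rootCell P ka)) ≤ 2 ^ P.lQ := by
  have h1 : sW P ((List.range (P.km + 1)).map fun ka => kD P.Tend (rootCell P ka)) ≤
      2 * (2 ^ P.lT * cG P P.Tend P.k) := by
    refine sW_cheap ?_ fun k hk => ?_
    · rw [List.length_map, List.length_range]
      have h1 := ct_km hP
      have h2 := ct_l1_lT' (P := P)
      omega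
    · obtain ⟨ka, -, rfl⟩ := List.mem_map.1 hk
      exact le_rfl
  have h2 : 2 ^ P.lQ = 4 * (2 ^ P.lT * cG P P.Tend P.k) := by
    unfold Par.lQ cG
    ring
  have h3 : 2 ^ 1 ≤ 2 ^ P.lT := ct_pw (by have := ct_lL hP; omega)
  have h4 := Nat.mul_le_mul h3 (cG_pos (P := P) P.Tend P.k)
  omega

/-- The weights. -/
theorem ct_weight (hP : P.Ok) {k : Key} (hk : OkK P k) : 3 + ((List.range 3).map fun ph =>
    ((qsF P S ph k o).map fun k' => 1 + cW P k').sum).sum ≤ cW P k := by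
  have e : ((List.range 3).map fun ph => ((qsF P S ph k o).map fun k' => 1 + cW P k').sum).sum =
      sW P (qsF P S 0 k o) + (sW P (qsF P S 1 k o) + sW P (qsF P S 2 k o)) := rfl
  rw [e]
  cases hk with
  | b i p hi hp => exact le_rfl
  | a j i a b hn ha hb => exact wt_A hP _ j i a b
  | d T c hc hT =>
    cases T with
    | zero => exact wt_D0 hP hc
    | succ T => exact wt_D hP T hc
  | h T c τ hc hT hτ => exact wt_H hP _ (fun h => (ct_ref S h).le) hc τ
  | u T c τ hc hT hτ => exact wt_U hP _ (fun h => (ct_ref S h).le) hc τ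
  | o => exact wt_O hP

end Vale.Agent.P315Z
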