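import Vale.Agent.P315Z.Loc
import Vale.Agent.P315Z.Count2

/-! P315Z: the bounds for the run of the stack machine. -/

set_option autoImplicit false

namespace Vale.Agent.P315Z

open Vale.Agent.Lib.PolyTime (Enc Un enc esize esize_pair esize_un esize_nat_le esize_list_le
  esize_list_cons esize_list_nil)

variable {P : Par}

theorem ct_big (hP : P.Ok) : pA P 0 + P.B ^ P.k + 2 * 2 ^ P.km < 2 ^ P.lcnt := by
  obtain ⟨n, hn⟩ : ∃ n, P.lcnt = n + 3 := ⟨P.lcnt - 3, by unfold Par.lcnt; omega⟩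
  have h1 : P.B ^ P.k ≤ 2 ^ n := by
    unfold Par.B
    rw [← pow_mul]
    exact ct_pw (by unfold Par.lcnt at hn; omega)
  have h2 : P.k + 1 ≤ 2 ^ P.k := ct_le_pw le_rfl
  have h3 : ∀ a, a + 2 + P.k ≤ n → 4 * 2 ^ a * (P.k - 0 + 1) ≤ 2 ^ n := by
    intro a ha
    refine le_trans ?_ (ct_pw ha)
    rw [pow_add, pow_add, mul_comm 4]
    exact Nat.mul_le_mul_left _ h2
  have h4 := h3 P.km (by unfold Par.lcnt at hn; omega)
  have h5 := h3 (P.am + P.k + 1 - P.a0) (by unfold Par.lcnt at hn; omega)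
  have h6 : 2 ^ P.km ≤ 2 ^ n := ct_pw (by unfold Par.lcnt at hn; omega)
  have h7 := hP.lx
  have h8 := hP.ly
  rw [hn, pow_add]
  unfold pA pmax
  omega

theorem ct_esize_cell (c : Cell) : esize c =
    2 * c.j + 2 * esize c.i + 2 * c.ka + 2 * esize c.x + 2 * esize c.p + esize c.q + 5 := by
  have h : esize c = esize ((⟨c.j⟩ : Un), c.i, (⟨c.ka⟩ : Un), c.x, c.p, c.q) := rfl
  rw [h]
  simp only [esize_pair, esize_un]
  omega

theorem ct_esize_key (k : Key) :
    esize k = 2 * esize k.tag + 2 * k.T + 2 * esize k.c + k.ta + 3 := by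
  have h : esize k = esize (k.tag, (⟨k.T⟩ : Un), k.c, (⟨k.ta⟩ : Un)) := rfl
  rw [h]
  simp only [esize_pair, esize_un]
  omega

theorem ct_key_le {k : Key} (h0 : k.tag < 2 ^ 3) (h1 : k.T ≤ P.Tend) (h2 : k.ta ≤ P.lcnt + P.h2)
    (h3 : k.c.j ≤ P.k) (h4 : k.c.ka ≤ P.km) (h5 : k.c.i < 2 ^ P.lcnt) (h6 : k.c.x < 2 ^ P.lcnt)
    (h7 : k.c.p < 2 ^ P.lcnt) (h8 : k.c.q < 2 ^ P.lcnt) : esize k ≤ P.KB := by
  have g0 := esize_nat_le h0
  have g5 := esize_nat_le h5
  have g6 := esize_nat_le h6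
  have g7 := esize_nat_le h7
  have g8 := esize_nat_le h8
  have g1 : P.k + P.km + 16 ≤ P.lcnt := by unfold Par.lcnt; omega
  rw [ct_esize_key, ct_esize_cell]
  unfold Par.KB
  omega

theorem ct_node_lt (hP : P.Ok) {j i : ℕ} (h : i < P.B ^ (P.k - j)) : i < 2 ^ P.lcnt := by
  have h1 := ct_big hP
  have h2 : P.B ^ (P.k - j) ≤ P.B ^ P.k := Nat.pow_le_pow_right (vl_B_pos P) (by omega)
  omega

theorem ct_key_dom (hP : P.Ok) {k : Key} (h0 : k.tag < 2 ^ 3) (h1 : k.T ≤ P.Tend)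
    (h2 : k.ta ≤ k.c.ka + P.h2) (hc : Dom P k.c) : esize k ≤ P.KB := by
  have g1 := ct_big hP
  have g2 := ct_pmax_pA (P := P) k.c.j
  have g3 := hc.ka
  have g4 := hc.p
  have g5 := hc.q
  have g6 : k.c.x + 3 ≤ pmax P k.c.j := (Nat.le_mul_of_pos_right _ (by positivity)).trans hc.x
  exact ct_key_le h0 h1 (by unfold Par.lcnt; omega) hc.j g3 (ct_node_lt hP hc.i) (by omega)
    (by omega) (by omega)

theorem ct_key (hP : P.Ok) {k : Key} (hk : OkK P k) : esize k ≤ P.KB := by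
  have g1 := ct_big hP
  have g0 : 0 < 2 ^ P.lcnt := by positivity
  cases hk with
  | b i p hi hp =>
    exact ct_key_le (by decide : 0 < 2 ^ 3) (Nat.zero_le _) (Nat.zero_le _) (Nat.zero_le _)
      (Nat.zero_le _) (ct_node_lt hP (j := 0) hi) g0 (by show p < _; omega) g0
  | a j i a b hn ha hb =>
    have g2 := ct_pA (P := P) j
    have g3 : b + 1 ≤ pA P j := (Nat.le_mul_of_pos_right _ (by unfold wid; positivity)).trans hb
    exact ct_key_le (by decide : 1 < 2 ^ 3) (Nat.zero_le _)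
      (by show a ≤ _; unfold Par.lcnt; omega) hn.1 (Nat.zero_le _) (ct_node_lt hP hn.2) g0
      (by show b < _; omega) g0
  | d T c hc hT => exact ct_key_dom hP (by decide : 2 < 2 ^ 3) hT (Nat.zero_le _) hc
  | h T c τ hc hT hτ => exact ct_key_dom hP (by decide : 3 < 2 ^ 3) hT hτ hc
  | u T c τ hc hT hτ => exact ct_key_dom hP (by decide : 4 < 2 ^ 3) hT hτ hc
  | o =>
    exact ct_key_le (by decide : 5 < 2 ^ 3) (Nat.zero_le _) (Nat.zero_le _) (Nat.zero_le _)
      (Nat.zero_le _) g0 g0 g0 g0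

theorem ct_bitBody {b : ℕ} (hb : b ≤ 1) (i p : ℕ) : bitBody P i p b ≤ 1 := by
  unfold bitBody
  split_ifs <;> omega

theorem ct_ext (k : Key) : extF P k < (P.lx + 1) * (P.ly + 1) := by
  have h0 : 0 < (P.lx + 1) * (P.ly + 1) := by positivity
  unfold extF extB
  split_ifs with h1 h2
  · have h3 : (k.c.i - 1) * (P.ly + 1) ≤ P.lx * (P.ly + 1) := Nat.mul_le_mul_right _ (by omega)
    rw [Nat.add_mul P.lx, one_mul]
    omega
  · exact h0
  · exact h0

theorem ct_single {v : List ℕ} {x : ℕ} (h : v = [x]) (hx : v.headD 0 < 2 ^ P.lcnt) :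
    esize v ≤ P.VB := by
  subst h
  have h1 : esize x ≤ P.lcnt := esize_nat_le hx
  have h2 : 2 * P.lcnt + 3 ≤ P.VB := Nat.le_mul_of_pos_left _ (by unfold Par.NS; positivity)
  rw [esize_list_cons, esize_list_nil]
  omega

theorem ct_triv {c : Cell} (hc : Dom P c) : triv P c ≤ pA P 0 + P.B ^ P.k := by
  have g2 := ct_pmax_pA (P := P) c.j
  have g4 := hc.p
  have g5 := hc.q
  have g6 : P.B ^ c.j ≤ P.B ^ P.k := Nat.pow_le_pow_right (vl_B_pos P) hc.j
  unfold triv Nat.dist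
  omega

theorem ct_out (hP : P.Ok) {S : ℕ → ℕ} {c : ℕ → ℕ → ℕ} (X : Sys P S c) (hc : ∀ i p, c i p ≤ 1) :
    outv P (X.D P.Tend) ≤ 2 * P.B ^ P.k := by
  have h1 : outv P (X.D P.Tend) ≤ X.D P.Tend (rootCell P 0) :=
    minL_le (List.mem_map.2 ⟨0, List.mem_range.2 (Nat.succ_pos _), rfl⟩)
  have h2 := X.D_le_triv hc P.Tend (rootCell P 0)
  have h3 : triv P (rootCell P 0) = Nat.dist P.lx P.ly + P.B ^ P.k := rfl
  have h4 := hP.lx
  have h5 := hP.ly
  rw [h3] at h2
  unfold Nat.dist at h2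
  omega

theorem ct_value (hP : P.Ok) (S : ℕ → ℕ) {bit : ℕ → ℕ} (hb : ∀ q, bit q ≤ 1) {k : Key}
    (hk : OkK P k) : esize (machF.val (P, S) bit k) ≤ P.VB := by
  have g1 := ct_big hP
  have hc1 : ∀ i p, cOf P bit i p ≤ 1 := fun i p => ct_bitBody (hb _) i p
  have hv := machF.val_eq (machF_wf (P, S)) bit k
  cases hk with
  | b i p hi hp =>
    refine ct_single hv ?_
    rw [hv]
    have h1 : 2 ^ 1 ≤ 2 ^ P.lcnt := ct_pw (by unfold Par.lcnt; omega)
    exact lt_of_le_of_lt (ct_bitBody (hb _) i p) (by omega)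
  | a j i a b hn ha hb =>
    have h1 : machF.val (P, S) bit (kA j i a b) = abody P (blk P S (bA j))
      (oc (machF.val (P, S) bit)) (oA (machF.val (P, S) bit)) j i a b := hv
    rw [h1]
    refine (esize_list_le (B := P.lcnt) fun x hx => ?_).trans ?_
    · obtain ⟨t, -, rfl⟩ := List.mem_map.1 hx
      refine esize_nat_le (lt_of_le_of_lt (min_le_left _ _) ?_)
      exact Nat.pow_lt_pow_right (by norm_num) (by unfold Par.lcnt; omega)
    · have h2 : tlen P a ≤ P.NS := by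
        have h3 := ct_rs (P := P)
        have h4 := ct_l1 (P := P)
        exact (ct_tlen a).trans (ct_pw (by omega))
      unfold abody Par.VB
      rw [List.length_map, List.length_range]
      exact Nat.mul_le_mul h2 (by omega)
  | d T c hc hT =>
    have h1 := (sysOf P S bit).D_le_triv hc1 T c
    have h2 := ct_triv hc
    exact ct_single hv (lt_of_le_of_lt h1 (by omega))
  | h T c τ hc hT hτ =>
    have h1 := (sysOf P S bit).H_le T c τ
    have h2 := ct_triv hc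
    have h3 : om P τ ≤ 2 ^ P.km := by
      have h4 := hc.ka
      exact ct_pw (by unfold Par.h2 at hτ; unfold Par.h3; omega)
    exact ct_single hv (lt_of_le_of_lt h1 (by omega))
  | u T c τ hc hT hτ =>
    have h1 := ((sysOf P S bit).U_le_D T c τ).trans ((sysOf P S bit).D_le_triv hc1 T c)
    have h2 := ct_triv hc
    exact ct_single hv (lt_of_le_of_lt h1 (by omega))
  | o =>
    have h1 := ct_out hP (sysOf P S bit) hc1
    have h2 : P.B ^ P.k ≤ 2 ^ P.km := by
      unfold Par.B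
      rw [← pow_mul]
      exact ct_pw (by unfold Par.km; omega)
    refine ct_single hv ?_
    rw [hv]
    exact lt_of_le_of_lt h1 (by omega)

theorem mach_bounds {P : Par} (hP : P.Ok) (L : List ℕ) {bit : ℕ → ℕ} (hb : ∀ q, bit q ≤ 1) :
    ∃ (Ok : Key → Prop) (W : Key → ℕ), Ok kO ∧ W kO ≤ 2 ^ P.lQ ∧
      mach.Bounds (P, L) bit Ok W P.KB P.VB (2 ^ P.lT) ((P.lx + 1) * (P.ly + 1)) ∧
      (mach.val (P, L) bit kO).headD 0 ≤ 2 * P.B ^ P.k := by
  refine ⟨OkK P, cW P, .o, le_rfl, ⟨fun k hk ph _ k' h => ct_closed hk h,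
    fun k hk => ct_weight hP hk, fun k hk => ct_key hP hk, fun k hk => ?_,
    fun k hk ph _ => ct_len hP hk, fun k _ => ct_ext k⟩, ?_⟩
  · rw [mach_val]
    exact ct_value hP _ hb hk
  · rw [val_kO]
    exact ct_out hP _ fun i p => ct_bitBody (hb _) i p

end Vale.Agent.P315Z
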