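import Vale.Agent.P315Z.Dp

/-! P315Z: validity, monotonicity and the Lipschitz property of a solution. -/

set_option autoImplicit false

namespace Vale.Agent.P315Z

open Finset
open Vale.Agent.P315.H155 (minD minD_le_default minD_le_of_mem minD_mem)

variable {P : Par} {S : ℕ → ℕ} {c : ℕ → ℕ → ℕ} (X : Sys P S c)

theorem vl_sum_range (n : ℕ) (f : ℕ → ℕ) :
    ((List.range n).map f).sum = ∑ i ∈ range n, f i := by
  induction n with
  | zero => simp
  | succ n ih => rw [List.range_succ, List.map_append, List.sum_append, ih, sum_range_succ]; simp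

theorem vl_B_pos (P : Par) : 0 < P.B := by
  unfold Par.B
  positivity

theorem vl_om_pos (P : Par) (τ : ℕ) : 0 < om P τ := by
  unfold om
  positivity

theorem vl_m_pos (P : Par) : 0 < P.m := by
  unfold Par.m
  positivity

theorem Sys.D_le_triv (hc : ∀ i p, c i p ≤ 1) (T : ℕ) (e : Cell) : X.D T e ≤ triv P e := by
  cases T with
  | zero =>
    rw [X.eqD0]
    unfold d0body
    split_ifs with h
    · have h1 := hc e.i e.p
      unfold leafc triv
      rw [h, pow_zero]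
      omega
    · exact minD_le_default _ _
  | succ T =>
    rw [X.eqD]
    exact (min_le_left _ _).trans (minD_le_default _ _)

theorem Sys.H_le (T : ℕ) (e : Cell) (τ : ℕ) : X.H T e τ ≤ triv P e + 2 * (om P τ - 1) := by
  rw [X.eqH]
  unfold hbody
  split_ifs
  · exact le_rfl
  · exact le_rfl
  · exact Nat.add_le_add_right (min_le_left _ _) _

theorem Sys.U_le_hint (T : ℕ) (e : Cell) (τ : ℕ) :
    X.U T e τ ≤ hint P (X.D T) (X.H T) e τ := by
  rw [X.eqU]
  unfold ubody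
  split_ifs
  · exact le_rfl
  · exact min_le_left _ _
  · exact le_rfl

theorem Sys.U_le_D (T : ℕ) (e : Cell) (τ : ℕ) : X.U T e τ ≤ X.D T e :=
  (X.U_le_hint T e τ).trans (min_le_left _ _)

theorem Sys.hint_le (T : ℕ) (e : Cell) (τ : ℕ) :
    hint P (X.D T) (X.H T) e τ ≤ X.U T e τ + X.D (ref P S (P.ep T)) e / P.capd := by
  rw [X.eqU]
  unfold ubody
  split_ifs
  · exact Nat.le_add_right _ _
  · have h1 : hint P (X.D T) (X.H T) e τ ≤ X.H T (box P e τ) τ := min_le_right _ _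
    generalize X.D (ref P S (P.ep T)) e / P.capd = w
    omega
  · exact Nat.le_add_right _ _

theorem Sys.D_succ_le_U (T : ℕ) {e : Cell} (he : e ∈ sibs P e) {τ : ℕ} (hτ : τ ≤ e.ka + P.h2) :
    X.D (T + 1) e ≤ X.U T e τ := by
  rw [X.eqD]
  refine (min_le_left _ _).trans ((minD_le_of_mem (List.mem_map.2 ⟨e, he, rfl⟩)).trans ?_)
  rw [Nat.dist_self, Nat.dist_self]
  exact ubest_le (X.U T) hτ

theorem Sys.D_anti {e : Cell} (he : e ∈ sibs P e) {T T' : ℕ} (h : T ≤ T') :
    X.D T' e ≤ X.D T e := by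
  induction T', h using Nat.le_induction with
  | base => exact le_rfl
  | succ n _ ih => exact ((X.D_succ_le_U n he (Nat.zero_le _)).trans (X.U_le_D n e 0)).trans ih

theorem vl_triv_lip {e e' : Cell} (h : Same e e') :
    triv P e ≤ triv P e' + Nat.dist e.p e'.p + Nat.dist e.q e'.q := by
  unfold triv
  rw [h.1]
  unfold Nat.dist
  omega

theorem Sys.D_lip {T : ℕ} (hT : 1 ≤ T) {e e' : Cell} (h : Same e e') :
    X.D T e ≤ X.D T e' + Nat.dist e.p e'.p + Nat.dist e.q e'.q := by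
  obtain ⟨T, rfl⟩ : ∃ n, T = n + 1 := ⟨T - 1, by omega⟩
  rw [X.eqD, X.eqD]
  unfold dstep
  have ht := vl_triv_lip (P := P) h
  have h1 : minD ((sibs P e).map fun c => ubest P (X.U T) c + Nat.dist c.p e.p + Nat.dist c.q e.q)
      (triv P e) ≤ minD ((sibs P e').map fun c =>
        ubest P (X.U T) c + Nat.dist c.p e'.p + Nat.dist c.q e'.q) (triv P e') +
        Nat.dist e.p e'.p + Nat.dist e.q e'.q := by
    rcases minD_mem ((sibs P e').map fun c =>
        ubest P (X.U T) c + Nat.dist c.p e'.p + Nat.dist c.q e'.q) (triv P e') with h2 | h2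
    · rw [h2]
      exact (minD_le_default _ _).trans ht
    · obtain ⟨a, ha, h3⟩ := List.mem_map.1 h2
      rw [← h3]
      rw [← h.sibs] at ha
      refine (minD_le_of_mem (List.mem_map.2 ⟨a, ha, rfl⟩)).trans ?_
      unfold Nat.dist
      omega
  have h2 : (if e.j = 0 then triv P e else phi P (ubest P (X.U T)) e P.B e.q) ≤
      (if e'.j = 0 then triv P e' else phi P (ubest P (X.U T)) e' P.B e'.q) +
        Nat.dist e.p e'.p + Nat.dist e.q e'.q := by
    rw [← h.1]
    split_ifs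
    · exact ht
    · have h3 := phi_lip_start (P := P) (ubest P (X.U T)) h P.B e.q
      have h4 := phi_lip (P := P) (ubest P (X.U T)) e' P.B e.q e'.q
      rw [Nat.dist_comm e'.q] at h4
      omega
  omega

theorem Sys.D_succ_le_phi (T : ℕ) {e : Cell} (hj : e.j ≠ 0) :
    X.D (T + 1) e ≤ phi P (ubest P (X.U T)) e P.B e.q := by
  rw [X.eqD]
  unfold dstep
  rw [if_neg hj]
  exact min_le_right _ _

theorem Sys.D_succ_le_phiD (T : ℕ) {e : Cell} (hj : e.j ≠ 0) :
    X.D (T + 1) e ≤ phi P (X.D T) e P.B e.q :=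
  (X.D_succ_le_phi T hj).trans (phi_mono (fun _ _ a _ =>
    (ubest_le (X.U T) (Nat.zero_le _)).trans (X.U_le_D T a 0)) _)

section valid

variable {V : ℕ → ℕ → ℕ → ℕ → ℕ}

theorem vl_cv_triv (hc : ∀ i p, c i p ≤ 1) (hV : Pot c V) (e : Cell) : cv P V e ≤ triv P e := by
  unfold cv triv
  rw [Nat.add_mul, one_mul]
  exact hV.triv hc _ _ _ _

theorem vl_cv_lip (hV : Pot c V) {e e' : Cell} (hj : e.j = e'.j) (hi : e.i = e'.i) :
    cv P V e ≤ cv P V e' + Nat.dist e.p e'.p + Nat.dist e.q e'.q := by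
  unfold cv
  rw [hj, hi]
  exact hV.lip _ _ _ _ _ _

/-- A bound for the potential on child `r` from a bound on a cell of that child. -/
theorem vl_child (hV : Pot c V) {e a : Cell} {r : ℕ} (hj : a.j = e.j - 1)
    (hi : a.i = e.i * P.B + r) (p q : ℕ) :
    V ((e.i * P.B + r) * P.B ^ (e.j - 1)) ((e.i * P.B + r + 1) * P.B ^ (e.j - 1)) p q ≤
      cv P V a + Nat.dist p a.p + Nat.dist a.q q := by
  unfold cv
  rw [hj, hi, Nat.dist_comm a.q]
  exact hV.lip _ _ _ _ _ _

theorem vl_dstep (hc : ∀ i p, c i p ≤ 1) (hV : Pot c V) {U : Cell → ℕ → ℕ}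
    (hU : ∀ a, Dom P a → ∀ τ, cv P V a ≤ U a τ) {e : Cell} (he : Dom P e) :
    cv P V e ≤ dstep P U e := by
  have hb : ∀ a, Dom P a → cv P V a ≤ ubest P U a := by
    intro a ha
    obtain ⟨τ, -, h⟩ := ubest_ex (P := P) U a
    rw [h]
    exact hU a ha τ
  unfold dstep
  refine le_min ?_ ?_
  · rcases minD_mem ((sibs P e).map fun c =>
        ubest P U c + Nat.dist c.p e.p + Nat.dist c.q e.q) (triv P e) with h2 | h2
    · rw [h2]
      exact vl_cv_triv hc hV e
    · obtain ⟨a, ha, h3⟩ := List.mem_map.1 h2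
      rw [← h3]
      have hs := same_of_mem_sibs ha
      have h4 := vl_cv_lip (P := P) hV hs.1.symm hs.2.1.symm
      have h5 := hb a (he.sibs ha)
      rw [Nat.dist_comm a.p, Nat.dist_comm a.q]
      omega
  · split_ifs with hj
    · exact vl_cv_triv hc hV e
    · have h1 := phi_valid (P := P) hV (val := ubest P U) hj (r := P.B)
        (fun r hr a ha => hb a (he.kids hj hr ha)) e.q
      have h2 : P.B * P.B ^ (e.j - 1) = P.B ^ e.j := by
        rw [← pow_succ']
        congr 1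
        omega
      rw [h2] at h1
      unfold cv
      rw [Nat.add_mul, one_mul]
      exact h1

theorem vl_zv (hV : Pot c V) {R D : Cell → ℕ} {H : Cell → ℕ → ℕ} {e : Cell} {τ : ℕ}
    (he : Dom P e) (ha : adm P R e τ = true) (hD : ∀ a, Dom P a → cv P V a ≤ D a)
    (hH : ∀ a, Dom P a → a.j = e.j - 1 → ∀ σ, cv P V a ≤ H a σ) :
    cv P V e ≤ zv P R D H e := by
  obtain ⟨hj, -, -, -, -, hne⟩ := adm_iff.1 ha
  unfold zv
  rw [vl_sum_range]
  refine cv_chain hV hj (st P R e) _ (st_zero R e) (st_last R e) fun r hr => ?_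
  have h1 : yv P R D H e r ∈ _ := minL_mem (l := (tube P R e r).map fun c =>
    min (D (box P c (ta P R e r))) (H (box P c (ta P R e r)) (ta P R e r)) +
      Nat.dist (st P R e r) (box P c (ta P R e r)).p +
      Nat.dist (box P c (ta P R e r)).q (st P R e (r + 1))) (by simpa using hne r hr)
  obtain ⟨a, ha, h2⟩ := List.mem_map.1 h1
  rw [← h2]
  have hk := (mem_tube.1 ha).1
  have hk' := mem_kids.1 hk
  have hd : Dom P (box P a (ta P R e r)) := (he.kids hj hr hk).box _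
  have h3 := vl_child (P := P) hV (e := e) (a := box P a (ta P R e r)) (r := r) hk'.1 hk'.2.1
    (st P R e r) (st P R e (r + 1))
  have h4 := hD _ hd
  have h5 := hH _ hd hk'.1 (ta P R e r)
  omega

theorem vl_hbody (hc : ∀ i p, c i p ≤ 1) (hV : Pot c V) {R D : Cell → ℕ} {H : Cell → ℕ → ℕ}
    {b e : Cell} {τ T : ℕ} {sd : ℕ → ℕ} (hb : Dom P b) (hj : e.j = b.j) (hi : e.i = b.i)
    (hp : b.p ≤ e.p) (hp' : e.p < b.p + om P τ) (hq : b.q ≤ e.q) (hq' : e.q < b.q + om P τ)
    (hD : ∀ a, Dom P a → cv P V a ≤ D a)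
    (hH : b.j ≠ 0 → ∀ a, Dom P a → a.j = b.j - 1 → ∀ σ, cv P V a ≤ H a σ) :
    cv P V e ≤ hbody P sd T R D H b τ := by
  have h0 : cv P V e ≤ triv P b + 2 * (om P τ - 1) := by
    have h1 := vl_cv_lip (P := P) hV hj hi
    have h2 := vl_cv_triv (P := P) hc hV b
    unfold Nat.dist at h1
    omega
  unfold hbody
  split_ifs with h1 h2
  · exact h0
  · exact h0
  · have hne : fam P R b τ ≠ [] := by simpa using h2
    have hm : chosen P sd R D H b τ ∈ fam P R b τ := argL_mem hne _ _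
    generalize chosen P sd R D H b τ = a at hm
    obtain ⟨hs, hap, haq, had⟩ := mem_fam.1 hm
    have hsa := same_of_mem_sibs hs
    have hja : a.j ≠ 0 := (adm_iff.1 had).1
    have h3 : cv P V a ≤ zv P R D H a := by
      refine vl_zv hV (hb.sibs hs) had hD fun a' ha' hj' σ => ?_
      exact hH (by rw [← hsa.1]; exact hja) a' ha' (by rw [← hsa.1]; exact hj') σ
    have h4 := vl_cv_lip (P := P) hV (hj.trans hsa.1.symm) (hi.trans hsa.2.1.symm)
    have h5 := Nat.mod_lt a.p (vl_om_pos P τ)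
    have h6 := Nat.mod_lt a.q (vl_om_pos P τ)
    have h7 := Nat.mod_le a.p (om P τ)
    have h8 := Nat.mod_le a.q (om P τ)
    simp only [box] at hap haq
    unfold Nat.dist at h4
    omega

theorem vl_pcost (hV : Pot c V) {R : Cell → ℕ} {U : Cell → ℕ → ℕ} {e : Cell} {τ : ℕ}
    (he : Dom P e) (ha : adm P R e τ = true)
    (hU : ∀ a, Dom P a → a.j = e.j - 1 → ∀ σ, cv P V a ≤ U a σ) (g : ℕ → ℕ) :
    cv P V e ≤ pcost (P.B + 1) (ecost P R e U) g := by
  obtain ⟨hj, -, -, -, -, hne⟩ := adm_iff.1 ha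
  have hB := vl_B_pos P
  unfold pcost
  rw [vl_sum_range, sum_range_succ]
  set y : ℕ → ℕ := fun r => if r = 0 then e.p else (tc P R e (r - 1) (g r)).q with hy
  have h1 := cv_chain (P := P) hV (e := ⟨e.j, e.i, e.ka, e.x, e.p, y P.B⟩) hj y
    (fun r => ecost P R e U r (g r) (g (r + 1))) (by simp [hy]) rfl (fun r hr => by
      have hm := tc_mem (hne r hr) (g (r + 1))
      have hk := (mem_tube.1 hm).1
      have hk' := mem_kids.1 hk
      have h3 := vl_child (P := P) hV (e := e) (r := r) hk'.1 hk'.2.1 (y r) (y (r + 1))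
      have h4 := hU _ (he.kids hj hr hk) hk'.1 (ta P R e r)
      have h5 : y (r + 1) = (tc P R e r (g (r + 1))).q := by simp [hy]
      rw [h5, Nat.dist_self] at h3
      show V ((e.i * P.B + r) * P.B ^ (e.j - 1)) ((e.i * P.B + r + 1) * P.B ^ (e.j - 1)) (y r)
        (y (r + 1)) ≤ ecost P R e U r (g r) (g (r + 1))
      unfold ecost
      rw [if_pos hr, h5]
      show _ ≤ Nat.dist (y r) _ + _
      omega)
  have h2 := vl_cv_lip (P := P) hV (e := e) (e' := ⟨e.j, e.i, e.ka, e.x, e.p, y P.B⟩) rfl rfl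
  have h3 : ecost P R e U P.B (g P.B) (g (P.B + 1)) = Nat.dist e.q (y P.B) := by
    unfold ecost
    rw [if_neg (lt_irrefl _), Nat.dist_comm]
    simp [hy, hB.ne']
  rw [h3]
  simp only [Nat.dist_self] at h2
  omega

theorem Sys.vl_H (hc : ∀ i p, c i p ≤ 1) (hV : Pot c V) {T : ℕ}
    (hD : ∀ a, Dom P a → cv P V a ≤ X.D T a) (j : ℕ) :
    ∀ b e : Cell, ∀ τ, Dom P b → b.j = j → e.j = b.j → e.i = b.i → b.p ≤ e.p →
      e.p < b.p + om P τ → b.q ≤ e.q → e.q < b.q + om P τ → cv P V e ≤ X.H T b τ := by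
  induction j with
  | zero =>
    intro b e τ hb h0 hj hi hp hp' hq hq'
    rw [X.eqH]
    exact vl_hbody hc hV hb hj hi hp hp' hq hq' hD fun h => absurd h0 h
  | succ j ih =>
    intro b e τ hb h0 hj hi hp hp' hq hq'
    rw [X.eqH]
    refine vl_hbody hc hV hb hj hi hp hp' hq hq' hD fun _ a ha haj σ => ?_
    have := vl_om_pos P σ
    exact ih a a σ ha (by omega) rfl rfl le_rfl (by omega) le_rfl (by omega)

theorem Sys.vl_Hbox (hc : ∀ i p, c i p ≤ 1) (hV : Pot c V) {T : ℕ}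
    (hD : ∀ a, Dom P a → cv P V a ≤ X.D T a) {e : Cell} (he : Dom P e) (τ : ℕ) :
    cv P V e ≤ X.H T (box P e τ) τ := by
  have h5 := Nat.mod_lt e.p (vl_om_pos P τ)
  have h6 := Nat.mod_lt e.q (vl_om_pos P τ)
  have h7 := Nat.mod_le e.p (om P τ)
  have h8 := Nat.mod_le e.q (om P τ)
  refine X.vl_H hc hV hD e.j (box P e τ) e τ (he.box τ) rfl rfl rfl ?_ ?_ ?_ ?_ <;>
    simp only [box] <;> omega

theorem Sys.vl_U (hc : ∀ i p, c i p ≤ 1) (hV : Pot c V) {T : ℕ}
    (hD : ∀ a, Dom P a → cv P V a ≤ X.D T a) (j : ℕ) :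
    ∀ e : Cell, ∀ τ, Dom P e → e.j = j → cv P V e ≤ X.U T e τ := by
  induction j using Nat.strong_induction_on with
  | _ j ih =>
    intro e τ he h0
    have h1 : cv P V e ≤ hint P (X.D T) (X.H T) e τ := le_min (hD e he) (X.vl_Hbox hc hV hD he τ)
    rw [X.eqU]
    unfold ubody
    split_ifs with h2 h3
    · exact h1
    · refine le_min h1 (le_max_of_le_left ?_)
      have hj := (adm_iff.1 h3).1
      exact vl_pcost hV he h3 (fun a ha haj σ => ih (e.j - 1) (by omega) a σ ha haj) _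
    · exact h1

theorem Sys.vl_D (hc : ∀ i p, c i p ≤ 1) (hV : Pot c V)
    (h0 : ∀ e, Dom P e → cv P V e ≤ X.D 0 e) (T : ℕ) : ∀ e, Dom P e → cv P V e ≤ X.D T e := by
  induction T with
  | zero => exact h0
  | succ T ih =>
    intro e he
    rw [X.eqD]
    exact vl_dstep hc hV (fun a ha τ => X.vl_U hc hV ih a.j a τ ha rfl) he

end valid

/-- All values are upper bounds of a potential, if the start values are. -/
theorem Sys.valid (hc : ∀ i p, c i p ≤ 1) {V : ℕ → ℕ → ℕ → ℕ → ℕ} (hV : Pot c V)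
    (h0 : ∀ e, Dom P e → cv P V e ≤ X.D 0 e) (T : ℕ) (e : Cell) (he : Dom P e) :
    cv P V e ≤ X.D T e ∧ (∀ τ, cv P V e ≤ X.U T e τ) ∧ ∀ τ, cv P V e ≤ X.H T (box P e τ) τ :=
  ⟨X.vl_D hc hV h0 T e he, fun τ => X.vl_U hc hV (X.vl_D hc hV h0 T) e.j e τ he rfl,
    fun τ => X.vl_Hbox hc hV (X.vl_D hc hV h0 T) he τ⟩

theorem Sys.dist_le_D (hc : ∀ i p, c i p ≤ 1) (T : ℕ) {e : Cell} (he : Dom P e) :
    Nat.dist e.p e.q ≤ X.D T e := by
  refine (X.valid hc (pot_dist c) (fun a _ => ?_) T e he).1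
  show Nat.dist a.p a.q ≤ _
  rw [X.eqD0]
  unfold d0body
  split_ifs with h
  · exact (pot_dist c).leaf a.i a.p a.q
  · rcases minD_mem (((List.range (P.am - P.a0 + 1)).filter fun u =>
      decide (2 * zh P (X.A a.j a.i (P.a0 + u)) (P.a0 + u) a.p ≤ 2 ^ (P.a0 + u))).map fun u =>
        Nat.dist a.p a.q + (2 ^ u - 1)) (triv P a) with h2 | h2
    · rw [h2]
      exact Nat.le_add_right _ _
    · obtain ⟨u, -, h3⟩ := List.mem_map.1 h2
      rw [← h3]
      exact Nat.le_add_right _ _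

theorem ref_bounds (S : ℕ → ℕ) {β : ℕ} (hβ : 1 ≤ β) :
    (β - 1) * P.m + 1 ≤ ref P S β ∧ ref P S β ≤ β * P.m := by
  obtain ⟨b, rfl⟩ : ∃ b, β = b + 1 := ⟨β - 1, by omega⟩
  have h1 := Nat.mod_lt (blk P S (bR (b + 1)) 0) (vl_m_pos P)
  unfold ref
  rw [Nat.add_sub_cancel, Nat.add_mul, one_mul]
  omega

theorem ep_eq (P : Par) {β t : ℕ} (ht : t < P.m) : P.ep (β * P.m + 1 + t) = β := by
  unfold Par.ep
  rw [show β * P.m + 1 + t - 1 = t + β * P.m by omega, Nat.add_mul_div_right _ _ (vl_m_pos P),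
    Nat.div_eq_of_lt ht, zero_add]

end Vale.Agent.P315Z
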