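import Vale.Agent.P315Z.Box
import Vale.Agent.P315Z.Valid

/-! P315Z: the keys that are reached from the root, and the lengths of the lists of queries. -/

set_option autoImplicit false

namespace Vale.Agent.P315Z

variable {P : Par}

theorem ct_pw {a b : ℕ} (h : a ≤ b) : 2 ^ a ≤ 2 ^ b := Nat.pow_le_pow_right (by norm_num) h

theorem ct_le_pw {a b : ℕ} (h : a ≤ b) : a + 1 ≤ 2 ^ b :=
  (Nat.succ_le_of_lt Nat.lt_two_pow_self).trans (ct_pw h)

theorem ct_flat {α β : Type} (l : List α) (f : α → List β) {n : ℕ}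
    (h : ∀ a ∈ l, (f a).length ≤ n) : (l.flatMap f).length ≤ l.length * n := by
  induction l with
  | nil => simp
  | cons a l ih =>
    rw [List.flatMap_cons, List.length_append, List.length_cons, Nat.succ_mul]
    have h1 := h a (List.mem_cons_self ..)
    have h2 := ih fun b hb => h b (List.mem_cons_of_mem _ hb)
    omega

/-! ### Parameters -/

theorem ct_lK (hP : P.Ok) : P.lK ≤ P.lm := by
  have h1 := hP.hth3
  have h2 : 2 ^ (2 * P.leta + P.le) ≤ 2 ^ P.lm := le_trans (by omega) h1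
  have h3 := (Nat.pow_le_pow_iff_right (by norm_num)).1 h2
  unfold Par.leta Par.h3 at h3
  omega

theorem ct_lbk (hP : P.Ok) : P.lb * P.k + P.lb ≤ 2 ^ (P.lb + P.dl) := by
  have h1 := hP.hdl
  have h2 : P.lb ≤ 2 ^ P.lb := Nat.lt_two_pow_self.le
  rw [pow_add, ← Nat.mul_succ]
  exact Nat.mul_le_mul h2 (by omega)

theorem ct_km (hP : P.Ok) : P.km + P.h2 + 1 ≤ 2 ^ P.l1 := by
  have h0 := ct_lK hP
  obtain ⟨n, hn⟩ : ∃ n, P.l1 = n + 2 := ⟨P.l1 - 2, by unfold Par.l1; omega⟩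
  have h1 : P.la1 + 1 ≤ 2 ^ n := ct_le_pw (by unfold Par.l1 Par.lnn Par.lG at hn; omega)
  have h2 : P.lK + 1 ≤ 2 ^ n := ct_le_pw (by unfold Par.l1 at hn; omega)
  have h3 : 2 ^ (P.lb + P.dl) ≤ 2 ^ n := ct_pw (by unfold Par.l1 Par.lnn Par.lG at hn; omega)
  have h4 := ct_lbk hP
  rw [hn, pow_add]
  unfold Par.km Par.h2
  omega

theorem ct_lL (hP : P.Ok) : P.lb + P.lL + 1 ≤ P.lT := by
  have h0 := ct_lK hP
  have h1 : Nat.clog 2 (P.h + 1) ≤ P.h + 1 :=
    (Nat.clog_le_iff_le_pow (by norm_num)).2 Nat.lt_two_pow_self.le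
  have h2 : Nat.clog 2 (P.h2 + 5) ≤ P.h2 + 5 :=
    (Nat.clog_le_iff_le_pow (by norm_num)).2 Nat.lt_two_pow_self.le
  unfold Par.lL Par.lT Par.lN Par.nH Par.l1 Par.lnn
  unfold Par.h at h1 ⊢
  unfold Par.h2 at h2 ⊢
  omega

theorem ct_tlen (a : ℕ) : tlen P a ≤ 2 ^ P.rs := ct_pw (min_le_right _ _)

theorem ct_tlen_res (a : ℕ) : tlen P a * res P a = wid P a := by
  unfold tlen res wid
  rw [← pow_add]
  congr 1
  omega

theorem ct_rs : P.rs + 2 ≤ P.l1 := by
  unfold Par.rs Par.l1 Par.lnn Par.lG Par.la1 Par.la0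
  omega

theorem ct_l1 : 2 * P.l1 + 1 ≤ P.lN := by
  unfold Par.lN Par.l1
  omega

theorem ct_entry {a t : ℕ} (b : ℕ) (ht : t < tlen P a) :
    b * wid P a + t * res P a ≤ (b + 1) * wid P a := by
  rw [Nat.add_mul, one_mul, ← ct_tlen_res]
  exact Nat.add_le_add_left (Nat.mul_le_mul_right _ ht.le) _

theorem ct_cands {a s r : ℕ} (h : r ∈ cands P a s) :
    (r / wid P a + 1) * wid P a ≤ s + 4 * wid P a := by
  obtain ⟨t, ht, rfl⟩ := List.mem_map.1 h
  have h1 := List.mem_range.1 ht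
  have h2 : 0 < tlen P a := by
    unfold tlen
    positivity
  have h3 := Nat.div_mul_le_self (s - wid P a) (res P a)
  have h4 : t * res P a ≤ 3 * tlen P a * res P a := Nat.mul_le_mul_right _ (by omega)
  rw [mul_assoc, ct_tlen_res] at h4
  have h5 := Nat.div_mul_le_self (((s - wid P a) / res P a + t) * res P a) (wid P a)
  rw [Nat.add_mul, one_mul]
  rw [Nat.add_mul] at h5 ⊢
  omega

theorem ct_len_cands (a s : ℕ) : (cands P a s).length ≤ 2 ^ P.l1 := by
  have h1 := ct_tlen (P := P) a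
  have h2 : 2 ^ (P.rs + 2) ≤ 2 ^ P.l1 := ct_pw ct_rs
  have h3 : 0 < 2 ^ P.rs := by positivity
  rw [pow_add] at h2
  unfold cands
  rw [List.length_map, List.length_range]
  omega

theorem ct_pmax (j : ℕ) : pmax P j ≤ pmax P 0 := by
  unfold pmax
  exact Nat.add_le_add_left (Nat.mul_le_mul_left _ (by omega)) _

theorem ct_pA (j : ℕ) : pA P j ≤ pA P 0 := by
  unfold pA
  exact Nat.add_le_add_left (Nat.mul_le_mul_left _ (by omega)) _

theorem ct_pmax_pA (j : ℕ) : pmax P j ≤ pA P 0 := (ct_pmax j).trans (Nat.le_add_right _ _)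

theorem ct_ref (S : ℕ → ℕ) {T : ℕ} (hT : ¬ T ≤ P.m) : ref P S (P.ep T) < T := by
  have hm := vl_m_pos P
  have h1 : 1 ≤ P.ep T := by
    unfold Par.ep
    exact (Nat.le_div_iff_mul_le hm).2 (by omega)
  have h2 := (ref_bounds (P := P) S h1).2
  have h3 : P.ep T * P.m ≤ T - 1 := Nat.div_mul_le_self _ _
  omega

theorem ct_ep (T : ℕ) : T - (P.ep T * P.m + 1) ≤ P.m := by
  have hm := vl_m_pos P
  have h1 := Nat.div_add_mod (T - 1) P.m
  have h2 := Nat.mod_lt (T - 1) hm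
  unfold Par.ep
  rw [Nat.mul_comm] at h1
  omega

/-! ### Lists of cells -/

theorem ct_near {e c : Cell} (he : Dom P e) (hc : c ∈ sibs P e ++ allKids P e) :
    Dom P c ∧ c.j ≤ e.j := by
  rcases List.mem_append.1 hc with h | h
  · exact ⟨he.sibs h, (same_of_mem_sibs h).1.le⟩
  · unfold allKids at h
    split_ifs at h with hj
    · simp at h
    · obtain ⟨r, hr, h1⟩ := List.mem_flatMap.1 h
      exact ⟨he.kids hj (List.mem_range.1 hr) h1, by rw [(mem_kids.1 h1).1]; omega⟩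

theorem ct_len_near (e : Cell) : (sibs P e ++ allKids P e).length + 3 ≤ 2 ^ P.l1 := by
  have h1 := length_sibs (P := P) e
  have h2 : (allKids P e).length ≤ P.B * 2 ^ P.lnn := by
    unfold allKids
    split_ifs
    · simp
    · simpa using ct_flat (List.range P.B) (fun r => kids P e r) fun r _ => length_kids e r
  obtain ⟨n, hn⟩ : ∃ n, P.l1 = n + 2 := ⟨P.l1 - 2, by unfold Par.l1; omega⟩
  have h3 : 2 ^ (2 * P.lG + 4) ≤ 2 ^ n := ct_pw (by unfold Par.l1 Par.lnn at hn; omega)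
  have h4 : P.B * 2 ^ P.lnn ≤ 2 ^ n := by
    unfold Par.B
    rw [← pow_add]
    exact ct_pw (by unfold Par.l1 at hn; omega)
  have h5 : 2 + 1 ≤ 2 ^ n := ct_le_pw (by unfold Par.l1 at hn; omega)
  rw [List.length_append, hn, pow_add]
  omega

/-- A box of a child of a cell of level `j`. -/
def BoxOk (P : Par) (j : ℕ) (b : Cell × ℕ) : Prop :=
  Dom P b.1 ∧ b.1.j + 1 = j ∧ b.2 ≤ b.1.ka + P.h2

theorem ct_tube {R : Cell → ℕ} {e c : Cell} {r : ℕ} (he : Dom P e) (hj : e.j ≠ 0) (hr : r < P.B)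
    (hc : c ∈ tube P R e r) : BoxOk P e.j (c, ta P R e r) := by
  obtain ⟨h1, h2, -⟩ := mem_tube.1 hc
  refine ⟨he.kids hj hr h1, ?_, h2⟩
  have h3 := (mem_kids.1 h1).1
  show c.j + 1 = e.j
  omega

theorem BoxOk.box {j τ : ℕ} {c : Cell} (h : BoxOk P j (c, τ)) : BoxOk P j (box P c τ, τ) :=
  ⟨h.1.box τ, h.2.1, h.2.2⟩

theorem ct_lBox {R : Cell → ℕ} {e : Cell} (he : Dom P e) (hj : e.j ≠ 0) {b : Cell × ℕ}
    (hb : b ∈ lBox P R e) : BoxOk P e.j b := by
  unfold lBox at hb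
  obtain ⟨r, hr, h1⟩ := List.mem_flatMap.1 (List.mem_dedup.1 hb)
  obtain ⟨c, hc, rfl⟩ := List.mem_map.1 h1
  exact (ct_tube he hj (List.mem_range.1 hr) hc).box

theorem ct_fam {R : Cell → ℕ} {c e : Cell} {τ : ℕ} (hc : Dom P c) (he : e ∈ fam P R c τ) :
    Dom P e ∧ e.j ≠ 0 ∧ e.j = c.j := by
  obtain ⟨h1, -, -, h2⟩ := mem_fam.1 he
  exact ⟨hc.sibs h1, (adm_iff.1 h2).1, (same_of_mem_sibs h1).1⟩

theorem ct_sBox {sd : ℕ → ℕ} {R : Cell → ℕ} {c : Cell} {τ : ℕ} (hc : Dom P c) {b : Cell × ℕ}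
    (hb : b ∈ sBox P sd R c τ) : BoxOk P c.j b := by
  unfold sBox at hb
  obtain ⟨e, he, h1⟩ := List.mem_flatMap.1 (List.mem_dedup.1 hb)
  obtain ⟨u, -, h2⟩ := List.mem_flatMap.1 h1
  obtain ⟨h3, h4, h5⟩ := ct_fam hc he
  split_ifs at h2
  · obtain ⟨a, ha, rfl⟩ := List.mem_map.1 h2
    rw [← h5]
    exact (ct_tube h3 h4 (Nat.mod_lt _ (vl_B_pos P)) ha).box
  · simp at h2

theorem ct_chosen {sd : ℕ → ℕ} {R D : Cell → ℕ} {H : Cell → ℕ → ℕ} {c : Cell} {τ : ℕ}
    (hc : Dom P c) (hne : ¬ (fam P R c τ).isEmpty = true) {b : Cell × ℕ}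
    (hb : b ∈ lBox P R (chosen P sd R D H c τ)) : BoxOk P c.j b := by
  have hm : chosen P sd R D H c τ ∈ fam P R c τ := argL_mem (by simpa using hne) _ _
  obtain ⟨h3, h4, h5⟩ := ct_fam hc hm
  rw [← h5]
  exact ct_lBox h3 h4 hb

/-! ### The keys -/

/-- The keys that are reached from the root. -/
inductive OkK (P : Par) : Key → Prop
  | b (i p : ℕ) : i < P.B ^ P.k → p ≤ pA P 0 → OkK P (kB i p)
  | a (j i a b : ℕ) : Node P j i → a ≤ P.am + (P.k - j) → (b + 1) * wid P a ≤ pA P j →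
      OkK P (kA j i a b)
  | d (T : ℕ) (c : Cell) : Dom P c → T ≤ P.Tend → OkK P (kD T c)
  | h (T : ℕ) (c : Cell) (τ : ℕ) : Dom P c → T ≤ P.Tend → τ ≤ c.ka + P.h2 → OkK P (kH T c τ)
  | u (T : ℕ) (c : Cell) (τ : ℕ) : Dom P c → T ≤ P.Tend → τ ≤ c.ka + P.h2 → OkK P (kU T c τ)
  | o : OkK P kO

variable {S : ℕ → ℕ} {ph : ℕ} {o : Key → List ℕ}

theorem qs_B (i p : ℕ) : qsF P S ph (kB i p) o = [] := rfl

theorem qs_A (j i a b : ℕ) :
    qsF P S ph (kA j i a b) o = if ph = 0 then qA P (blk P S (bA j)) j i a b else [] := rfl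

theorem qs_D (T : ℕ) (c : Cell) : qsF P S ph (kD T c) o =
    if ph = 0 then (if T = 0 then qD0 P c else qD P (T - 1) c) else [] := rfl

theorem qs_H (T : ℕ) (c : Cell) (τ : ℕ) : qsF P S ph (kH T c τ) o =
    qH P (blk P S (bM (P.ep T) c.j)) (ref P S (P.ep T)) T c τ ph o := rfl

theorem qs_U (T : ℕ) (c : Cell) (τ : ℕ) : qsF P S ph (kU T c τ) o =
    qU P (blk P S (bM (P.ep T) c.j)) (ref P S (P.ep T)) T c τ ph o := rfl

theorem qs_O : qsF P S ph kO o =
    if ph = 0 then (List.range (P.km + 1)).map fun ka => kD P.Tend (rootCell P ka) else [] := rfl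

theorem ct_mem_qA0 {sd : ℕ → ℕ} {i a b : ℕ} {k : Key} (hk : k ∈ qA P sd 0 i a b) :
    ∃ t < tlen P a, k = kB i (b * wid P a + t * res P a) := by
  unfold qA at hk
  rw [if_pos rfl] at hk
  obtain ⟨t, ht, rfl⟩ := List.mem_map.1 hk
  exact ⟨t, List.mem_range.1 ht, rfl⟩

theorem ct_mem_qA {sd : ℕ → ℕ} {j i a b : ℕ} (hj : j ≠ 0) {k : Key} (hk : k ∈ qA P sd j i a b) :
    ∃ v l t r, v < ar P j ∧ t < tlen P a ∧ r ∈ cands P (a + 1 - l) (b * wid P a + t * res P a) ∧
      k = kA (j - P.ha) (i * ar P j + v) (a + 1 - l) (r / wid P (a + 1 - l)) := by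
  unfold qA at hk
  rw [if_neg hj] at hk
  obtain ⟨u, -, h1⟩ := List.mem_flatMap.1 (List.mem_dedup.1 hk)
  obtain ⟨l, -, h2⟩ := List.mem_flatMap.1 h1
  split_ifs at h2
  · obtain ⟨t, ht, h3⟩ := List.mem_flatMap.1 h2
    obtain ⟨r, hr, rfl⟩ := List.mem_map.1 h3
    refine ⟨_, l, t, r, Nat.mod_lt _ ?_, List.mem_range.1 ht, hr, rfl⟩
    unfold ar
    positivity
  · simp at h2

theorem ct_mem_qD0 {e : Cell} (hj : e.j ≠ 0) {k : Key} (hk : k ∈ qD0 P e) :
    ∃ a r, a ≤ P.am ∧ r ∈ cands P a e.p ∧ k = kA e.j e.i a (r / wid P a) := by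
  unfold qD0 at hk
  rw [if_neg hj] at hk
  obtain ⟨u, hu, h1⟩ := List.mem_flatMap.1 hk
  obtain ⟨r, hr, rfl⟩ := List.mem_map.1 h1
  have h2 := List.mem_range.1 hu
  exact ⟨_, r, by unfold Par.am at h2 ⊢; omega, hr, rfl⟩

theorem ct_mem_qD {T : ℕ} {e : Cell} (he : Dom P e) {k : Key} (hk : k ∈ qD P T e) :
    ∃ c τ, Dom P c ∧ c.j ≤ e.j ∧ τ ≤ c.ka + P.h2 ∧ k = kU T c τ := by
  unfold qD at hk
  obtain ⟨c, hc, h1⟩ := List.mem_flatMap.1 hk
  obtain ⟨τ, hτ, rfl⟩ := List.mem_map.1 h1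
  have h2 := ct_near he hc
  exact ⟨c, τ, h2.1, h2.2, Nat.lt_succ_iff.1 (List.mem_range.1 hτ), rfl⟩

theorem ct_mem_qR {t : ℕ} {e : Cell} (he : Dom P e) {k : Key} (hk : k ∈ qR P t e) :
    ∃ c, Dom P c ∧ c.j ≤ e.j ∧ k = kD t c := by
  unfold qR at hk
  obtain ⟨c, hc, rfl⟩ := List.mem_map.1 hk
  rcases List.mem_cons.1 hc with rfl | hc
  · exact ⟨c, he, le_rfl, rfl⟩
  · exact ⟨c, (ct_near he hc).1, (ct_near he hc).2, rfl⟩

theorem ct_mem_qBox {T : ℕ} {l : List (Cell × ℕ)} {k : Key} (hk : k ∈ qBox T l) :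
    ∃ b ∈ l, k = kD T b.1 ∨ k = kH T b.1 b.2 := by
  unfold qBox at hk
  obtain ⟨b, hb, h1⟩ := List.mem_flatMap.1 hk
  exact ⟨b, hb, by simpa using h1⟩

/-- The history that the learner asks for. -/
def qHist (P : Par) (T : ℕ) (R : Cell → ℕ) (e : Cell) : List Key :=
  (List.range P.B).flatMap fun r => (tube P R e r).flatMap fun c =>
    kD T c :: (List.range (T - (P.ep T * P.m + 1))).flatMap fun u =>
      [kD (P.ep T * P.m + 1 + u) c,
        kH (P.ep T * P.m + 1 + u) (box P c (ta P R e r)) (ta P R e r),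
        kU (P.ep T * P.m + 1 + u) c (ta P R e r)]

theorem ct_mem_qHist {T : ℕ} {R : Cell → ℕ} {e : Cell} (he : Dom P e) (hj : e.j ≠ 0) {k : Key}
    (hk : k ∈ qHist P T R e) : ∃ t b, BoxOk P e.j b ∧
      ((t ≤ T ∧ k = kD t b.1) ∨ (t < T ∧ (k = kH t b.1 b.2 ∨ k = kU t b.1 b.2))) := by
  unfold qHist at hk
  obtain ⟨r, hr, h1⟩ := List.mem_flatMap.1 hk
  obtain ⟨c, hc, h2⟩ := List.mem_flatMap.1 h1
  have h3 := ct_tube he hj (List.mem_range.1 hr) hc
  rcases List.mem_cons.1 h2 with rfl | h2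
  · exact ⟨T, _, h3, Or.inl ⟨le_rfl, rfl⟩⟩
  · obtain ⟨u, hu, h4⟩ := List.mem_flatMap.1 h2
    have h5 := List.mem_range.1 hu
    have h6 : P.ep T * P.m + 1 + u < T := by omega
    simp only [List.mem_cons, List.not_mem_nil, or_false] at h4
    rcases h4 with rfl | rfl | rfl
    · exact ⟨_, _, h3, Or.inl ⟨h6.le, rfl⟩⟩
    · exact ⟨_, _, h3.box, Or.inr ⟨h6, Or.inl rfl⟩⟩
    · exact ⟨_, _, h3, Or.inr ⟨h6, Or.inr rfl⟩⟩

theorem ct_len_qHist (T : ℕ) (R : Cell → ℕ) (e : Cell) :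
    2 * (qHist P T R e).length ≤ 2 ^ P.lT := by
  have h1 : (qHist P T R e).length ≤ (List.range P.B).length * (2 ^ P.lnn * (4 * P.m)) := by
    refine ct_flat _ _ fun r _ => ?_
    refine (ct_flat (n := 4 * P.m) _ _ fun c _ => ?_).trans (Nat.mul_le_mul_right _ ?_)
    · have h2 := ct_flat (n := 3) (List.range (T - (P.ep T * P.m + 1))) (fun u =>
        [kD (P.ep T * P.m + 1 + u) c,
          kH (P.ep T * P.m + 1 + u) (box P c (ta P R e r)) (ta P R e r),
          kU (P.ep T * P.m + 1 + u) c (ta P R e r)]) fun _ _ => le_rfl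
      have h3 := ct_ep (P := P) T
      have h4 := vl_m_pos P
      rw [List.length_range] at h2
      rw [List.length_cons]
      omega
    · exact (List.length_filter_le _ _).trans (length_kids e r)
  rw [List.length_range] at h1
  have h2 : 2 * (P.B * (2 ^ P.lnn * (4 * P.m))) = 2 ^ (P.lb + P.lnn + P.lm + 3) := by
    unfold Par.B Par.m
    ring
  have h3 : 2 ^ (P.lb + P.lnn + P.lm + 3) ≤ 2 ^ P.lT :=
    ct_pw (by unfold Par.lT Par.lN Par.l1; omega)
  omega

theorem qU_one {sd : ℕ → ℕ} {t T : ℕ} {e : Cell} {τ : ℕ} (hT : ¬ T ≤ P.m)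
    (ha : adm P (oD o t) e τ = true) : qU P sd t T e τ 1 o =
      ((lBox P (oD o t) e).map fun b => kH T b.1 b.2) ++ qHist P T (oD o t) e := by
  unfold qU
  rw [if_neg (by norm_num), if_neg hT, if_pos ha, if_pos rfl]
  rfl

theorem ct_node_A {j i v : ℕ} (hn : Node P j i) (hv : v < ar P j) :
    Node P (j - P.ha) (i * ar P j + v) := by
  obtain ⟨h1, h2⟩ := hn
  refine ⟨by omega, ?_⟩
  have h3 : ar P j = P.B ^ min j P.ha := by
    unfold ar Par.B
    rw [← pow_mul]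
  have h4 : P.k - (j - P.ha) = P.k - j + min j P.ha := by omega
  rw [h4, pow_add, ← h3]
  calc i * ar P j + v < (i + 1) * ar P j := by rw [Nat.add_mul]; omega
    _ ≤ _ := Nat.mul_le_mul_right _ h2

theorem ct_wid {a : ℕ} (h : a ≤ P.am + P.k + 1) : wid P a ≤ 2 ^ (P.am + P.k + 1 - P.a0) :=
  ct_pw (by omega)

/-- The set of keys is closed. -/
theorem ct_closed {k : Key} (hk : OkK P k) {k' : Key} (h : k' ∈ qsF P S ph k o) : OkK P k' := by
  have hbox : ∀ {T j : ℕ} {l : List (Cell × ℕ)}, T ≤ P.Tend → (∀ b ∈ l, BoxOk P j b) →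
      k' ∈ qBox T l → OkK P k' := by
    intro T j l hT hl h
    obtain ⟨b, hb, rfl | rfl⟩ := ct_mem_qBox h
    · exact .d _ _ (hl b hb).1 hT
    · exact .h _ _ _ (hl b hb).1 hT (hl b hb).2.2
  have hqr : ∀ {T : ℕ} {e : Cell}, T ≤ P.Tend → ¬ T ≤ P.m → Dom P e →
      k' ∈ qR P (ref P S (P.ep T)) e → OkK P k' := by
    intro T e hT hm he h
    obtain ⟨c, hc, -, rfl⟩ := ct_mem_qR he h
    exact .d _ _ hc ((ct_ref S hm).le.trans hT)
  cases hk with
  | b i p hi hp => simp [qs_B] at h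
  | a j i a b hn ha hb =>
    rw [qs_A] at h
    split_ifs at h
    swap
    · simp at h
    by_cases hj : j = 0
    · subst hj
      obtain ⟨t, ht, rfl⟩ := ct_mem_qA0 h
      exact .b _ _ hn.2 ((ct_entry b ht).trans hb)
    · obtain ⟨v, l, t, r, hv, ht, hr, rfl⟩ := ct_mem_qA hj h
      have h1 := hn.1
      have h0 : 1 ≤ P.ha := by unfold Par.ha; omega
      refine .a _ _ _ _ (ct_node_A hn hv) (by omega) ((ct_cands hr).trans ?_)
      have h2 := (ct_entry b ht).trans hb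
      have h3 := ct_wid (P := P) (a := a + 1 - l) (by omega)
      have h4 : 4 * 2 ^ (P.am + P.k + 1 - P.a0) * (P.k - j + 1 + 1) ≤
          4 * 2 ^ (P.am + P.k + 1 - P.a0) * (P.k - (j - P.ha) + 1) :=
        Nat.mul_le_mul_left _ (by omega)
      rw [Nat.mul_add _ (P.k - j + 1)] at h4
      unfold pA at h2 ⊢
      omega
  | d T c hc hT =>
    rw [qs_D] at h
    split_ifs at h with h1 h2
    · by_cases hj : c.j = 0
      · unfold qD0 at h
        rw [if_pos hj, List.mem_singleton] at h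
        subst h
        have h3 := hc.i
        rw [hj] at h3
        exact .b _ _ h3 (hc.p.trans (ct_pmax_pA _))
      · obtain ⟨a, r, ha, hr, rfl⟩ := ct_mem_qD0 hj h
        refine .a _ _ _ _ ⟨hc.j, hc.i⟩ (by omega) ((ct_cands hr).trans ?_)
        have h3 := ct_wid (P := P) (a := a) (by omega)
        have h4 : 4 * 2 ^ (P.am + P.k + 1 - P.a0) * 1 ≤
            4 * 2 ^ (P.am + P.k + 1 - P.a0) * (P.k - c.j + 1) :=
          Nat.mul_le_mul_left _ (by omega)
        have h5 := hc.p.trans (ct_pmax _)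
        unfold pA
        omega
    · obtain ⟨a, τ, ha, -, hτ, rfl⟩ := ct_mem_qD hc h
      exact .u _ _ _ ha (by omega) hτ
    · simp at h
  | h T c τ hc hT hτ =>
    rw [qs_H] at h
    unfold qH at h
    split_ifs at h with h1 h2 h3 h4
    · simp at h
    · exact hqr hT h1 hc h
    · exact hbox hT (fun b hb => ct_sBox hc hb) h
    · simp at h
    · exact hbox hT (fun b hb => ct_chosen hc h4 hb) h
  | u T c τ hc hT hτ =>
    rw [qs_U] at h
    by_cases h0 : ph = 0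
    · unfold qU at h
      rw [if_pos h0] at h
      rcases List.mem_cons.1 h with rfl | h
      · exact .d _ _ hc hT
      rcases List.mem_cons.1 h with rfl | h
      · exact .h _ _ _ (hc.box τ) hT hτ
      split_ifs at h with h1
      · simp at h
      · exact hqr hT h1 hc h
    by_cases h1 : T ≤ P.m
    · simp [qU, h0, h1] at h
    by_cases h2 : adm P (oD o (ref P S (P.ep T))) c τ = true
    swap
    · simp [qU, h0, h1, h2] at h
    have hj := (adm_iff.1 h2).1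
    by_cases h3 : ph = 1
    · subst h3
      rw [qU_one h1 h2] at h
      rcases List.mem_append.1 h with h | h
      · obtain ⟨b, hb, rfl⟩ := List.mem_map.1 h
        have h4 := ct_lBox hc hj hb
        exact .h _ _ _ h4.1 hT h4.2.2
      · obtain ⟨t, b, hb, ⟨h4, rfl⟩ | ⟨h4, rfl | rfl⟩⟩ := ct_mem_qHist hc hj h
        · exact .d _ _ hb.1 (by omega)
        · exact .h _ _ _ hb.1 (by omega) hb.2.2
        · exact .u _ _ _ hb.1 (by omega) hb.2.2
    · unfold qU at h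
      rw [if_neg h0, if_neg h1, if_pos h2, if_neg h3] at h
      obtain ⟨r, hr, rfl⟩ := List.mem_map.1 h
      have hr' := List.mem_range.1 hr
      have h4 := fun v => ct_tube hc hj hr' (tc_mem ((adm_iff.1 h2).2.2.2.2.2 r hr') v)
      exact .u _ _ _ (h4 _).1 hT (h4 _).2.2
  | o =>
    rw [qs_O] at h
    split_ifs at h
    · obtain ⟨ka, hka, rfl⟩ := List.mem_map.1 h
      exact .d _ _ (dom_root (Nat.lt_succ_iff.1 (List.mem_range.1 hka))) le_rfl
    · simp at h

/-! ### Lengths -/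

theorem ct_l1_lT : 2 ^ P.l1 * 2 ^ P.l1 ≤ 2 ^ P.lT := by
  rw [← pow_add]
  have := ct_l1 (P := P)
  exact ct_pw (by unfold Par.lT; omega)

theorem ct_l1_lT' : 2 ^ P.l1 ≤ 2 ^ P.lT := by
  have := ct_l1 (P := P)
  exact ct_pw (by unfold Par.lT; omega)

theorem ct_len_qA (hP : P.Ok) (sd : ℕ → ℕ) (j i a b : ℕ) :
    (qA P sd j i a b).length ≤ 2 ^ P.lT := by
  by_cases hj : j = 0
  · subst hj
    unfold qA
    rw [if_pos rfl, List.length_map, List.length_range]
    have := ct_rs (P := P)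
    exact (ct_tlen a).trans ((ct_pw (by omega)).trans ct_l1_lT')
  · refine (length_qA hP sd hj i a b).trans ?_
    have h1 : P.LA + 1 ≤ 2 ^ P.LA := ct_le_pw le_rfl
    have h2 : 2 ^ (P.LA + 3 + P.nA) ≤ 2 ^ P.lT :=
      ct_pw (by unfold Par.lT Par.lN Par.l1 Par.lnn Par.lG Par.la1 Par.la0 Par.LA; omega)
    rw [pow_add, pow_add] at h2
    exact (Nat.mul_le_mul_right _ (by omega)).trans h2

theorem ct_len_qD0 (hP : P.Ok) (e : Cell) : (qD0 P e).length ≤ 2 ^ P.lT := by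
  unfold qD0
  split_ifs
  · exact Nat.one_le_two_pow
  · refine (ct_flat (n := 2 ^ P.l1) _ _ fun u _ => ?_).trans
      ((Nat.mul_le_mul_right _ ?_).trans ct_l1_lT)
    · rw [List.length_map]
      exact ct_len_cands _ _
    · have h1 := ct_km hP
      rw [List.length_range]
      unfold Par.km Par.la1 at h1
      unfold Par.am
      omega

theorem ct_len_qD (hP : P.Ok) (T : ℕ) {e : Cell} (he : Dom P e) :
    (qD P T e).length ≤ 2 ^ P.lT := by
  unfold qD
  refine (ct_flat (n := 2 ^ P.l1) _ _ fun c hc => ?_).trans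
    ((Nat.mul_le_mul_right _ ?_).trans ct_l1_lT)
  · have h1 := ct_km hP
    have h2 := (ct_near he hc).1.ka
    rw [List.length_map, List.length_range]
    omega
  · have := ct_len_near (P := P) e
    omega

theorem ct_len_qR (t : ℕ) (e : Cell) : (qR P t e).length + 2 ≤ 2 ^ P.lT := by
  have h1 := ct_len_near (P := P) e
  have h2 := ct_l1_lT' (P := P)
  unfold qR
  rw [List.length_map, List.length_cons]
  omega

theorem ct_len_qBox (hP : P.Ok) (T : ℕ) {l : List (Cell × ℕ)}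
    (hl : 8 * l.length ≤ 2 ^ (P.lb + P.lL)) : (qBox T l).length ≤ 2 ^ P.lT := by
  have h1 := ct_flat (n := 2) l (fun b => [kD T b.1, kH T b.1 b.2]) fun _ _ => le_rfl
  have h2 := ct_lL hP
  have h3 : 2 ^ (P.lb + P.lL) ≤ 2 ^ P.lT := ct_pw (by omega)
  unfold qBox
  omega

theorem ct_len (hP : P.Ok) {k : Key} (hk : OkK P k) : (qsF P S ph k o).length ≤ 2 ^ P.lT := by
  cases hk with
  | b i p hi hp => simp [qs_B]
  | a j i a b hn ha hb =>
    rw [qs_A]
    split_ifs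
    · exact ct_len_qA hP _ _ _ _ _
    · simp
  | d T c hc hT =>
    rw [qs_D]
    split_ifs
    · exact ct_len_qD0 hP _
    · exact ct_len_qD hP _ hc
    · simp
  | h T c τ hc hT hτ =>
    rw [qs_H]
    unfold qH
    split_ifs
    · simp
    · exact (Nat.le_add_right _ _).trans (ct_len_qR _ _)
    · exact ct_len_qBox hP _ (length_sBox hP _ _ _ _)
    · simp
    · exact ct_len_qBox hP _ (length_lBox hP _ _)
  | u T c τ hc hT hτ =>
    rw [qs_U]
    by_cases h0 : ph = 0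
    · unfold qU
      rw [if_pos h0, List.length_cons, List.length_cons]
      have h1 := ct_len_qR (P := P) (ref P S (P.ep T)) c
      split_ifs
      · rw [List.length_nil]
        omega
      · omega
    by_cases h1 : T ≤ P.m
    · simp [qU, h0, h1]
    by_cases h2 : adm P (oD o (ref P S (P.ep T))) c τ = true
    swap
    · simp [qU, h0, h1, h2]
    have h5 := ct_lL hP
    by_cases h3 : ph = 1
    · subst h3
      rw [qU_one h1 h2, List.length_append, List.length_map]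
      have h4 := length_lBox hP (oD o (ref P S (P.ep T))) c
      have h6 : 2 ^ (P.lb + P.lL) ≤ 2 ^ P.lT := ct_pw (by omega)
      have h7 := ct_len_qHist (P := P) T (oD o (ref P S (P.ep T))) c
      omega
    · unfold qU
      rw [if_neg h0, if_neg h1, if_pos h2, if_neg h3, List.length_map, List.length_range]
      exact ct_pw (by omega)
  | o =>
    rw [qs_O]
    split_ifs
    · rw [List.length_map, List.length_range]
      have h1 := ct_km hP
      have h2 := ct_l1_lT' (P := P)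
      omega
    · simp

end Vale.Agent.P315Z
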