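import Vale.Agent.P315Z.Base
import Vale.Agent.P315.H155.Auto

/-!
P315Z: the definitions of the almost linear algorithm.

The rows `0, …, B ^ k - 1` are the leaves of a `B`-ary tree; the node `(j, i)` consists of the rows
`i * B ^ j, …, (i + 1) * B ^ j - 1`. A cell is a node, a label `(ka, x)` (the interval from
`x * 2 ^ ka` to `(x + 3) * 2 ^ ka` with mesh `2 ^ (ka - lG)`), and two positions `p`, `q`.
All values are upper bounds for the cost of a path through the node from `p` to `q`.
-/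

set_option autoImplicit false

namespace Vale.Agent.P315Z

open Vale.Agent.P315.H155 (minD argminN)

/-- The parameters: two lengths and exponents. -/
structure Par where
  lx : ℕ
  ly : ℕ
  lb : ℕ
  k : ℕ
  lg : ℕ
  lc : ℕ
  lK : ℕ
  lS : ℕ
  lm : ℕ
  ne : ℕ
  hA : ℕ
  dl : ℕ
  le : ℕ
  lA : ℕ

namespace Par

variable (P : Par)

/-- arity of the tree -/
def B : ℕ := 2 ^ P.lb
/-- `K = 1 / σ` -/
def K : ℕ := 2 ^ P.lK
/-- range of the scales of the labels of children -/
def h : ℕ := P.lb + 1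
/-- `2 ^ h2 = B K` -/
def h2 : ℕ := P.lb + P.lK
/-- `2 ^ h3 = B K K` -/
def h3 : ℕ := P.lb + 2 * P.lK
/-- the product `B K` -/
def BK : ℕ := 2 ^ P.h2
/-- length of an epoch -/
def m : ℕ := 2 ^ P.lm
/-- inverse rate of the learner -/
def gd : ℕ := 2 ^ P.lg
/-- inverse cap -/
def capd : ℕ := 2 ^ P.lc
/-- number of levels of one step of the start algorithm -/
def ha : ℕ := P.hA + 1
/-- `2 ^ la0` is the approximation factor of the start values -/
def la0 : ℕ := P.lb * P.ha + P.dl
/-- `2 ^ la1` is the ratio of the scale of a label and the cost -/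
def la1 : ℕ := P.la0 + 2
/-- `2 ^ lG` mesh steps per scale -/
def lG : ℕ := P.la1 + P.dl + P.le
/-- `2 ^ lnn` bounds the number of cells of a child -/
def lnn : ℕ := 2 * P.lG + 2 * P.lb + 8
/-- precision of the learner -/
def l1 : ℕ := 2 * P.lnn + P.lm + P.lb + 6
/-- `2 ^ rs` entries of a table of the start algorithm -/
def rs : ℕ := P.lb * P.ha + P.dl + 3
/-- number of tents -/
def LA : ℕ := P.lb * P.ha + P.dl + 2
/-- the unit of the start algorithm is `1 / 2 ^ a0` -/
def a0 : ℕ := (P.k + 1) * P.LA + P.dl + 3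
/-- largest scale of the start values -/
def am : ℕ := P.a0 + P.lb * P.k + 2
/-- largest scale of a label -/
def km : ℕ := P.la1 + P.lb * P.k
/-- `2 ^ nH` samples for a box -/
def nH : ℕ := P.lS + P.lb
/-- `2 ^ nA` samples in the start algorithm -/
def nA : ℕ := P.lA + P.lb * P.ha
/-- `2 ^ lN` seeds in a block -/
def lN : ℕ := 4 * P.l1 + P.nH + P.nA
/-- number of seeds in a block -/
def NS : ℕ := 2 ^ P.lN
/-- the seeds are residues modulo `2 ^ lE` -/
def lE : ℕ := P.lb * P.ha + P.lm + 4 * P.l1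
/-- modulus of the seeds -/
def E : ℕ := 2 ^ P.lE
/-- number of blocks of seeds -/
def nb : ℕ := 3 * (P.ne + P.k + 2) ^ 2
/-- number of seeds -/
def N : ℕ := P.nb * P.NS
/-- last time -/
def Tend : ℕ := P.ne * P.m + 1
/-- start position -/
def s0 : ℕ := P.lx
/-- end position -/
def s1 : ℕ := P.ly
/-- `η = 1 / 2 ^ leta` is the accuracy of good nodes -/
def leta : ℕ := P.h3 + P.lg + 6
/-- epoch of a time: epoch `β ≥ 1` consists of the times `β m + 1, …, β m + m` -/
def ep (T : ℕ) : ℕ := (T - 1) / P.m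

end Par

/-- A cell: node `(j, i)`, label `(ka, x)`, end points `p`, `q`. -/
structure Cell where
  j : ℕ
  i : ℕ
  ka : ℕ
  x : ℕ
  p : ℕ
  q : ℕ
  deriving DecidableEq

/-! ### Lists of cells -/

/-- Minimum of a list (`0` for the empty list). -/
def minL (l : List ℕ) : ℕ := minD l (l.headD 0)

/-- An element of `l` with the least value of `f` (`d` for the empty list). -/
def argL {α : Type} (l : List α) (d : α) (f : α → ℕ) : α :=
  l.getD (argminN l.length fun i => f (l.getD i d)) d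

/-- The mesh of the labels of scale `ka`. -/
def mesh (P : Par) (ka : ℕ) : ℕ := 2 ^ (ka - P.lG)

/-- The grid points of a label. -/
def gpts (P : Par) (ka x : ℕ) : List ℕ :=
  (List.range (3 * 2 ^ min ka P.lG + 1)).map fun t => x * 2 ^ ka + t * mesh P ka

/-- The grid cells of a node and a label. -/
def cellsAt (P : Par) (j i ka x : ℕ) : List Cell :=
  (gpts P ka x).flatMap fun p => (gpts P ka x).map fun q => ⟨j, i, ka, x, p, q⟩

/-- The grid cells with the node and the label of `e`. -/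
def sibs (P : Par) (e : Cell) : List Cell := cellsAt P e.j e.i e.ka e.x

/-- The grid cells of child number `r` that are visible from the label of `e`. -/
def kids (P : Par) (e : Cell) (r : ℕ) : List Cell :=
  (List.range (min e.ka P.h + 1)).flatMap fun δ => (List.range (3 * 2 ^ δ + 2)).flatMap fun t =>
    cellsAt P (e.j - 1) (e.i * P.B + r) (e.ka - δ) (e.x * 2 ^ δ - 1 + t)

/-- The trivial bound. -/
def triv (P : Par) (e : Cell) : ℕ := Nat.dist e.p e.q + P.B ^ e.j

/-! ### The dynamic programme over the children -/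

/-- Least cost to reach `s` from a table of (position, cost). -/
def ev (tab : List (ℕ × ℕ)) (s : ℕ) : ℕ := minL (tab.map fun a => a.2 + Nat.dist a.1 s)

/-- One row; the entries of `row` are (start, end, cost). -/
def dpStep (tab : List (ℕ × ℕ)) (row : List (ℕ × ℕ × ℕ)) : List (ℕ × ℕ) :=
  row.map fun c => (c.2.1, ev tab c.1 + c.2.2)

/-- All rows, from the position `p`. -/
def dpTab (p : ℕ) (rows : List (List (ℕ × ℕ × ℕ))) : List (ℕ × ℕ) := rows.foldl dpStep [(p, 0)]

/-- Least cost from `e.p` through cells of the first `r` children (values `val`) to `s`. -/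
def phi (P : Par) (val : Cell → ℕ) (e : Cell) (r s : ℕ) : ℕ :=
  ev (dpTab e.p ((List.range r).map fun r' => (kids P e r').map fun c => (c.p, c.q, val c))) s

/-- The best dressed value of a cell. -/
def ubest (P : Par) (U : Cell → ℕ → ℕ) (c : Cell) : ℕ :=
  minL ((List.range (c.ka + P.h2 + 1)).map fun τ => U c τ)

/-- The next undressed value. -/
def dstep (P : Par) (U : Cell → ℕ → ℕ) (e : Cell) : ℕ :=
  min (minD ((sibs P e).map fun c => ubest P U c + Nat.dist c.p e.p + Nat.dist c.q e.q) (triv P e))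
    (if e.j = 0 then triv P e else phi P (ubest P U) e P.B e.q)

/-! ### The predicted line of a cell, for the reference values `R` -/

/-- The predicted position after `r` children. -/
def st (P : Par) (R : Cell → ℕ) (e : Cell) (r : ℕ) : ℕ :=
  if r = 0 then e.p else if P.B ≤ r then e.q else
    argL ((kids P e (r - 1)).map fun c => c.q) 0 fun s =>
      Nat.dist (phi P R e P.B e.q * s + e.p * phi P R e r s)
        (phi P R e P.B e.q * e.p + e.q * phi P R e r s)

/-- The weight of child `r`, in the unit `1 / (B K)`. -/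
def wt (P : Par) (R : Cell → ℕ) (e : Cell) (r : ℕ) : ℕ :=
  P.BK * (phi P R e (r + 1) (st P R e (r + 1)) - phi P R e r (st P R e r)) + R e

/-- The dress of child `r`. -/
def ta (P : Par) (R : Cell → ℕ) (e : Cell) (r : ℕ) : ℕ := Nat.clog 2 (wt P R e r)

/-- The radius of the tube. -/
def rad (P : Par) (R : Cell → ℕ) (e : Cell) : ℕ := R e / 2 ^ (P.h3 + 1)

/-- The cells of child `r` in the tube. -/
def tube (P : Par) (R : Cell → ℕ) (e : Cell) (r : ℕ) : List Cell :=
  (kids P e r).filter fun c => decide (ta P R e r ≤ c.ka + P.h2) &&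
    decide (Nat.dist c.p (st P R e r) ≤ rad P R e) &&
    decide (Nat.dist c.q (st P R e (r + 1)) ≤ rad P R e) &&
    decide (P.BK * R c ≤ wt P R e r) && decide (P.BK * Nat.dist c.p c.q ≤ wt P R e r)

/-- The cell `e` is admissible for the dress `τ`. -/
def adm (P : Par) (R : Cell → ℕ) (e : Cell) (τ : ℕ) : Bool :=
  decide (e.j ≠ 0) && decide (2 ^ τ ≤ 8 * (P.BK * R e)) && decide (P.BK * R e ≤ 2 ^ τ) &&
    decide (((List.range P.B).map fun r => wt P R e r).sum ≤ P.BK * R e + 3 * (P.B * R e)) &&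
    ((List.range P.B).all fun r => decide (Nat.dist (st P R e r) e.p ≤ 2 * R e)) &&
    ((List.range P.B).all fun r => !(tube P R e r).isEmpty)

/-! ### Boxes -/

/-- The width of the boxes of dress `τ`. -/
def om (P : Par) (τ : ℕ) : ℕ := 2 ^ (τ - P.h3)

/-- The corner of the box of `c`. -/
def box (P : Par) (c : Cell) (τ : ℕ) : Cell :=
  ⟨c.j, c.i, c.ka, c.x, c.p - c.p % om P τ, c.q - c.q % om P τ⟩

/-- The hint. -/
def hint (P : Par) (D : Cell → ℕ) (H : Cell → ℕ → ℕ) (c : Cell) (τ : ℕ) : ℕ :=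
  min (D c) (H (box P c τ) τ)

/-- The cost of the predicted line of `e` in child `r`. -/
def yv (P : Par) (R D : Cell → ℕ) (H : Cell → ℕ → ℕ) (e : Cell) (r : ℕ) : ℕ :=
  minL ((tube P R e r).map fun c =>
    min (D (box P c (ta P R e r))) (H (box P c (ta P R e r)) (ta P R e r)) +
      Nat.dist (st P R e r) (box P c (ta P R e r)).p +
      Nat.dist (box P c (ta P R e r)).q (st P R e (r + 1)))

/-- The cost of the predicted line. -/
def zv (P : Par) (R D : Cell → ℕ) (H : Cell → ℕ → ℕ) (e : Cell) : ℕ :=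
  ((List.range P.B).map fun r => yv P R D H e r).sum

/-- The estimate of `2 ^ lS` times the cost of the predicted line. -/
def est (P : Par) (sd : ℕ → ℕ) (R D : Cell → ℕ) (H : Cell → ℕ → ℕ) (τ : ℕ) (e : Cell) : ℕ :=
  strat P.nH (P.h2 + 5) P.B sd fun l r =>
    if l = τ + 1 - ta P R e r then yv P R D H e r else 0

/-- The admissible cells of the box with corner `c`. -/
def fam (P : Par) (R : Cell → ℕ) (c : Cell) (τ : ℕ) : List Cell :=
  (sibs P c).filter fun e => decide ((box P e τ).p = c.p) && decide ((box P e τ).q = c.q) &&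
    adm P R e τ

/-- The chosen line of a box. -/
def chosen (P : Par) (sd : ℕ → ℕ) (R D : Cell → ℕ) (H : Cell → ℕ → ℕ) (c : Cell) (τ : ℕ) : Cell :=
  argL (fam P R c τ) c (est P sd R D H τ)

/-- The value of a box at time `T`. -/
def hbody (P : Par) (sd : ℕ → ℕ) (T : ℕ) (R D : Cell → ℕ) (H : Cell → ℕ → ℕ) (c : Cell) (τ : ℕ) :
    ℕ :=
  if T ≤ P.m then triv P c + 2 * (om P τ - 1)
  else if (fam P R c τ).isEmpty then triv P c + 2 * (om P τ - 1)
  else min (triv P c) (zv P R D H (chosen P sd R D H c τ)) + 2 * (om P τ - 1)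

/-! ### Lanes -/

/-- Number of nodes of a layer. -/
def nnode (P : Par) (R : Cell → ℕ) (e : Cell) : ℕ :=
  ((List.range P.B).map fun r => (tube P R e r).length).foldl max 1

/-- The cell of node `u` in row `r`. -/
def tc (P : Par) (R : Cell → ℕ) (e : Cell) (r u : ℕ) : Cell :=
  (tube P R e r).getD u ((tube P R e r).headD e)

/-- The cost of an edge of row `r ≤ B` for the dressed values `f`. -/
def ecost (P : Par) (R : Cell → ℕ) (e : Cell) (f : Cell → ℕ → ℕ) (r u v : ℕ) : ℕ :=
  if r < P.B then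
    Nat.dist (if r = 0 then e.p else (tc P R e (r - 1) u).q) (tc P R e r v).p +
      f (tc P R e r v) (ta P R e r)
  else Nat.dist (tc P R e (r - 1) u).q e.q

/-- The weights of the rows. -/
def rowW (P : Par) (R : Cell → ℕ) (e : Cell) (r : ℕ) : ℕ := if r < P.B then wt P R e r else R e

/-- The picks at time `T`; the epoch begins at time `ep T * m + 1`. -/
def picks (P : Par) (T : ℕ) (R : Cell → ℕ) (D : ℕ → Cell → ℕ) (H U : ℕ → Cell → ℕ → ℕ)
    (e : Cell) : List (List ℕ) :=
  lanes P.l1 (P.B + 1) (nnode P R e) P.BK P.capd P.gd (P.BK * R e + 3 * (P.B * R e)) (rowW P R e)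
    (fun t => ecost P R e (hint P (D (P.ep T * P.m + 1 + t)) (H (P.ep T * P.m + 1 + t))))
    (fun t => ecost P R e (U (P.ep T * P.m + 1 + t))) (T - (P.ep T * P.m + 1))

/-- The chosen path. -/
def lanePath (P : Par) (sd : ℕ → ℕ) (T : ℕ) (R : Cell → ℕ) (D : ℕ → Cell → ℕ)
    (H U : ℕ → Cell → ℕ → ℕ) (e : Cell) : List ℕ :=
  (picks P T R D H U e).getD (sd 0 % 2 ^ (4 * P.l1)) []

/-- The cost of the chosen path. -/
def lane (P : Par) (sd : ℕ → ℕ) (T : ℕ) (R : Cell → ℕ) (D : ℕ → Cell → ℕ)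
    (H U : ℕ → Cell → ℕ → ℕ) (e : Cell) : ℕ :=
  pcost (P.B + 1) (ecost P R e (U T)) fun r => (lanePath P sd T R D H U e).getD r 0

/-- The dressed value at time `T`. -/
def ubody (P : Par) (sd : ℕ → ℕ) (T : ℕ) (R : Cell → ℕ) (D : ℕ → Cell → ℕ)
    (H U : ℕ → Cell → ℕ → ℕ) (e : Cell) (τ : ℕ) : ℕ :=
  if T ≤ P.m then hint P (D T) (H T) e τ
  else if adm P R e τ then
    min (hint P (D T) (H T) e τ)
      (max (lane P sd T R D H U e) (H T (box P e τ) τ - R e / P.capd))
  else hint P (D T) (H T) e τ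

/-! ### The start values -/

/-- Width of a table of scale `a`. -/
def wid (P : Par) (a : ℕ) : ℕ := 2 ^ (a - P.a0)

/-- Mesh of a table of scale `a`. -/
def res (P : Par) (a : ℕ) : ℕ := 2 ^ (a - P.a0 - P.rs)

/-- Number of entries of a table of scale `a`. -/
def tlen (P : Par) (a : ℕ) : ℕ := 2 ^ min (a - P.a0) P.rs

/-- The entry for the position `r` (`A` gives the table of a block). -/
def fa (P : Par) (A : ℕ → List ℕ) (a r : ℕ) : ℕ :=
  (A (r / wid P a)).getD (r % wid P a / res P a) 0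

/-- The candidates for a shift of the position `s`. -/
def cands (P : Par) (a s : ℕ) : List ℕ :=
  (List.range (2 * tlen P a + 2)).map fun t => ((s - wid P a) / res P a + t) * res P a

/-- The estimate with the best shift. -/
def zh (P : Par) (A : ℕ → List ℕ) (a s : ℕ) : ℕ :=
  minD ((cands P a s).map fun r => fa P A a r + 2 * (2 ^ P.a0 * Nat.dist r s)) (2 ^ a)

/-- The tent number `l` for the scale `a`. -/
def tent (a l y : ℕ) : ℕ := min y (2 ^ (a - l)) - min y (2 ^ (a - l - 1))

/-- Number of children in the start algorithm. -/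
def ar (P : Par) (j : ℕ) : ℕ := 2 ^ (P.lb * min j P.ha)

/-- The table of the node `(j, i)`, scale `a`, block `b`. -/
def abody (P : Par) (sd : ℕ → ℕ) (c : ℕ → ℕ → ℕ) (A : ℕ → ℕ → ℕ → ℕ → List ℕ) (j i a b : ℕ) :
    List ℕ :=
  (List.range (tlen P a)).map fun t => min (2 ^ a)
    (if j = 0 then 2 ^ P.a0 * c i (b * wid P a + t * res P a)
    else strat P.nA P.LA (ar P j) sd (fun l r => tent a l
      (zh P (A (j - P.ha) (i * ar P j + r) (a + 1 - l)) (a + 1 - l) (b * wid P a + t * res P a))) /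
        2 ^ (P.nA - P.lb * min j P.ha))

/-- The start value of a cell. -/
def d0body (P : Par) (c : ℕ → ℕ → ℕ) (A : ℕ → ℕ → ℕ → ℕ → List ℕ) (e : Cell) : ℕ :=
  if e.j = 0 then leafc c e.i e.p e.q
  else minD (((List.range (P.am - P.a0 + 1)).filter fun u =>
      decide (2 * zh P (A e.j e.i (P.a0 + u)) (P.a0 + u) e.p ≤ 2 ^ (P.a0 + u))).map fun u =>
    Nat.dist e.p e.q + (2 ^ u - 1)) (triv P e)

/-! ### The system of equations -/

/-- The root cell of scale `ka`. -/
def rootCell (P : Par) (ka : ℕ) : Cell := ⟨P.k, 0, ka, P.s0 / 2 ^ ka - 1, P.s0, P.s1⟩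

/-- The output. -/
def outv (P : Par) (D : Cell → ℕ) : ℕ :=
  minL ((List.range (P.km + 1)).map fun ka => D (rootCell P ka))

/-- Block number `b` of the seeds. -/
def blk (P : Par) (S : ℕ → ℕ) (b : ℕ) : ℕ → ℕ := fun i => S (b * P.NS + i % P.NS)

/-- The block of the start algorithm at level `j`. -/
def bA (j : ℕ) : ℕ := 3 * j

/-- The block of the reference time of epoch `β`. -/
def bR (β : ℕ) : ℕ := 3 * β + 1

/-- The block of epoch `β` and level `j`. -/
def bM (β j : ℕ) : ℕ := 3 * Nat.pair β j + 2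

/-- The reference time of epoch `β`: uniform in the epoch before. -/
def ref (P : Par) (S : ℕ → ℕ) (β : ℕ) : ℕ := (β - 1) * P.m + 1 + blk P S (bR β) 0 % P.m

/-- A solution of the recursion for the seeds `S` and the costs `c` of the diagonal steps. -/
structure Sys (P : Par) (S : ℕ → ℕ) (c : ℕ → ℕ → ℕ) where
  A : ℕ → ℕ → ℕ → ℕ → List ℕ
  D : ℕ → Cell → ℕ
  H : ℕ → Cell → ℕ → ℕ
  U : ℕ → Cell → ℕ → ℕ
  eqA : ∀ j i a b, A j i a b = abody P (blk P S (bA j)) c A j i a b
  eqD0 : ∀ e, D 0 e = d0body P c A e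
  eqD : ∀ T e, D (T + 1) e = dstep P (U T) e
  eqH : ∀ T e τ, H T e τ =
    hbody P (blk P S (bM (P.ep T) e.j)) T (D (ref P S (P.ep T))) (D T) (H T) e τ
  eqU : ∀ T e τ, U T e τ =
    ubody P (blk P S (bM (P.ep T) e.j)) T (D (ref P S (P.ep T))) D H U e τ

/-- A solution for every sequence of seeds, with the dependence on the blocks. -/
structure Fam (P : Par) (c : ℕ → ℕ → ℕ) where
  sys : ∀ S, Sys P S c
  depA : ∀ S S' j, (∀ j' ≤ j, blk P S (bA j') = blk P S' (bA j')) →
    ∀ j' ≤ j, (sys S).A j' = (sys S').A j'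
  depM : ∀ S S' β j, (∀ j', blk P S (bA j') = blk P S' (bA j')) →
    (∀ β' ≤ β, blk P S (bR β') = blk P S' (bR β')) →
    (∀ β' ≤ β, ∀ j' ≤ j, blk P S (bM β' j') = blk P S' (bM β' j')) →
    ∀ T, P.ep T ≤ β → ∀ e : Cell, e.j ≤ j →
      (sys S).D T e = (sys S').D T e ∧ (sys S).D (T + 1) e = (sys S').D (T + 1) e ∧
      (sys S).H T e = (sys S').H T e ∧ (sys S).U T e = (sys S').U T e

/-! ### The domain -/

/-- Bound for the positions at level `j`. -/
def pmax (P : Par) (j : ℕ) : ℕ := P.lx + P.ly + 4 * 2 ^ P.km * (P.k - j + 1)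

/-- The cells that are reached from the root. -/
structure Dom (P : Par) (e : Cell) : Prop where
  j : e.j ≤ P.k
  i : e.i < P.B ^ (P.k - e.j)
  ka : e.ka ≤ P.km
  x : (e.x + 3) * 2 ^ e.ka ≤ pmax P e.j
  p : e.p ≤ pmax P e.j
  q : e.q ≤ pmax P e.j

/-- The value of a potential on a cell. -/
def cv (P : Par) (V : ℕ → ℕ → ℕ → ℕ → ℕ) (e : Cell) : ℕ :=
  V (e.i * P.B ^ e.j) ((e.i + 1) * P.B ^ e.j) e.p e.q

end Vale.Agent.P315Z
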