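import Vale.Agent.P315.RAM.Inst
import Vale.Agent.P315.H155.Auto

/-! P315Z: a recursion without memory, run by a stack machine. A key asks for the values of other
keys in three phases and then computes its own value. -/

set_option autoImplicit false

namespace Vale.Agent.P315Z

open Vale.Agent.P315 Vale.Agent.P315.RAM
open Vale.Agent.Lib.PolyTime (PT PBd Enc esize)

/-- A recursion scheme: `A` parameters, `K` keys, values are lists of numbers. -/
structure Mach (A K : Type) where
  /-- the external query of a key -/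
  ext : A → K → ℕ
  /-- the keys asked for in phase `0`, `1`, `2` -/
  qs : A → ℕ → K → (K → List ℕ) → List K
  /-- the value, given the answer to the external query -/
  body : A → K → ℕ → (K → List ℕ) → List ℕ
  /-- the rank (not computed) -/
  rank : A → K → ℕ

variable {A K : Type} [DecidableEq K]

/-- Locality and well-foundedness. -/
structure Mach.Wf (M : Mach A K) (a : A) : Prop where
  rank_lt : ∀ ph k o, ph < 3 → ∀ k' ∈ M.qs a ph k o, M.rank a k' < M.rank a k
  loc_qs : ∀ ph k o o', ph < 3 → (∀ ph' < ph, ∀ k' ∈ M.qs a ph' k o, o k' = o' k') →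
    M.qs a ph k o = M.qs a ph k o'
  loc_body : ∀ k b o o', (∀ ph < 3, ∀ k' ∈ M.qs a ph k o, o k' = o' k') →
    M.body a k b o = M.body a k b o'

/-- The values, by recursion on the rank; `bit` answers the external queries. -/
noncomputable def Mach.val (M : Mach A K) (a : A) (bit : ℕ → ℕ) (k : K) : List ℕ :=
  M.body a k (bit (M.ext a k)) fun k' =>
    if _h : M.rank a k' < M.rank a k then M.val a bit k' else []
termination_by M.rank a k

omit [DecidableEq K] in
/-- The fixed point equation. -/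
theorem Mach.val_eq (M : Mach A K) {a : A} (h : M.Wf a) (bit : ℕ → ℕ) (k : K) :
    M.val a bit k = M.body a k (bit (M.ext a k)) (M.val a bit) := by
  rw [Mach.val]
  refine h.loc_body k _ _ _ fun ph hph k' hk' => ?_
  rw [dif_pos (h.rank_lt ph k _ hph k' hk')]

omit [DecidableEq K] in
/-- Dependence on the parameters: on a closed set of keys on which two parameters give the same
scheme, the values agree. -/
theorem Mach.val_dep (M : Mach A K) {a a' : A} (h : M.Wf a) (h' : M.Wf a') (bit : ℕ → ℕ)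
    (R : K → Prop) (hR : ∀ k, R k → ∀ ph < 3, ∀ o, ∀ k' ∈ M.qs a ph k o, R k')
    (hext : ∀ k, R k → M.ext a k = M.ext a' k)
    (hbody : ∀ k, R k → ∀ b o, M.body a k b o = M.body a' k b o) :
    ∀ k, R k → M.val a bit k = M.val a' bit k := by
  intro k
  induction hn : M.rank a k using Nat.strong_induction_on generalizing k with
  | _ n ih =>
    intro hk
    rw [M.val_eq h, M.val_eq h', ← hext k hk, ← hbody k hk]
    refine h.loc_body k _ _ _ fun ph hph k' hk' => ?_
    exact ih _ (hn ▸ h.rank_lt ph k _ hph k' hk') k' rfl (hR k hk ph hph _ k' hk')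

/-- Lookup in a list of answers. -/
def look (l : List (K × List ℕ)) (k : K) : List ℕ :=
  ((l.find? fun p => decide (p.1 = k)).map Prod.snd).getD []

/-- A frame: key, phase, pending keys, answers so far. -/
abbrev Frame (K : Type) := K × ℕ × List K × List (K × List ℕ)

/-- A state: parameters, stack, result. -/
abbrev MState (A K : Type) := A × List (Frame K) × List ℕ

/-- A new frame. -/
def Mach.frame (M : Mach A K) (a : A) (k : K) : Frame K := (k, 0, M.qs a 0 k (look []), [])

/-- One step, given the answer `b` to the external query of the top key. -/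
def Mach.step (M : Mach A K) (b : ℕ) (s : MState A K) : MState A K :=
  match s.2.1 with
  | [] => s
  | F :: st =>
    match F.2.2.1 with
    | k' :: rest => (s.1, M.frame s.1 k' :: (F.1, F.2.1, rest, F.2.2.2) :: st, s.2.2)
    | [] =>
      if F.2.1 < 2 then
        (s.1, (F.1, F.2.1 + 1, M.qs s.1 (F.2.1 + 1) F.1 (look F.2.2.2), F.2.2.2) :: st, s.2.2)
      else
        match st with
        | [] => (s.1, [], M.body s.1 F.1 b (look F.2.2.2))
        | G :: st' => (s.1, (G.1, G.2.1, G.2.2.1,
            (F.1, M.body s.1 F.1 b (look F.2.2.2)) :: G.2.2.2) :: st', s.2.2)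

/-- The external query of a state. -/
def Mach.ask (M : Mach A K) (s : MState A K) : ℕ :=
  match s.2.1 with
  | [] => 0
  | F :: _ => M.ext s.1 F.1

theorem Mach.pt_frame [Enc A] [Enc K] (M : Mach A K)
    (hqs : PT ∅ fun p : A × ℕ × K × List (K × List ℕ) =>
      M.qs p.1 p.2.1 p.2.2.1 (look p.2.2.2)) {α : Type} [Enc α] {a : α → A} {k : α → K}
    (ha : PT ∅ a) (hk : PT ∅ k) : PT ∅ fun x => M.frame (a x) (k x) :=
  PT.pair hk (PT.pair (PT.const 0) (PT.pair
    (hqs.comp (PT.pair ha (PT.pair (PT.const 0) (PT.pair hk (PT.const []))))) (PT.const [])))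

omit [DecidableEq K] in
theorem Mach.pt_ask [Enc A] [Enc K] (M : Mach A K)
    (hext : PT ∅ fun p : A × K => M.ext p.1 p.2) : PT ∅ (M.ask : MState A K → ℕ) := by
  refine (PT.listCase (l := fun s : MState A K => s.2.1) (f := fun _ => 0)
    (g := fun s F _ => M.ext s.1 F.1) PT.snd'.fst (PT.const 0)
    (hext.comp (PT.pair PT.fst'.fst PT.snd'.fst.fst))).congr fun s => ?_
  rcases s with ⟨a, _ | ⟨F, st⟩, r⟩ <;> rfl

theorem Mach.pt_step [Enc A] [Enc K] (M : Mach A K)
    (hqs : PT ∅ fun p : A × ℕ × K × List (K × List ℕ) =>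
      M.qs p.1 p.2.1 p.2.2.1 (look p.2.2.2))
    (hbody : PT ∅ fun p : A × K × ℕ × List (K × List ℕ) =>
      M.body p.1 p.2.1 p.2.2.1 (look p.2.2.2)) :
    PT ∅ fun p : ℕ × MState A K => M.step p.1 p.2 := by
  have hb : PT ∅ fun x : (ℕ × MState A K) × Frame K × List (Frame K) =>
      M.body x.1.2.1 x.2.1.1 x.1.1 (look x.2.1.2.2.2) :=
    hbody.comp (f := fun x : (ℕ × MState A K) × Frame K × List (Frame K) =>
      (x.1.2.1, x.2.1.1, x.1.1, x.2.1.2.2.2)) (by fun_prop)
  have hq : PT ∅ fun x : (ℕ × MState A K) × Frame K × List (Frame K) =>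
      M.qs x.1.2.1 (x.2.1.2.1 + 1) x.2.1.1 (look x.2.1.2.2.2) :=
    hqs.comp (f := fun x : (ℕ × MState A K) × Frame K × List (Frame K) =>
      (x.1.2.1, x.2.1.2.1 + 1, x.2.1.1, x.2.1.2.2.2)) (by fun_prop)
  have hb' := hb.comp (PT.fst' (A := ∅) (β := Frame K × List (Frame K)))
  have h3 := PT.listCase (l := fun x : (ℕ × MState A K) × Frame K × List (Frame K) => x.2.2)
    (g := fun x G st' => ((x.1.2.1, (G.1, G.2.1, G.2.2.1,
      (x.2.1.1, M.body x.1.2.1 x.2.1.1 x.1.1 (look x.2.1.2.2.2)) :: G.2.2.2) :: st',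
      x.1.2.2.2) : MState A K)) PT.snd'.snd
    (PT.pair PT.fst'.snd.fst (PT.pair (PT.const []) hb))
    (PT.pair PT.fst'.fst.snd.fst (PT.pair (PT.cons (PT.pair PT.snd'.fst.fst
      (PT.pair PT.snd'.fst.snd.fst (PT.pair PT.snd'.fst.snd.snd.fst
        (PT.cons (PT.pair PT.fst'.snd.fst.fst hb') PT.snd'.fst.snd.snd.snd)))) PT.snd'.snd)
      PT.fst'.fst.snd.snd.snd))
  have h2 := PT.ite (p := fun x : (ℕ × MState A K) × Frame K × List (Frame K) => x.2.1.2.1 < 2)
    (f := fun x => ((x.1.2.1, (x.2.1.1, x.2.1.2.1 + 1,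
      M.qs x.1.2.1 (x.2.1.2.1 + 1) x.2.1.1 (look x.2.1.2.2.2), x.2.1.2.2.2) :: x.2.2,
      x.1.2.2.2) : MState A K)) (PT.lt PT.snd'.fst.snd.fst (PT.const 2))
    (PT.pair PT.fst'.snd.fst (PT.pair (PT.cons (PT.pair PT.snd'.fst.fst
      (PT.pair (PT.add PT.snd'.fst.snd.fst (PT.const 1)) (PT.pair hq PT.snd'.fst.snd.snd.snd)))
      PT.snd'.snd) PT.fst'.snd.snd.snd)) h3
  have h1 := PT.listCase
    (l := fun x : (ℕ × MState A K) × Frame K × List (Frame K) => x.2.1.2.2.1)
    (g := fun x k' rest => ((x.1.2.1, M.frame x.1.2.1 k' ::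
      (x.2.1.1, x.2.1.2.1, rest, x.2.1.2.2.2) :: x.2.2, x.1.2.2.2) : MState A K))
    PT.snd'.fst.snd.snd.fst h2
    (PT.pair PT.fst'.fst.snd.fst (PT.pair (PT.cons (M.pt_frame hqs PT.fst'.fst.snd.fst PT.snd'.fst)
      (PT.cons (PT.pair PT.fst'.snd.fst.fst (PT.pair PT.fst'.snd.fst.snd.fst
        (PT.pair PT.snd'.snd PT.fst'.snd.fst.snd.snd.snd))) PT.fst'.snd.snd))
      PT.fst'.fst.snd.snd.snd))
  refine (PT.listCase (l := fun p : ℕ × MState A K => p.2.2.1) (f := fun p => p.2)
    (g := fun p F st => M.step p.1 (p.2.1, F :: st, p.2.2.2)) PT.snd'.snd.fst PT.snd'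
    (h1.congr ?_)).congr ?_
  · rintro ⟨⟨b, a, st0, r⟩, ⟨k, ph, _ | ⟨k', rest⟩, an⟩, st⟩
    · rcases st with _ | ⟨G, st⟩ <;> rfl
    · rfl
  · rintro ⟨b, a, _ | ⟨F, st⟩, r⟩ <;> rfl

/-- The strategy of a scheme: `par` reads the parameters off the feed, `root` is the first key. -/
def Mach.strat [Enc A] [Enc K] (M : Mach A K) (par : List ℕ → A) (root : A → K)
    (hpar : PT ∅ par) (hroot : PT ∅ root)
    (heq : PT ∅ fun p : K × K => decide (p.1 = p.2))
    (hext : PT ∅ fun p : A × K => M.ext p.1 p.2)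
    (hqs : PT ∅ fun p : A × ℕ × K × List (K × List ℕ) =>
      M.qs p.1 p.2.1 p.2.2.1 (look p.2.2.2))
    (hbody : PT ∅ fun p : A × K × ℕ × List (K × List ℕ) =>
      M.body p.1 p.2.1 p.2.2.1 (look p.2.2.2)) : Strat (MState A K) where
  start := fun f => (par f, [M.frame (par f) (root (par f))], [])
  ask := M.ask
  upd := fun p => M.step p.1 p.2
  out := fun s => s.2.2.headD 0
  pt_start := PT.pair hpar (PT.pair (PT.cons (M.pt_frame hqs hpar (hroot.comp hpar)) (PT.const []))
    (PT.const []))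
  pt_ask := M.pt_ask hext
  pt_upd := M.pt_step hqs hbody
  pt_out := PT.headD PT.snd'.snd (PT.const 0)

/-- Polynomial time of the lookup, in the form used by `fun_prop`. -/
@[fun_prop]
theorem PT_look {α : Type} [Enc α] [Enc K] (heq : PT ∅ fun p : K × K => decide (p.1 = p.2))
    {l : α → List (K × List ℕ)} {k : α → K} (hl : PT ∅ l) (hk : PT ∅ k) :
    PT ∅ fun a => look (l a) (k a) := by
  unfold look
  refine PT.optGetD (H155.PT_optMap (g := fun _ (p : K × List ℕ) => p.2)
    (PT.find? (f := fun a (p : K × List ℕ) => decide (p.1 = k a)) hl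
      (heq.comp (PT.pair PT.snd'.fst (hk.comp PT.fst')))) PT.snd'.snd) (PT.const [])

/-- Bounds for the run from the key `k0`: `Ok` is closed under the queries, `W` bounds the number
of steps, `KB`, `VB`, `LB` the sizes of keys and values and the number of queries of a key. -/
structure Mach.Bounds [Enc K] (M : Mach A K) (a : A) (bit : ℕ → ℕ) (Ok : K → Prop) (W : K → ℕ)
    (KB VB LB Vb : ℕ) : Prop where
  closed : ∀ k, Ok k → ∀ ph < 3, ∀ k' ∈ M.qs a ph k (M.val a bit), Ok k'
  weight : ∀ k, Ok k → 3 + ((List.range 3).map fun ph =>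
    ((M.qs a ph k (M.val a bit)).map fun k' => 1 + W k').sum).sum ≤ W k
  key : ∀ k, Ok k → esize k ≤ KB
  value : ∀ k, Ok k → esize (M.val a bit k) ≤ VB
  len : ∀ k, Ok k → ∀ ph < 3, (M.qs a ph k (M.val a bit)).length ≤ LB
  ext : ∀ k, Ok k → M.ext a k < Vb

/-- `s'` is reached from `s` in `n` steps through states with the property `P`. -/
def MReach {σ : Type} (f : σ → σ) (P : σ → Prop) (s : σ) (n : ℕ) (s' : σ) : Prop :=
  f^[n] s = s' ∧ ∀ j < n, P (f^[j] s)

theorem MReach.zero {σ : Type} {f : σ → σ} {P : σ → Prop} (s : σ) : MReach f P s 0 s :=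
  ⟨rfl, fun _ h => absurd h (Nat.not_lt_zero _)⟩

theorem MReach.one {σ : Type} {f : σ → σ} {P : σ → Prop} {s s' : σ} (h : P s) (e : f s = s') :
    MReach f P s 1 s' :=
  ⟨e, fun j hj => by obtain rfl : j = 0 := by omega
                     exact h⟩

theorem MReach.trans {σ : Type} {f : σ → σ} {P : σ → Prop} {s s' s'' : σ} {n m : ℕ}
    (h : MReach f P s n s') (h' : MReach f P s' m s'') : MReach f P s (n + m) s'' := by
  refine ⟨by rw [Nat.add_comm, Function.iterate_add_apply, h.1, h'.1], fun j hj => ?_⟩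
  by_cases hc : j < n
  · exact h.2 j hc
  · have := h'.2 (j - n) (by omega)
    rwa [← h.1, ← Function.iterate_add_apply, Nat.sub_add_cancel (by omega)] at this

theorem MReach.mono {σ : Type} {f : σ → σ} {P P' : σ → Prop} {s s' : σ} {n : ℕ}
    (h : MReach f P s n s') (hP : ∀ s, P s → P' s) : MReach f P' s n s' :=
  ⟨h.1, fun j hj => hP _ (h.2 j hj)⟩

theorem look_eq {v : K → List ℕ} {l : List (K × List ℕ)} (h : ∀ p ∈ l, p.2 = v p.1) {k : K}
    (hk : k ∈ l.map Prod.fst) : look l k = v k := by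
  unfold look
  obtain ⟨p, hp, rfl⟩ := List.mem_map.1 hk
  cases e : l.find? fun p' => decide (p'.1 = p.1) with
  | none =>
    have := List.find?_eq_none.1 e p hp
    simp at this
  | some p' =>
    have h1 := List.find?_some e
    have h2 := h p' (List.mem_of_find?_eq_some e)
    simp only [decide_eq_true_eq] at h1
    simp [h2, h1]

/-- A frame of bounded size with correct answers. -/
def SmallF (Ok : K → Prop) (v : K → List ℕ) (LB : ℕ) (F : Frame K) : Prop :=
  Ok F.1 ∧ F.2.1 ≤ 2 ∧ F.2.2.1.length ≤ LB ∧ (∀ k ∈ F.2.2.1, Ok k) ∧ F.2.2.2.length ≤ 3 * LB ∧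
    ∀ p ∈ F.2.2.2, Ok p.1 ∧ p.2 = v p.1

/-- At most `r + 1` small frames on top of the stack `st`. -/
def OnTop (Ok : K → Prop) (v : K → List ℕ) (LB : ℕ) (a : A) (st : List (Frame K)) (res : List ℕ)
    (r : ℕ) (s : MState A K) : Prop :=
  ∃ fs, s = (a, fs ++ st, res) ∧ fs ≠ [] ∧ fs.length ≤ r + 1 ∧ ∀ F ∈ fs, SmallF Ok v LB F

/-- The state after the value of `k` is returned. -/
def retS (a : A) (k : K) (x : List ℕ) (st : List (Frame K)) (res : List ℕ) : MState A K :=
  match st with
  | [] => (a, [], x)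
  | G :: st' => (a, (G.1, G.2.1, G.2.2.1, (k, x) :: G.2.2.2) :: st', res)

/-- One round of the machine. -/
def Mach.rnd (M : Mach A K) (bit : ℕ → ℕ) (s : MState A K) : MState A K :=
  M.step (bit (M.ask s)) s

theorem Mach.pend (M : Mach A K) (a : A) (bit : ℕ → ℕ) {Ok : K → Prop} {W : K → ℕ}
    {v : K → List ℕ} {LB : ℕ} {k : K} {r ph : ℕ} (hk : Ok k) (hph : ph ≤ 2) (st : List (Frame K))
    (res : List ℕ) (l : List K) (an : List (K × List ℕ)) (hl : l.length ≤ LB)
    (hok : ∀ k' ∈ l, Ok k') (hlen : an.length + l.length ≤ 3 * LB)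
    (han : ∀ p ∈ an, Ok p.1 ∧ p.2 = v p.1)
    (ih : ∀ k' ∈ l, ∀ st res, ∃ r' < r, ∃ n ≤ W k', MReach (M.rnd bit) (OnTop Ok v LB a st res r')
      (a, M.frame a k' :: st, res) n (retS a k' (v k') st res)) :
    ∃ n ≤ (l.map fun k' => 1 + W k').sum, ∃ an' : List (K × List ℕ),
      an'.length = an.length + l.length ∧ (∀ p ∈ an', Ok p.1 ∧ p.2 = v p.1) ∧
      (∀ k' ∈ an.map Prod.fst, k' ∈ an'.map Prod.fst) ∧ (∀ k' ∈ l, k' ∈ an'.map Prod.fst) ∧
      MReach (M.rnd bit) (OnTop Ok v LB a st res r) (a, (k, ph, l, an) :: st, res) n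
        (a, (k, ph, [], an') :: st, res) := by
  induction l generalizing an with
  | nil => exact ⟨0, le_rfl, an, rfl, han, fun _ h => h, fun _ h => by simp at h, MReach.zero _⟩
  | cons k' l ihl =>
    simp only [List.length_cons] at hl hlen
    have hk' := hok k' List.mem_cons_self
    have hok' : ∀ x ∈ l, Ok x := fun x hx => hok x (List.mem_cons_of_mem _ hx)
    obtain ⟨r', hr', n1, hn1, h1⟩ := ih k' List.mem_cons_self ((k, ph, l, an) :: st) res
    have han' : ∀ p ∈ (k', v k') :: an, Ok p.1 ∧ p.2 = v p.1 := by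
      intro p hp
      rcases List.mem_cons.1 hp with rfl | hp
      · exact ⟨hk', rfl⟩
      · exact han p hp
    obtain ⟨n2, hn2, an', e1, e2, e3, e4, h2⟩ := ihl ((k', v k') :: an) (by omega) hok'
      (by simp only [List.length_cons]; omega) han'
      fun x hx => ih x (List.mem_cons_of_mem _ hx)
    have h0 : MReach (M.rnd bit) (OnTop Ok v LB a st res r) (a, (k, ph, k' :: l, an) :: st, res) 1
        (a, M.frame a k' :: (k, ph, l, an) :: st, res) := by
      refine MReach.one ⟨[(k, ph, k' :: l, an)], rfl, by simp, by simp, ?_⟩ rfl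
      intro F hF
      rw [List.mem_singleton.1 hF]
      exact ⟨hk, hph, by simpa using hl, hok, by show an.length ≤ _; omega, han⟩
    have h1' := h1.mono (P' := OnTop Ok v LB a st res r) (by
      rintro s ⟨fs, rfl, a1, a2, a3⟩
      refine ⟨fs ++ [(k, ph, l, an)], by simp, by simp, by simp; omega, fun F hF => ?_⟩
      rcases List.mem_append.1 hF with hF | hF
      · exact a3 F hF
      · rw [List.mem_singleton.1 hF]
        exact ⟨hk, hph, by show l.length ≤ _; omega, hok', by show an.length ≤ _; omega, han⟩)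
    refine ⟨1 + n1 + n2, by simp only [List.map_cons, List.sum_cons]; omega, an',
      by simp only [List.length_cons] at e1 ⊢; omega, e2,
      fun x hx => e3 x (List.mem_cons_of_mem _ hx), fun x hx => ?_, (h0.trans h1').trans h2⟩
    rcases List.mem_cons.1 hx with rfl | hx
    · exact e3 _ List.mem_cons_self
    · exact e4 x hx

theorem Mach.reach [Enc K] (M : Mach A K) {a : A} (h : M.Wf a) {bit : ℕ → ℕ} {Ok : K → Prop}
    {W : K → ℕ} {KB VB LB Vb : ℕ} (hB : M.Bounds a bit Ok W KB VB LB Vb) (k : K) (hk : Ok k)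
    (st : List (Frame K)) (res : List ℕ) :
    ∃ n ≤ W k, MReach (M.rnd bit) (OnTop Ok (M.val a bit) LB a st res (M.rank a k))
      (a, M.frame a k :: st, res) n (retS a k (M.val a bit k) st res) := by
  induction hn : M.rank a k using Nat.strong_induction_on generalizing k st res with
  | _ r ih =>
    have IH : ∀ ph < 3, ∀ k' ∈ M.qs a ph k (M.val a bit), ∀ st res, ∃ r' < r, ∃ n ≤ W k',
        MReach (M.rnd bit) (OnTop Ok (M.val a bit) LB a st res r')
          (a, M.frame a k' :: st, res) n (retS a k' (M.val a bit k') st res) := by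
      intro ph hph k' hk' st res
      have hlt : M.rank a k' < r := hn ▸ h.rank_lt ph k _ hph k' hk'
      exact ⟨_, hlt, ih _ hlt k' (hB.closed k hk ph hph k' hk') st res rfl⟩
    have L0 := hB.len k hk 0 (by omega)
    have L1 := hB.len k hk 1 (by omega)
    have L2 := hB.len k hk 2 (by omega)
    have q0 : M.qs a 0 k (look []) = M.qs a 0 k (M.val a bit) :=
      h.loc_qs 0 k _ _ (by omega) fun ph' hp => absurd hp (Nat.not_lt_zero _)
    obtain ⟨n0, hn0, an0, e0, c0, -, m0, r0⟩ := M.pend a bit (W := W) (r := r) hk (Nat.zero_le 2) st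
      res _ [] L0 (hB.closed k hk 0 (by omega)) (by simp only [List.length_nil]; omega)
      (fun p hp => by simp at hp) (IH 0 (by omega))
    simp only [List.length_nil] at e0
    have q1 : M.qs a 1 k (look an0) = M.qs a 1 k (M.val a bit) := by
      refine (h.loc_qs 1 k _ _ (by omega) fun ph' hp k' hk' => ?_).symm
      obtain rfl : ph' = 0 := by omega
      exact (look_eq (fun p hp => (c0 p hp).2) (m0 k' hk')).symm
    obtain ⟨n1, hn1, an1, e1, c1, o1, m1, r1⟩ := M.pend a bit (W := W) (r := r) hk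
      (by omega : 1 ≤ 2) st res _ an0 L1 (hB.closed k hk 1 (by omega)) (by omega) c0
      (IH 1 (by omega))
    have q2 : M.qs a 2 k (look an1) = M.qs a 2 k (M.val a bit) := by
      refine (h.loc_qs 2 k _ _ (by omega) fun ph' hp k' hk' => ?_).symm
      refine (look_eq (fun p hp => (c1 p hp).2) ?_).symm
      obtain rfl | rfl : ph' = 0 ∨ ph' = 1 := by omega
      · exact o1 k' (m0 k' hk')
      · exact m1 k' hk'
    obtain ⟨n2, hn2, an2, e2, c2, o2, m2, r2⟩ := M.pend a bit (W := W) (r := r) hk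
      (le_refl 2) st res _ an1 L2 (hB.closed k hk 2 (by omega)) (by omega) c1 (IH 2 (by omega))
    have hv : M.body a k (bit (M.ext a k)) (look an2) = M.val a bit k := by
      rw [M.val_eq h]
      refine (h.loc_body k _ _ _ fun ph' hp k' hk' => ?_).symm
      refine (look_eq (fun p hp => (c2 p hp).2) ?_).symm
      obtain rfl | rfl | rfl : ph' = 0 ∨ ph' = 1 ∨ ph' = 2 := by omega
      · exact o2 k' (o1 k' (m0 k' hk'))
      · exact o2 k' (m1 k' hk')
      · exact m2 k' hk'
    have top : ∀ ph ≤ 2, ∀ an : List (K × List ℕ), an.length ≤ 3 * LB →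
        (∀ p ∈ an, Ok p.1 ∧ p.2 = M.val a bit p.1) →
        OnTop Ok (M.val a bit) LB a st res r (a, (k, ph, [], an) :: st, res) := by
      intro ph hph an h1 h2
      refine ⟨[(k, ph, [], an)], rfl, by simp, by simp, fun F hF => ?_⟩
      rw [List.mem_singleton.1 hF]
      exact ⟨hk, hph, Nat.zero_le _, fun _ hx => by simp at hx, h1, h2⟩
    have s0 : MReach (M.rnd bit) (OnTop Ok (M.val a bit) LB a st res r)
        (a, (k, 0, [], an0) :: st, res) 1 (a, (k, 1, M.qs a 1 k (M.val a bit), an0) :: st, res) :=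
      MReach.one (top 0 (by omega) an0 (by omega) c0) (by rw [← q1]; rfl)
    have s1 : MReach (M.rnd bit) (OnTop Ok (M.val a bit) LB a st res r)
        (a, (k, 1, [], an1) :: st, res) 1 (a, (k, 2, M.qs a 2 k (M.val a bit), an1) :: st, res) :=
      MReach.one (top 1 (by omega) an1 (by omega) c1) (by rw [← q2]; rfl)
    have s2 : MReach (M.rnd bit) (OnTop Ok (M.val a bit) LB a st res r)
        (a, (k, 2, [], an2) :: st, res) 1 (retS a k (M.val a bit k) st res) := by
      refine MReach.one (top 2 (by omega) an2 (by omega) c2) ?_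
      rw [← hv]
      rcases st with _ | ⟨G, st⟩ <;> rfl
    have hw := hB.weight k hk
    simp only [List.range_succ, List.range_zero, List.nil_append, List.cons_append, List.map_cons,
      List.map_nil, List.sum_cons, List.sum_nil] at hw
    refine ⟨n0 + 1 + n1 + 1 + n2 + 1, by omega, ?_⟩
    have e : M.frame a k = (k, 0, M.qs a 0 k (M.val a bit), []) := by rw [← q0]; rfl
    rw [e]
    exact ((((r0.trans s0).trans r1).trans s1).trans r2).trans s2

omit [DecidableEq K] in
open Vale.Agent.Lib.PolyTime in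
theorem SmallF.size [Enc K] {Ok : K → Prop} {v : K → List ℕ} {KB VB LB : ℕ} {F : Frame K}
    (h : SmallF Ok v LB F) (hK : ∀ k, Ok k → esize k ≤ KB) (hV : ∀ k, Ok k → esize (v k) ≤ VB) :
    esize F ≤ 16 * ((LB + 1) * (KB + VB + 2)) := by
  obtain ⟨k, ph, l, an⟩ := F
  obtain ⟨h1, h2, h3, h4, h5, h6⟩ := h
  simp only at h1 h2 h3 h4 h5 h6
  have a1 := hK k h1
  have a2 : esize ph ≤ 2 := (esize_nat_le_self ph).trans h2
  have a3 : esize l ≤ LB * (2 * KB + 1) :=
    (esize_list_le fun x hx => hK x (h4 x hx)).trans (Nat.mul_le_mul_right _ h3)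
  have a4 : esize an ≤ 3 * LB * (2 * (2 * KB + VB + 1) + 1) := by
    refine (esize_list_le (B := 2 * KB + VB + 1) fun p hp => ?_).trans (Nat.mul_le_mul_right _ h5)
    obtain ⟨x, y⟩ := p
    obtain ⟨b1, b2⟩ := h6 _ hp
    simp only at b1 b2
    have := hK x b1
    have := hV x b1
    rw [RAM.esize_pair, b2]
    omega
  rw [RAM.esize_pair, RAM.esize_pair, RAM.esize_pair]
  nlinarith [Nat.zero_le (LB * VB), Nat.zero_le (LB * KB)]

open Vale.Agent.Lib.PolyTime in
/-- The run of the stack machine. -/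
theorem Mach.run_ok [Enc A] [Enc K] (M : Mach A K) (par : List ℕ → A) (root : A → K)
    (hpar hroot heq hext hqs hbody) (feed : List ℕ) (bit : ℕ → ℕ) (h : M.Wf (par feed))
    {Ok : K → Prop} {W : K → ℕ} {KB VB LB Vb Q R : ℕ} (hVb : 0 < Vb)
    (hB : M.Bounds (par feed) bit Ok W KB VB LB Vb) (h0 : Ok (root (par feed)))
    (hQ : W (root (par feed)) ≤ Q) (hR : (M.val (par feed) bit (root (par feed))).headD 0 ≤ R) :
    (M.strat par root hpar hroot heq hext hqs hbody).fin (fun q => [bit q]) Q feed =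
        (M.val (par feed) bit (root (par feed))).headD 0 ∧
      (M.strat par root hpar hroot heq hext hqs hbody).RunOk (fun q => [bit q]) Q feed
        (2 * esize (par feed) + 200 * (M.rank (par feed) (root (par feed)) + 1) * (LB + 1) *
          (KB + VB + 2)) Vb R := by
  obtain ⟨n, hn, hr, hP⟩ := M.reach h hB _ h0 [] []
  have hst : ∀ t, (M.strat par root hpar hroot heq hext hqs hbody).state (fun q => [bit q]) feed t =
      (M.rnd bit)^[t] (par feed, [M.frame (par feed) (root (par feed))], []) := fun t => rfl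
  have hend : ∀ t, n ≤ t → (M.rnd bit)^[t] (par feed, [M.frame (par feed) (root (par feed))], []) =
      (par feed, [], M.val (par feed) bit (root (par feed))) := by
    intro t ht
    obtain ⟨d, rfl⟩ := Nat.exists_eq_add_of_le' ht
    rw [Function.iterate_add_apply, hr]
    exact Function.iterate_fixed rfl d
  have hfin : (M.strat par root hpar hroot heq hext hqs hbody).fin (fun q => [bit q]) Q feed =
      (M.val (par feed) bit (root (par feed))).headD 0 := by
    unfold Strat.fin
    rw [hst, hend Q (hn.trans hQ)]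
    rfl
  have hsz : ∀ t, esize ((M.rnd bit)^[t]
      ((par feed, [M.frame (par feed) (root (par feed))], []) : MState A K)) ≤
      2 * esize (par feed) + 200 * (M.rank (par feed) (root (par feed)) + 1) * (LB + 1) *
        (KB + VB + 2) := by
    intro t
    have hX : 2 + VB ≤ (LB + 1) * (KB + VB + 2) := by nlinarith [Nat.zero_le (LB * (KB + VB + 2))]
    have e : 200 * (M.rank (par feed) (root (par feed)) + 1) * (LB + 1) * (KB + VB + 2) =
        (M.rank (par feed) (root (par feed)) + 1) * (200 * ((LB + 1) * (KB + VB + 2))) := by ring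
    rw [e]
    by_cases ht : t < n
    · obtain ⟨fs, e', -, a2, a3⟩ := hP t ht
      have a4 := (esize_list_le fun F hF => (a3 F hF).size hB.key hB.value).trans
        (Nat.mul_le_mul_right _ a2)
      rw [e', RAM.esize_pair, RAM.esize_pair, List.append_nil, esize_list_nil]
      generalize (LB + 1) * (KB + VB + 2) = X at hX a4
      generalize M.rank (par feed) (root (par feed)) = r at a4
      nlinarith [Nat.zero_le (r * X)]
    · have a4 := hB.value _ h0
      rw [hend t (by omega), RAM.esize_pair, RAM.esize_pair, esize_list_nil]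
      generalize (LB + 1) * (KB + VB + 2) = X at hX
      generalize M.rank (par feed) (root (par feed)) = r
      nlinarith [Nat.zero_le (r * X)]
  refine ⟨hfin, fun t _ => ?_, fun t _ j hj => ?_, hst Q ▸ hsz Q, hfin ▸ hR⟩
  · rw [hst]
    by_cases ht : t < n
    · obtain ⟨fs, e, a1, -, a3⟩ := hP t ht
      rw [e]
      obtain ⟨F, fs, rfl⟩ := List.exists_cons_of_ne_nil a1
      exact hB.ext _ (a3 F List.mem_cons_self).1
    · rw [hend t (by omega)]
      exact hVb
  · simp only [List.length_singleton] at hj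
    obtain rfl | rfl : j = 0 ∨ j = 1 := by omega
    · exact hst t ▸ hsz t
    · have := hsz (t + 1)
      rw [Function.iterate_succ_apply'] at this
      exact this

end Vale.Agent.P315Z
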