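import Vale.Agent.P315Z.Node
import Vale.Agent.P315Z.Acc
import Vale.Agent.P315.H731.Tape

/-! P315Z: the recursion over the epochs and the probability of success. -/

set_option autoImplicit false

namespace Vale.Agent.P315Z

open Finset Vale.Agent.P315 Vale.Agent.P315.H731

variable {P : Par} {c : ℕ → ℕ → ℕ} {z : ℕ → ℕ} {d : ℕ}

theorem ep_lsum_mono {f g : ℕ → ℕ → ℝ} {j : ℕ} (hj : j ≤ P.k)
    (h : ∀ i, Node P j i → f j i ≤ g j i) : lsum P f j ≤ lsum P g j :=
  sum_le_sum fun i hi => h i ⟨hj, mem_range.1 hi⟩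

theorem ep_lsum_nonneg {f : ℕ → ℕ → ℝ} {j : ℕ} (hj : j ≤ P.k)
    (h : ∀ i, Node P j i → 0 ≤ f j i) : 0 ≤ lsum P f j :=
  sum_nonneg fun i hi => h i ⟨hj, mem_range.1 hi⟩

theorem ep_lsum_add (f g : ℕ → ℕ → ℝ) (j : ℕ) :
    lsum P (fun j i => f j i + g j i) j = lsum P f j + lsum P g j := sum_add_distrib

theorem ep_lsum_mul (a : ℝ) (f : ℕ → ℕ → ℝ) (j : ℕ) :
    lsum P (fun j i => a * f j i) j = a * lsum P f j := (mul_sum _ _ _).symm

theorem ep_xs_nonneg (D : Cell → ℕ) : 0 ≤ xs P c z D :=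
  sum_nonneg fun _ _ => sum_nonneg fun _ _ => Nat.cast_nonneg _

theorem ep_xs_congr {D D' : Cell → ℕ} (h : ∀ e, D e = D' e) : xs P c z D = xs P c z D' := by
  rw [show D = D' from funext h]

theorem ep_xs_anti {S : ℕ → ℕ} (X : Sys P S c) {T T' : ℕ} (h : T ≤ T') :
    xs P c z (X.D T') ≤ xs P c z (X.D T) :=
  sum_le_sum fun _ hj => ep_lsum_mono (mem_Icc.1 hj).2 fun _ hn => by
    exact_mod_cast X.D_anti (cs_mem_sibs hn) h

theorem ep_gg_le {j : ℕ} (hj : j ≤ P.k) :
    lsum P (fun j i => (gg P c z j i : ℝ)) j ≤ ggs P c z :=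
  single_le_sum (f := fun j => lsum P (fun j i => (gg P c z j i : ℝ)) j)
    (fun _ _ => sum_nonneg fun _ _ => Nat.cast_nonneg _) (mem_range.2 (Nat.lt_succ_of_le hj))

theorem ep_ggs_nonneg : 0 ≤ ggs P c z :=
  sum_nonneg fun _ _ => sum_nonneg fun _ _ => Nat.cast_nonneg _

theorem Fam.ind_nonneg (F : Fam P c) (S : ℕ → ℕ) : 0 ≤ F.ind S := by
  unfold Fam.ind
  split_ifs <;> norm_num

theorem Fam.ind_le_one (F : Fam P c) (S : ℕ → ℕ) : F.ind S ≤ 1 := by
  unfold Fam.ind
  split_ifs <;> norm_num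

theorem Fam.ind_mul_le (F : Fam P c) (S : ℕ → ℕ) {a b : ℝ}
    (h : AkoOk P c (F.sys S).A → a ≤ b) : F.ind S * a ≤ F.ind S * b := by
  unfold Fam.ind
  split_ifs with hA
  · exact mul_le_mul_of_nonneg_left (h hA) zero_le_one
  · rw [zero_mul, zero_mul]

theorem ep_E_pos (P : Par) : 0 < P.E := Nat.two_pow_pos _

theorem ep_m_pos (P : Par) : 0 < P.m := Nat.two_pow_pos _

theorem ep_nonempty (P : Par) : Nonempty (Fin P.E) := ⟨⟨0, ep_E_pos P⟩⟩

/-- The drop at the random reference time. -/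
theorem Fam.drop_le (F : Fam P c) (hP : P.Ok) {β : ℕ} (hβ : 1 ≤ β) (hβ' : β ≤ P.ne) :
    av (fun u : Fin P.N → Fin P.E => F.ind (bv u) *
      (xs P c z ((F.sys (bv u)).D (ref P (bv u) β)) -
        xs P c z ((F.sys (bv u)).D (ref P (bv u) β + 1)))) ≤
      av (fun u : Fin P.N → Fin P.E => F.ind (bv u) *
        xs P c z ((F.sys (bv u)).D ((β - 1) * P.m + 1))) / P.m := by
  have _ := hP
  have hNS : 0 < P.NS := Nat.two_pow_pos _
  have hm := ep_m_pos P
  have hm' : (0 : ℝ) < P.m := by exact_mod_cast hm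
  have hb : (bR β + 1) * P.NS ≤ P.N := by
    refine Nat.mul_le_mul_right _ ?_
    unfold bR Par.nb
    nlinarith [Nat.zero_le P.k, Nat.zero_le P.ne]
  rw [av_block (ep_E_pos P) hNS hb (fun S => F.ind S *
      (xs P c z ((F.sys S).D (ref P S β)) - xs P c z ((F.sys S).D (ref P S β + 1)))),
    ← av_div_const]
  refine av_mono fun u => ?_
  generalize bv u = S
  let g : ℕ → ℝ := fun r => xs P c z ((F.sys S).D ((β - 1) * P.m + 1 + r))
  have key : ∀ v : Fin P.NS → Fin P.E,
      F.ind (setBlk P.NS S (bR β) (bv v)) *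
        (xs P c z ((F.sys (setBlk P.NS S (bR β) (bv v))).D
          (ref P (setBlk P.NS S (bR β) (bv v)) β)) -
        xs P c z ((F.sys (setBlk P.NS S (bR β) (bv v))).D
          (ref P (setBlk P.NS S (bR β) (bv v)) β + 1))) =
      F.ind S * (g (bv v 0 % P.m) - g (bv v 0 % P.m + 1)) := by
    intro v
    have hA : ∀ j', blk P (setBlk P.NS S (bR β) (bv v)) (bA j') = blk P S (bA j') := fun j' =>
      blk_setBlk_ne _ _ (by unfold bA bR; omega)
    have h1 : (F.sys (setBlk P.NS S (bR β) (bv v))).A = (F.sys S).A :=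
      funext fun j => F.depA _ _ j (fun j' _ => hA j') j le_rfl
    have h2 : ref P (setBlk P.NS S (bR β) (bv v)) β = (β - 1) * P.m + 1 + bv v 0 % P.m := by
      unfold ref
      rw [blk_setBlk_self]
      simp only [Nat.zero_mod]
    have h3 : P.ep ((β - 1) * P.m + 1 + bv v 0 % P.m) ≤ β - 1 := (ep_eq P (Nat.mod_lt _ hm)).le
    have h4 := fun e : Cell => F.depM (setBlk P.NS S (bR β) (bv v)) S (β - 1) e.j hA
      (fun β' h' => blk_setBlk_ne _ _ (by unfold bR; omega))
      (fun β' _ j' _ => blk_setBlk_ne _ _ (by unfold bM bR; omega)) _ h3 e le_rfl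
    rw [h2, ep_xs_congr fun e => (h4 e).1, ep_xs_congr fun e => (h4 e).2.1]
    unfold Fam.ind
    rw [h1]
    rfl
  have hmE : P.m ∣ P.E := pow_dvd_pow 2 (by unfold Par.lE; omega)
  rw [av_congr key, av_const_mul, av_bv_mod (ep_E_pos P) hmE hNS fun r => g r - g (r + 1),
    sum_range_sub', mul_div_assoc]
  refine mul_le_mul_of_nonneg_left (div_le_div_of_nonneg_right ?_ hm'.le) (F.ind_nonneg S)
  exact sub_le_self _ (ep_xs_nonneg _)

theorem Fam.levels (F : Fam P c) (hP : P.Ok) (h : PathOk P c z d) {β : ℕ} (hβ : 1 ≤ β)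
    (hβ' : β ≤ P.ne) {j : ℕ} (hk : j ≤ P.k) :
    av (fun u : Fin P.N → Fin P.E => F.ind (bv u) * F.us z β j (bv u)) ≤
      av (fun u : Fin P.N → Fin P.E => F.ind (bv u) * (F.us z β 0 (bv u) +
        ∑ j' ∈ Icc 1 j, (P.m * lsum P (fun j i => (jj P c z j i : ℝ)) j' +
        lsum P (loss P c z ((F.sys (bv u)).D (ref P (bv u) β))
          ((F.sys (bv u)).D (ref P (bv u) β + 1))) j'))) := by
  induction j with
  | zero => simp
  | succ j ih =>
    refine (F.level hP h hβ hβ' (j := j + 1) (by omega) hk).trans ?_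
    have h1 := ih (by omega)
    simp only [Nat.add_sub_cancel, sum_Icc_succ_top (by omega : 1 ≤ j + 1), mul_add, av_add] at h1 ⊢
    linarith

/-- One epoch: the comparator cells of level `j` at the end of epoch `β`. -/
theorem Fam.epoch (F : Fam P c) (hP : P.Ok) (h : PathOk P c z d) {β : ℕ} (hβ : 1 ≤ β)
    (hβ' : β ≤ P.ne) {j : ℕ} (hk : j ≤ P.k) :
    av (fun u : Fin P.N → Fin P.E => F.ind (bv u) *
      lsum P (fun j i => ((F.sys (bv u)).D ((β + 1) * P.m + 1) (cs P c z j i) : ℝ)) j) ≤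
      av (fun u : Fin P.N → Fin P.E => F.ind (bv u)) * ((1 + 2 / 2 ^ P.le) * d) +
      1 / (2 ^ P.le * P.k) * av (fun u : Fin P.N → Fin P.E => F.ind (bv u) *
        xs P c z ((F.sys (bv u)).D ((β - 1) * P.m + 1))) := by
  have hm := ep_m_pos P
  have hm' : (0 : ℝ) < P.m := by exact_mod_cast hm
  have hgd : (0 : ℝ) < P.gd := by exact_mod_cast Nat.two_pow_pos P.lg
  have hk1 : (1 : ℝ) ≤ P.k := by exact_mod_cast hP.k1
  have s1 : av (fun u : Fin P.N → Fin P.E => F.ind (bv u) * (P.m *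
      lsum P (fun j i => ((F.sys (bv u)).D ((β + 1) * P.m + 1) (cs P c z j i) : ℝ)) j)) ≤
      av (fun u : Fin P.N → Fin P.E => F.ind (bv u) * F.us z β j (bv u)) := by
    refine av_mono fun u => F.ind_mul_le _ fun hA => ?_
    rw [← ep_lsum_mul]
    refine ep_lsum_mono hk fun i hn => ?_
    rw [← nsmul_eq_mul, ← card_range P.m, ← sum_const, card_range]
    refine sum_le_sum fun t ht => ?_
    have h1 := (F.sys (bv u)).D_succ_le_U (β * P.m + 1 + t) (cs_mem_sibs (c := c) (z := z) hn)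
      (dress_le hP h ((F.sys (bv u)).refOk hP h hA (ref P (bv u) β)) hn)
    have h2 := (F.sys (bv u)).D_anti (cs_mem_sibs (c := c) (z := z) hn)
      (T := β * P.m + 1 + t + 1) (T' := (β + 1) * P.m + 1)
      (by have := mem_range.1 ht; rw [add_mul]; omega)
    exact_mod_cast h2.trans h1
  have s2 := F.levels hP h hβ hβ' hk
  have s3 : av (fun u : Fin P.N → Fin P.E => F.ind (bv u) * (F.us z β 0 (bv u) +
        ∑ j' ∈ Icc 1 j, (P.m * lsum P (fun j i => (jj P c z j i : ℝ)) j' +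
        lsum P (loss P c z ((F.sys (bv u)).D (ref P (bv u) β))
          ((F.sys (bv u)).D (ref P (bv u) β + 1))) j'))) ≤
      av (fun u : Fin P.N → Fin P.E => F.ind (bv u) *
        ((P.m * (d + 7 * ggs P c z) + 20 * 2 ^ (2 * P.leta) * (d + ggs P c z)) +
          7 / (P.gd : ℝ) * xs P c z ((F.sys (bv u)).D ((β - 1) * P.m + 1)) +
          20 * 2 ^ (2 * P.leta) * (xs P c z ((F.sys (bv u)).D (ref P (bv u) β)) -
            xs P c z ((F.sys (bv u)).D (ref P (bv u) β + 1))))) := by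
    refine av_mono fun u => F.ind_mul_le _ fun hA => ?_
    generalize bv u = S at hA ⊢
    have hR := (F.sys S).refOk hP h hA (ref P S β)
    have hrb := ref_bounds (P := P) S hβ
    have a1 : F.us z β 0 S ≤ P.m * (d + 3 * ggs P c z) := by
      have b1 : F.us z β 0 S ≤
          lsum P (fun j i => P.m * ((mu P c z j i : ℝ) + 3 * gg P c z j i)) 0 := by
        refine ep_lsum_mono (Nat.zero_le _) fun i hn => ?_
        rw [← nsmul_eq_mul, ← card_range P.m, ← sum_const, card_range]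
        refine sum_le_sum fun t _ => ?_
        have h1 := (F.sys S).U_le_D (β * P.m + 1 + t) (cs P c z 0 i)
          (dress P c z ((F.sys S).D (ref P S β)) ((F.sys S).D (ref P S β + 1)) 0 i)
        have h2 := (F.sys S).D_anti (cs_mem_sibs (c := c) (z := z) hn)
          (T := ref P S β) (T' := β * P.m + 1 + t) (by omega)
        exact_mod_cast h1.trans (h2.trans (hR.leaf i hn))
      rw [ep_lsum_mul, ep_lsum_add, ep_lsum_mul] at b1
      refine b1.trans (mul_le_mul_of_nonneg_left ?_ hm'.le)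
      have := lsum_mu h (Nat.zero_le P.k)
      have := ep_gg_le (P := P) (c := c) (z := z) (Nat.zero_le P.k)
      linarith
    have a2 : ∑ j' ∈ Icc 1 j, (P.m * lsum P (fun j i => (jj P c z j i : ℝ)) j' +
        lsum P (loss P c z ((F.sys S).D (ref P S β)) ((F.sys S).D (ref P S β + 1))) j') ≤
        ∑ j' ∈ Icc 1 P.k, (P.m * lsum P (fun j i => (jj P c z j i : ℝ)) j' +
        lsum P (loss P c z ((F.sys S).D (ref P S β)) ((F.sys S).D (ref P S β + 1))) j') :=
      sum_le_sum_of_subset_of_nonneg (Icc_subset_Icc_right hk) fun j' hj' _ =>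
        add_nonneg (mul_nonneg hm'.le (sum_nonneg fun _ _ => Nat.cast_nonneg _))
          (ep_lsum_nonneg (mem_Icc.1 hj').2 fun _ hn => loss_nonneg hR hn)
    rw [sum_add_distrib (s := Icc 1 P.k), ← mul_sum] at a2
    have a3 := mul_le_mul_of_nonneg_left (jj_sum (P := P) (c := c) (z := z)) hm'.le
    have a4 := acc hP h hR
    have a5 := mul_le_mul_of_nonneg_left (ep_xs_anti (z := z) (F.sys S) hrb.1)
      (by positivity : 0 ≤ 7 / (P.gd : ℝ))
    linarith
  have s4 := F.drop_le (z := z) hP hβ hβ'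
  have s5 := (s1.trans s2).trans s3
  simp only [mul_add (F.ind _), av_add, mul_left_comm (F.ind _), av_const_mul, av_mul_const] at s5
  have hI : 0 ≤ av (fun u : Fin P.N → Fin P.E => F.ind (bv u)) := av_nonneg fun _ => F.ind_nonneg _
  have hx : 0 ≤ av (fun u : Fin P.N → Fin P.E => F.ind (bv u) *
      xs P c z ((F.sys (bv u)).D ((β - 1) * P.m + 1))) :=
    av_nonneg fun _ => mul_nonneg (F.ind_nonneg _) (ep_xs_nonneg _)
  have hg := ggs_le hP h
  have hg0 := ep_ggs_nonneg (P := P) (c := c) (z := z)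
  have t1 : (16 : ℝ) * P.k * 2 ^ P.le ≤ P.m * P.gd := by exact_mod_cast hP.hth1
  have t2 : (40 : ℝ) * (P.k + 1) * (2 ^ (2 * P.leta) * 2 ^ P.le) ≤ P.m * P.m := by
    rw [← pow_add]; exact_mod_cast hP.hth2
  have t3 : (20 : ℝ) * (2 ^ (2 * P.leta) * 2 ^ P.le) ≤ P.m := by
    rw [← pow_add]; exact_mod_cast hP.hth3
  have hL : (1 : ℝ) ≤ 2 ^ P.le := one_le_pow₀ one_le_two
  have hQ : (0 : ℝ) < 2 ^ (2 * P.leta) := by positivity
  generalize av (fun u : Fin P.N → Fin P.E => F.ind (bv u)) = I at *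
  generalize av (fun u : Fin P.N → Fin P.E => F.ind (bv u) *
      xs P c z ((F.sys (bv u)).D ((β - 1) * P.m + 1))) = x at *
  generalize av (fun u : Fin P.N → Fin P.E => F.ind (bv u) *
      lsum P (fun j i => ((F.sys (bv u)).D ((β + 1) * P.m + 1) (cs P c z j i) : ℝ)) j) = Y at *
  generalize av (fun u : Fin P.N → Fin P.E => F.ind (bv u) *
      (xs P c z ((F.sys (bv u)).D (ref P (bv u) β)) -
        xs P c z ((F.sys (bv u)).D (ref P (bv u) β + 1)))) = Z at *
  generalize ggs P c z = G at *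
  generalize (2 : ℝ) ^ (2 * P.leta) = Q at *
  generalize (2 : ℝ) ^ P.le = L at *
  generalize (P.m : ℝ) = m at *
  generalize (P.gd : ℝ) = gd at *
  generalize (P.k : ℝ) = k at *
  have hd : (0 : ℝ) ≤ d := Nat.cast_nonneg _
  generalize (d : ℝ) = D at *
  have hL0 : 0 < L := by linarith
  have u1 : 7 * G ≤ 7 / 64 * (D / L) := by
    rw [← mul_div_assoc, le_div_iff₀ hL0]; linarith
  have u2 : 20 * Q * (D + G) ≤ m * (65 / 64 * (D / L)) := by
    have v1 : 20 * Q ≤ m / L := by rw [le_div_iff₀ hL0]; linarith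
    have v2 : D + G ≤ 65 / 64 * D := by nlinarith
    calc 20 * Q * (D + G) ≤ m / L * (65 / 64 * D) :=
          mul_le_mul v1 v2 (by positivity) (by positivity)
      _ = _ := by ring
  have u3 : 7 / gd ≤ m * (7 / 16 * (1 / (L * k))) := by
    rw [div_le_iff₀ hgd, show m * (7 / 16 * (1 / (L * k))) * gd = 7 / 16 * (m * gd) / (L * k) by
      ring, le_div_iff₀ (by positivity)]
    linarith
  have u4 : 20 * Q / m ≤ m * (1 / 2 * (1 / (L * k))) := by
    rw [div_le_iff₀ hm', show m * (1 / 2 * (1 / (L * k))) * m = 1 / 2 * (m * m) / (L * k) by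
      ring, le_div_iff₀ (by positivity)]
    have : 0 < Q * L := by positivity
    nlinarith
  have u5 : 20 * Q * Z ≤ m * (1 / 2 * (1 / (L * k))) * x := by
    calc 20 * Q * Z ≤ 20 * Q * (x / m) := mul_le_mul_of_nonneg_left s4 (by positivity)
      _ = 20 * Q / m * x := by ring
      _ ≤ _ := mul_le_mul_of_nonneg_right u4 hx
  have u6 := mul_le_mul_of_nonneg_right u3 hx
  have u7 := mul_le_mul_of_nonneg_left u2 hI
  have u8 := mul_le_mul_of_nonneg_left (mul_le_mul_of_nonneg_left u1 hI) hm'.le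
  have u9 : 0 ≤ m * (I * (D / L)) := by positivity
  have u10 : 0 ≤ m * (1 / (L * k) * x) := by positivity
  refine le_of_mul_le_mul_left ?_ hm'
  have e1 : m * (I * ((1 + 2 / L) * D) + 1 / (L * k) * x) =
      m * (I * D) + 2 * (m * (I * (D / L))) + m * (1 / (L * k) * x) := by ring
  rw [e1]
  nlinarith

theorem Fam.xs_start (F : Fam P c) (hP : P.Ok) (h : PathOk P c z d) (T : ℕ) :
    av (fun u : Fin P.N → Fin P.E => F.ind (bv u) * xs P c z ((F.sys (bv u)).D T)) ≤
      av (fun u : Fin P.N → Fin P.E => F.ind (bv u)) * (2 ^ P.la0 * ((P.k + 1) * d)) := by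
  rw [← av_mul_const]
  refine av_mono fun u => F.ind_mul_le _ fun hA => ?_
  have hR := (F.sys (bv u)).refOk hP h hA T
  have h1 : xs P c z ((F.sys (bv u)).D T) ≤ ∑ j ∈ Icc 1 P.k,
      (2 : ℝ) ^ P.la0 * (d + lsum P (fun j i => (gg P c z j i : ℝ)) j) := by
    refine sum_le_sum fun j hj => ?_
    have hj' := (mem_Icc.1 hj).2
    refine (ep_lsum_mono (g := fun j i => (2 : ℝ) ^ P.la0 * ((mu P c z j i : ℝ) + gg P c z j i))
      hj' fun i hn => by exact_mod_cast hR.start j i hn).trans ?_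
    rw [ep_lsum_mul, ep_lsum_add]
    exact mul_le_mul_of_nonneg_left (add_le_add (lsum_mu h hj') le_rfl) (by positivity)
  refine h1.trans ?_
  rw [← mul_sum, sum_add_distrib, sum_const, Nat.card_Icc, Nat.add_sub_cancel, nsmul_eq_mul]
  refine mul_le_mul_of_nonneg_left ?_ (by positivity)
  have h2 : ∑ j ∈ Icc 1 P.k, lsum P (fun j i => (gg P c z j i : ℝ)) j ≤ ggs P c z :=
    sum_le_sum_of_subset_of_nonneg (fun j hj => mem_range.2 (Nat.lt_succ_of_le (mem_Icc.1 hj).2))
      fun _ _ _ => sum_nonneg fun _ _ => Nat.cast_nonneg _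
  have hg := ggs_le hP h
  have hg0 := ep_ggs_nonneg (P := P) (c := c) (z := z)
  have hL : (1 : ℝ) ≤ 2 ^ P.le := one_le_pow₀ one_le_two
  nlinarith

theorem Fam.xs_le (F : Fam P c) (hP : P.Ok) (h : PathOk P c z d) (b : ℕ) (hb : b ≤ P.ne + 1) :
    av (fun u : Fin P.N → Fin P.E => F.ind (bv u) * xs P c z ((F.sys (bv u)).D (b * P.m + 1))) ≤
      av (fun u : Fin P.N → Fin P.E => F.ind (bv u)) *
        (2 * P.k * ((1 + 2 / 2 ^ P.le) * d) + 2 ^ P.la0 * ((P.k + 1) * d) / 2 ^ (b / 2)) := by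
  have hI : 0 ≤ av (fun u : Fin P.N → Fin P.E => F.ind (bv u)) := av_nonneg fun _ => F.ind_nonneg _
  have hk1 : (1 : ℝ) ≤ P.k := by exact_mod_cast hP.k1
  induction b using Nat.twoStepInduction with
  | zero =>
    refine (F.xs_start hP h _).trans (mul_le_mul_of_nonneg_left ?_ hI)
    rw [Nat.zero_div, pow_zero, div_one]
    exact le_add_of_nonneg_left (by positivity)
  | one =>
    refine (F.xs_start hP h _).trans (mul_le_mul_of_nonneg_left ?_ hI)
    rw [show 1 / 2 = 0 from rfl, pow_zero, div_one]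
    exact le_add_of_nonneg_left (by positivity)
  | more b ih _ =>
    have h1 := ih (by omega)
    have h2 : av (fun u : Fin P.N → Fin P.E => F.ind (bv u) *
        xs P c z ((F.sys (bv u)).D ((b + 2) * P.m + 1))) ≤ ∑ j ∈ Icc 1 P.k,
        (av (fun u : Fin P.N → Fin P.E => F.ind (bv u)) * ((1 + 2 / 2 ^ P.le) * d) +
        1 / (2 ^ P.le * P.k) * av (fun u : Fin P.N → Fin P.E => F.ind (bv u) *
          xs P c z ((F.sys (bv u)).D (b * P.m + 1)))) := by
      refine le_of_eq_of_le ?_ (sum_le_sum fun j hj =>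
        F.epoch hP h (β := b + 1) (by omega) (by omega) (mem_Icc.1 hj).2)
      rw [← av_sum]
      exact av_congr fun u => mul_sum _ _ _
    rw [sum_const, Nat.card_Icc, Nat.add_sub_cancel, nsmul_eq_mul] at h2
    refine h2.trans ?_
    have hx : 0 ≤ av (fun u : Fin P.N → Fin P.E => F.ind (bv u) *
        xs P c z ((F.sys (bv u)).D (b * P.m + 1))) :=
      av_nonneg fun _ => mul_nonneg (F.ind_nonneg _) (ep_xs_nonneg _)
    have hL : (2 : ℝ) ≤ 2 ^ P.le := le_self_pow₀ one_le_two (by have := hP.le1; omega)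
    rw [show (b + 2) / 2 = b / 2 + 1 by omega, pow_succ]
    generalize av (fun u : Fin P.N → Fin P.E => F.ind (bv u)) = I at *
    generalize av (fun u : Fin P.N → Fin P.E => F.ind (bv u) *
        xs P c z ((F.sys (bv u)).D (b * P.m + 1))) = x at *
    have e1 : (P.k : ℝ) * (1 / (2 ^ P.le * P.k) * x) = x / 2 ^ P.le := by field_simp
    have e2 : x / 2 ^ P.le ≤ x / 2 := div_le_div_of_nonneg_left hx two_pos hL
    rw [mul_add, e1, ← div_div]
    linarith

/-- The expected excess of the output. -/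
theorem Fam.out_le (F : Fam P c) (hP : P.Ok) (h : PathOk P c z d) :
    av (fun u : Fin P.N → Fin P.E => F.ind (bv u) *
      ((outv P ((F.sys (bv u)).D P.Tend) : ℝ) - d)) ≤ 9 / 2 ^ P.le * d := by
  have hne := hP.hne
  have := ep_nonempty P
  have hI : 0 ≤ av (fun u : Fin P.N → Fin P.E => F.ind (bv u)) := av_nonneg fun _ => F.ind_nonneg _
  have hI1 : av (fun u : Fin P.N → Fin P.E => F.ind (bv u)) ≤ 1 := av_le fun _ => F.ind_le_one _
  have hk1 : (1 : ℝ) ≤ P.k := by exact_mod_cast hP.k1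
  have h1 := F.epoch hP h (β := P.ne - 1) (by omega) (by omega) le_rfl
  have h2 := F.xs_le hP h (P.ne - 1 - 1) (by omega)
  rw [show P.ne - 1 + 1 = P.ne by omega] at h1
  simp only [lsum_top] at h1
  have h3 : av (fun u : Fin P.N → Fin P.E => F.ind (bv u) *
      ((outv P ((F.sys (bv u)).D P.Tend) : ℝ) - d)) ≤
      av (fun u : Fin P.N → Fin P.E => F.ind (bv u) *
        (((F.sys (bv u)).D (P.ne * P.m + 1) (cs P c z P.k 0) : ℝ) + (2 * ggs P c z - d))) := by
    refine av_mono fun u => mul_le_mul_of_nonneg_left ?_ (F.ind_nonneg _)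
    have a1 : outv P ((F.sys (bv u)).D P.Tend) ≤
        (F.sys (bv u)).D P.Tend (rootCell P (kap P c z P.k 0)) :=
      minL_le (List.mem_map.2 ⟨_, List.mem_range.2 (Nat.lt_succ_of_le (kap_root h)), rfl⟩)
    have a2 := (F.sys (bv u)).D_lip (T := P.Tend) (by unfold Par.Tend; omega) (same_root h)
    have a3 := cs_p (P := P) (c := c) (z := z) P.k 0
    have a4 := cs_q (P := P) (c := c) (z := z) P.k 0
    rw [zero_mul, h.z0] at a3
    rw [zero_add, one_mul, h.z1] at a4
    have a5 : outv P ((F.sys (bv u)).D P.Tend) ≤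
        (F.sys (bv u)).D (P.ne * P.m + 1) (cs P c z P.k 0) + 2 * gg P c z P.k 0 := by
      have e1 : (rootCell P (kap P c z P.k 0)).p = P.s0 := rfl
      have e2 : (rootCell P (kap P c z P.k 0)).q = P.s1 := rfl
      rw [e1, e2] at a2
      unfold Par.Tend at a1 a2 ⊢
      unfold Nat.dist at a2
      omega
    have a6 := ep_gg_le (P := P) (c := c) (z := z) le_rfl
    rw [lsum_top] at a6
    have a7 : (outv P ((F.sys (bv u)).D P.Tend) : ℝ) ≤
        (F.sys (bv u)).D (P.ne * P.m + 1) (cs P c z P.k 0) + 2 * gg P c z P.k 0 := by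
      exact_mod_cast a5
    linarith
  simp only [mul_add (F.ind _), av_add, av_mul_const] at h3
  refine h3.trans ?_
  have hg := ggs_le hP h
  have hg0 := ep_ggs_nonneg (P := P) (c := c) (z := z)
  have hL : (2 : ℝ) ≤ 2 ^ P.le := le_self_pow₀ one_le_two (by have := hP.le1; omega)
  have hd : (0 : ℝ) ≤ d := Nat.cast_nonneg _
  have h4 : (2 : ℝ) ^ P.la0 * ((P.k + 1) * d) / 2 ^ ((P.ne - 1 - 1) / 2) ≤ P.k * d := by
    have b1 : (2 : ℝ) ^ (P.la0 + 1) ≤ 2 ^ ((P.ne - 1 - 1) / 2) :=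
      pow_le_pow_right₀ one_le_two (by omega)
    rw [div_le_iff₀ (by positivity)]
    refine le_trans ?_ (mul_le_mul_of_nonneg_left b1 (by positivity))
    rw [pow_succ]
    have b2 : (0 : ℝ) ≤ 2 ^ P.la0 * d := by positivity
    nlinarith
  have h5 := h2.trans (mul_le_mul_of_nonneg_left (add_le_add le_rfl h4) hI)
  generalize av (fun u : Fin P.N → Fin P.E => F.ind (bv u)) = I at *
  generalize av (fun u : Fin P.N → Fin P.E => F.ind (bv u) *
      xs P c z ((F.sys (bv u)).D ((P.ne - 1 - 1) * P.m + 1))) = x at *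
  generalize av (fun u : Fin P.N → Fin P.E => F.ind (bv u) *
      ((F.sys (bv u)).D (P.ne * P.m + 1) (cs P c z P.k 0) : ℝ)) = Y at *
  generalize ggs P c z = G at *
  generalize (2 : ℝ) ^ P.le = L at *
  generalize (P.k : ℝ) = k at *
  generalize (d : ℝ) = D at *
  have hL0 : 0 < L := by linarith
  have u0 : 2 / L ≤ 1 := by rw [div_le_one hL0]; exact hL
  have u1 : x ≤ 5 * (k * D) := by
    have v1 : (1 + 2 / L) * D ≤ 2 * D := mul_le_mul_of_nonneg_right (by linarith) hd
    have v2 : 2 * k * ((1 + 2 / L) * D) + k * D ≤ 5 * (k * D) := by nlinarith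
    have v3 : 0 ≤ 2 * k * ((1 + 2 / L) * D) + k * D := by positivity
    nlinarith
  have u2 : 1 / (L * k) * x ≤ 5 * (D / L) := by
    refine (mul_le_mul_of_nonneg_left u1 (by positivity)).trans (le_of_eq ?_)
    field_simp
  have u3 : G ≤ 1 / 64 * (D / L) := by
    rw [← mul_div_assoc, le_div_iff₀ hL0]; linarith
  have u4 : 0 ≤ D / L := by positivity
  have u5 : I * (D / L) ≤ D / L := mul_le_of_le_one_left u4 hI1
  have u6 : I * G ≤ G := mul_le_of_le_one_left hg0 hI1
  have e1 : I * ((1 + 2 / L) * D) = I * D + 2 * (I * (D / L)) := by ring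
  have e2 : I * (2 * G - D) = 2 * (I * G) - I * D := by ring
  have e3 : 9 / L * D = 9 * (D / L) := by ring
  rw [e1] at h1
  rw [e2, e3]
  linarith

/-- The probability of success. -/
theorem prob_main (hP : P.Ok) (x y : List ℕ) (hx : P.lx = x.length) (hy : P.ly = y.length)
    (F : Fam P (cbit x y P.lx)) {ε : ℝ} (hε : 64 ≤ ε * 2 ^ P.le) :
    2 * Nat.card (Fin P.N → Fin P.E) ≤ 3 * Nat.card {u : Fin P.N → Fin P.E //
      ED x y ≤ outv P ((F.sys (bv u)).D P.Tend) ∧
        (outv P ((F.sys (bv u)).D P.Tend) : ℝ) ≤ (1 + ε) * ED x y} := by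
  classical
  have hlx := hP.lx
  have hly := hP.ly
  have hc := cbit_le_one x y P.lx
  have hend : P.lx + y.length - x.length = P.s1 := by unfold Par.s1; omega
  obtain ⟨V, hV, hV0⟩ := exists_pot x y (off := P.lx) (N := P.B ^ P.k) hx.ge (hx ▸ hlx)
  obtain ⟨z, hz0, hz1, hz⟩ := exists_path x y (off := P.lx) (N := P.B ^ P.k) hx.ge (hx ▸ hlx)
  rw [hend] at hV0 hz1
  have hpath : PathOk P (cbit x y P.lx) z (ED x y) :=
    ⟨hc, hz0, hz1, hz, (ED_le_max x y).trans (max_le (by omega) (by omega))⟩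
  have hlow : ∀ S, AkoOk P (cbit x y P.lx) (F.sys S).A → ED x y ≤ outv P ((F.sys S).D P.Tend) := by
    intro S hA
    have h1 := minL_mem (l := (List.range (P.km + 1)).map fun ka =>
      (F.sys S).D P.Tend (rootCell P ka)) (by simp)
    obtain ⟨ka, hka, h2⟩ := List.mem_map.1 h1
    have h3 := ((F.sys S).valid hc hV (fun e he => by
      rw [(F.sys S).eqD0]; exact d0_valid hP hc hA hV he) P.Tend _
      (dom_root (Nat.le_of_lt_succ (List.mem_range.1 hka)))).1
    unfold outv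
    rw [← h2, ← hV0]
    refine le_of_eq_of_le ?_ h3
    simp only [cv, rootCell, zero_mul, zero_add, one_mul, Par.s0]
  have hX : ∀ u : Fin P.N → Fin P.E, 0 ≤ F.ind (bv u) *
      ((outv P ((F.sys (bv u)).D P.Tend) : ℝ) - ED x y) := fun u => by
    have := F.ind_mul_le (bv u) (a := 0) (b := (outv P ((F.sys (bv u)).D P.Tend) : ℝ) - ED x y)
      fun hA => sub_nonneg.2 (by exact_mod_cast hlow _ hA)
    rwa [mul_zero] at this
  have hout := F.out_le hP hpath
  have hako := ako_prob hP hc F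
  have hL : (0 : ℝ) < 2 ^ P.le := by positivity
  have hbig : av (fun u : Fin P.N → Fin P.E =>
      if AkoOk P (cbit x y P.lx) (F.sys (bv u)).A ∧
        (1 + ε) * ED x y < (outv P ((F.sys (bv u)).D P.Tend) : ℝ) then (1 : ℝ) else 0) ≤
      9 / 64 := by
    rcases Nat.eq_zero_or_pos (ED x y) with h0 | h0
    · have h1 := markov hX 1 (fun u => AkoOk P (cbit x y P.lx) (F.sys (bv u)).A ∧
        (1 + ε) * ED x y < (outv P ((F.sys (bv u)).D P.Tend) : ℝ)) fun u hu => by
          have h2 := hu.2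
          unfold Fam.ind
          rw [if_pos hu.1, one_mul]
          rw [h0] at h2 ⊢
          simp only [Nat.cast_zero, mul_zero, Nat.cast_pos, sub_zero] at h2 ⊢
          exact_mod_cast h2
      have h3 := h1.trans hout
      rw [one_mul] at h3
      refine h3.trans ?_
      rw [h0]
      norm_num
    · have hd : (0 : ℝ) < ED x y := by exact_mod_cast h0
      have hε0 : 0 < ε := (mul_pos_iff_of_pos_right hL).1 (by linarith)
      have h1 := markov hX (ε * ED x y) (fun u => AkoOk P (cbit x y P.lx) (F.sys (bv u)).A ∧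
        (1 + ε) * ED x y < (outv P ((F.sys (bv u)).D P.Tend) : ℝ)) fun u hu => by
          unfold Fam.ind
          rw [if_pos hu.1, one_mul]
          linarith [hu.2]
      refine le_of_mul_le_mul_left ((h1.trans hout).trans ?_) (mul_pos hε0 hd)
      rw [mul_right_comm]
      refine mul_le_mul_of_nonneg_right ?_ hd.le
      rw [div_le_iff₀ hL]
      linarith
  apply two_thirds_of_bad
  have h1 : av (fun u : Fin P.N → Fin P.E => if ¬ (ED x y ≤ outv P ((F.sys (bv u)).D P.Tend) ∧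
      (outv P ((F.sys (bv u)).D P.Tend) : ℝ) ≤ (1 + ε) * ED x y) then (1 : ℝ) else 0) ≤
      av (fun u : Fin P.N → Fin P.E =>
        (if ¬ AkoOk P (cbit x y P.lx) (F.sys (bv u)).A then (1 : ℝ) else 0) +
        (if AkoOk P (cbit x y P.lx) (F.sys (bv u)).A ∧
          (1 + ε) * ED x y < (outv P ((F.sys (bv u)).D P.Tend) : ℝ) then (1 : ℝ) else 0)) := by
    refine av_mono fun u => ?_
    by_cases hA : AkoOk P (cbit x y P.lx) (F.sys (bv u)).A
    · by_cases h2 : (1 + ε) * ED x y < (outv P ((F.sys (bv u)).D P.Tend) : ℝ)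
      · rw [if_neg (not_not.2 hA), if_pos (And.intro hA h2), zero_add]
        split_ifs <;> norm_num
      · rw [if_neg (not_not.2 ⟨hlow _ hA, not_lt.1 h2⟩)]
        split_ifs <;> norm_num
    · rw [if_pos hA, if_neg (fun h : _ ∧ _ => hA h.1), add_zero]
      split_ifs <;> norm_num
  rw [av_add] at h1
  linarith

end Vale.Agent.P315Z
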