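import Vale.Agent.P315Z.PtA

/-! P315Z: polynomial time of the queries and of the values of the scheme. -/

set_option autoImplicit false

namespace Vale.Agent.P315Z.PtT

open Vale.Agent.Lib.PolyTime Vale.Agent.P315.H155

variable {α : Type} [Enc α] {P : α → Par} {e c : α → Cell} {R D : α → Cell → ℕ}
  {r s τ T t n b j i ph : α → ℕ} {sd : α → ℕ → ℕ}

@[fun_prop] theorem pt_kB (hi : PT ∅ i) (hs : PT ∅ s) : PT ∅ fun a => kB (i a) (s a) := by
  unfold kB; fun_prop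

@[fun_prop] theorem pt_kA (hj : PT ∅ j) (hj' : PBd j) (hi : PT ∅ i) (hn : PT ∅ n) (hn' : PBd n)
    (hb : PT ∅ b) : PT ∅ fun a => kA (j a) (i a) (n a) (b a) := by unfold kA; fun_prop

@[fun_prop] theorem pt_kD (hT : PT ∅ T) (hT' : PBd T) (hc : PT ∅ c) :
    PT ∅ fun a => kD (T a) (c a) := by unfold kD; fun_prop

@[fun_prop] theorem pt_kH (hT : PT ∅ T) (hT' : PBd T) (hc : PT ∅ c) (hτ : PT ∅ τ) (hτ' : PBd τ) :
    PT ∅ fun a => kH (T a) (c a) (τ a) := by unfold kH; fun_prop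

@[fun_prop] theorem pt_kU (hT : PT ∅ T) (hT' : PBd T) (hc : PT ∅ c) (hτ : PT ∅ τ) (hτ' : PBd τ) :
    PT ∅ fun a => kU (T a) (c a) (τ a) := by unfold kU; fun_prop

@[fun_prop] theorem pt_extB (hP : PT ∅ P) (hi : PT ∅ i) (hs : PT ∅ s) :
    PT ∅ fun a => extB (P a) (i a) (s a) := by unfold extB; fun_prop

@[fun_prop] theorem pt_bitBody (hP : PT ∅ P) (hi : PT ∅ i) (hs : PT ∅ s) (hb : PT ∅ b) :
    PT ∅ fun a => bitBody (P a) (i a) (s a) (b a) := by unfold bitBody; fun_prop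

@[fun_prop] theorem pt_qA (hP : PT ∅ P) (hs : PT ∅ fun p : α × ℕ => sd p.1 p.2) (hj : PT ∅ j)
    (hj' : PBd j) (hi : PT ∅ i) (hn : PT ∅ n) (hn' : PBd n) (hb : PT ∅ b) :
    PT ∅ fun a => qA (P a) (sd a) (j a) (i a) (n a) (b a) := by
  unfold qA
  exact PT.ite (by fun_prop) (by fun_prop) (pt_dedup pt_keyEq
    (PT.flatMap (PT.range (by fun_prop) (pbd_nA2 hP)) (PT.flatMap (by fun_prop)
      (PT.ite (PT.congr (f := fun p : (α × ℕ) × ℕ =>
        decide (p.1.2 * 2 ^ min p.2 ((P p.1.1).nA + 1) < 2 ^ (P p.1.1).nA ∧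
          (p.1.2 = 0 ∨ p.2 ≤ (P p.1.1).nA)))
        (PT.decide_and (PT.lt (PT.mul (by fun_prop) (PT.pow (PT.const 2) (by fun_prop)
          (PBd_min_right (by fun_prop)))) (by fun_prop)) (by fun_prop)) fun p => by
          refine decide_eq_decide.2 ?_
          rcases Nat.eq_zero_or_pos p.1.2 with h | h
          · simp [h]
          · rcases le_or_gt p.2 (P p.1.1).nA with h1 | h1
            · simp [h1, min_eq_left (Nat.le_succ_of_le h1)]
            · have h2 : 2 ^ (P p.1.1).nA ≤ p.1.2 * 2 ^ p.2 :=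
                (Nat.pow_le_pow_right two_pos h1.le).trans (Nat.le_mul_of_pos_left _ h)
              simp [h.ne', not_le.2 h1, not_lt.2 h2])
        (by fun_prop) (by fun_prop)))))

@[fun_prop] theorem pt_qD0 (hP : PT ∅ P) (he : PT ∅ e) : PT ∅ fun a => qD0 (P a) (e a) := by
  simp only [qD0, flatMap_rangeU]
  fun_prop

@[fun_prop] theorem pt_allKids (hP : PT ∅ P) (he : PT ∅ e) :
    PT ∅ fun a => allKids (P a) (e a) := by unfold allKids; fun_prop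

@[fun_prop] theorem pt_qD (hP : PT ∅ P) (hT : PT ∅ T) (hT' : PBd T) (he : PT ∅ e) :
    PT ∅ fun a => qD (P a) (T a) (e a) := by
  simp only [qD, map_rangeU]
  fun_prop

@[fun_prop] theorem pt_qR (hP : PT ∅ P) (hT : PT ∅ T) (hT' : PBd T) (he : PT ∅ e) :
    PT ∅ fun a => qR (P a) (T a) (e a) := by unfold qR; fun_prop

theorem pt_boxEq : PT ∅ fun p : (Cell × ℕ) × (Cell × ℕ) => decide (p.1 = p.2) :=
  PT_decEqPair pt_cellEq (by fun_prop)

theorem pt_sBox (hP : PT ∅ P) (hs : PT ∅ fun p : α × ℕ => sd p.1 p.2)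
    (hR : PT ∅ fun p : α × Cell => R p.1 p.2) (hc : PT ∅ c) (hτ : PT ∅ τ) (hτ' : PBd τ) :
    PT ∅ fun a => (sBox (P a) (sd a) (R a) (c a) (τ a)).map fun b => (b.1, Un.mk b.2) := by
  refine pt_toU (lu := fun a => (fam (P a) (R a) (c a) (τ a)).flatMap fun e =>
    (rangeU (P a).B).map fun u => Un.mk (ta (P a) (R a) e u.v)) ?_ (by fun_prop) fun a b hb => ?_
  · simp only [sBox, modU_eq (B_pos _)]
    exact pt_dedup pt_boxEq (PT.flatMap (by fun_prop) (PT.flatMap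
      (PT.range (by fun_prop) (pbd_nH2 (by fun_prop))) (by fun_prop)))
  · simp only [sBox, List.mem_dedup, List.mem_flatMap] at hb
    obtain ⟨e, he, u, -, hb⟩ := hb
    split_ifs at hb
    · obtain ⟨c', -, rfl⟩ := List.mem_map.1 hb
      refine List.mem_flatMap.2 ⟨e, he, List.mem_map.2 ⟨⟨sd a u % (P a).B⟩, ?_, rfl⟩⟩
      exact List.mem_map.2 ⟨_, List.mem_range.2 (Nat.mod_lt _ (B_pos _)), rfl⟩
    · simp at hb

theorem pt_lBox (hP : PT ∅ P) (hR : PT ∅ fun p : α × Cell => R p.1 p.2) (he : PT ∅ e) :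
    PT ∅ fun a => (lBox (P a) (R a) (e a)).map fun b => (b.1, Un.mk b.2) := by
  refine pt_toU (lu := fun a => (rangeU (P a).B).map fun u => Un.mk (ta (P a) (R a) (e a) u.v))
    ?_ (by fun_prop) fun a b hb => ?_
  · simp only [lBox, flatMap_rangeU]
    exact pt_dedup pt_boxEq (by fun_prop)
  · simp only [lBox, List.mem_dedup, List.mem_flatMap] at hb
    obtain ⟨u, hu, hb⟩ := hb
    obtain ⟨c', -, rfl⟩ := List.mem_map.1 hb
    exact List.mem_map.2 ⟨⟨u⟩, List.mem_map.2 ⟨_, hu, rfl⟩, rfl⟩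

theorem pt_qBox {l : α → List (Cell × ℕ)} (hT : PT ∅ T) (hT' : PBd T)
    (hl : PT ∅ fun a => (l a).map fun b => (b.1, Un.mk b.2)) : PT ∅ fun a => qBox (T a) (l a) :=
  PT.congr (PT.flatMap (f := fun a (b : Cell × Un) => [kD (T a) b.1, kH (T a) b.1 b.2.v]) hl
    (by fun_prop)) fun a => by rw [List.flatMap_map]; rfl

variable {o : α → Key → List ℕ} {DD : α → ℕ → Cell → ℕ} {HH UU : α → ℕ → Cell → ℕ → ℕ}
  {A : α → ℕ → ℕ → ℕ → ℕ → List ℕ} {cc : α → ℕ → ℕ → ℕ} {k : α → Key}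

theorem pt_qH (eD : ∀ a, oD (o a) = DD a) (eH : ∀ a, oH (o a) = HH a) (hP : PT ∅ P)
    (hs : PT ∅ fun p : α × ℕ => sd p.1 p.2) (ht : PT ∅ t) (ht' : PBd t) (hT : PT ∅ T)
    (hT' : PBd T) (hc : PT ∅ c) (hτ : PT ∅ τ) (hτ' : PBd τ) (hph : PT ∅ ph)
    (hD : PT ∅ fun p : α × ℕ × Cell => DD p.1 p.2.1 p.2.2)
    (hH : PT ∅ fun p : α × ℕ × Cell × ℕ => HH p.1 p.2.1 p.2.2.1 p.2.2.2) :
    PT ∅ fun a => qH (P a) (sd a) (t a) (T a) (c a) (τ a) (ph a) (o a) := by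
  simp only [qH, eD, eH]
  exact PT.ite (by fun_prop) (by fun_prop) (PT.ite (by fun_prop) (by fun_prop)
    (PT.ite (by fun_prop) (pt_qBox hT hT' (pt_sBox hP hs (by fun_prop) hc hτ hτ'))
      (PT.ite (pt_isTrue (by fun_prop)) (by fun_prop)
        (pt_qBox hT hT' (pt_lBox hP (by fun_prop) (by fun_prop))))))

theorem pt_qU (eD : ∀ a, oD (o a) = DD a) (eH : ∀ a, oH (o a) = HH a) (eU : ∀ a, oU (o a) = UU a)
    (hP : PT ∅ P) (hs : PT ∅ fun p : α × ℕ => sd p.1 p.2) (ht : PT ∅ t) (ht' : PBd t)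
    (hT : PT ∅ T) (hT' : PBd T) (he : PT ∅ e) (hτ : PT ∅ τ) (hτ' : PBd τ) (hph : PT ∅ ph)
    (hD : PT ∅ fun p : α × ℕ × Cell => DD p.1 p.2.1 p.2.2)
    (hH : PT ∅ fun p : α × ℕ × Cell × ℕ => HH p.1 p.2.1 p.2.2.1 p.2.2.2)
    (hU : PT ∅ fun p : α × ℕ × Cell × ℕ => UU p.1 p.2.1 p.2.2.1 p.2.2.2) :
    PT ∅ fun a => qU (P a) (sd a) (t a) (T a) (e a) (τ a) (ph a) (o a) := by
  simp only [qU, eD, eH, eU, flatMap_rangeU, map_rangeU]
  have hR : PT ∅ fun p : α × Cell => DD p.1 (t p.1) p.2 := by fun_prop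
  refine PT.ite (by fun_prop) (by fun_prop) (PT.ite (by fun_prop) (by fun_prop)
    (PT.ite (pt_isTrue (by fun_prop)) (PT.ite (by fun_prop) (PT.append ?_ (by fun_prop))
      (by fun_prop)) (by fun_prop)))
  exact PT.congr (PT.map (f := fun a (b : Cell × Un) => kH (T a) b.1 b.2.v)
    (pt_lBox (R := fun a => DD a (t a)) hP hR he) (by fun_prop)) fun a => by
      rw [List.map_map]; rfl

theorem pt_qsF (eD : ∀ a, oD (o a) = DD a) (eH : ∀ a, oH (o a) = HH a) (eU : ∀ a, oU (o a) = UU a)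
    (hP : PT ∅ P) (hs : PT ∅ fun p : α × ℕ => sd p.1 p.2) (hph : PT ∅ ph) (hk : PT ∅ k)
    (hD : PT ∅ fun p : α × ℕ × Cell => DD p.1 p.2.1 p.2.2)
    (hH : PT ∅ fun p : α × ℕ × Cell × ℕ => HH p.1 p.2.1 p.2.2.1 p.2.2.2)
    (hU : PT ∅ fun p : α × ℕ × Cell × ℕ => UU p.1 p.2.1 p.2.2.1 p.2.2.2) :
    PT ∅ fun a => qsF (P a) (sd a) (ph a) (k a) (o a) := by
  simp only [qsF, map_rangeU]
  exact PT.ite (by fun_prop) (by fun_prop) (PT.ite (by fun_prop) (by fun_prop)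
    (PT.ite (by fun_prop) (by fun_prop) (PT.ite (by fun_prop)
      (pt_qH eD eH hP (by fun_prop) (by fun_prop) (by fun_prop) (by fun_prop) (by fun_prop)
        (by fun_prop) (by fun_prop) (by fun_prop) hph hD hH)
      (PT.ite (by fun_prop)
        (pt_qU eD eH eU hP (by fun_prop) (by fun_prop) (by fun_prop) (by fun_prop) (by fun_prop)
          (by fun_prop) (by fun_prop) (by fun_prop) hph hD hH hU) (by fun_prop)))))

theorem pt_bodyF (ec : ∀ a, oc (o a) = cc a) (eA : ∀ a, oA (o a) = A a)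
    (eD : ∀ a, oD (o a) = DD a) (eH : ∀ a, oH (o a) = HH a) (eU : ∀ a, oU (o a) = UU a)
    (hP : PT ∅ P) (hs : PT ∅ fun p : α × ℕ => sd p.1 p.2) (hk : PT ∅ k) (hb : PT ∅ b)
    (hc : PT ∅ fun p : α × ℕ × ℕ => cc p.1 p.2.1 p.2.2)
    (hA : PT ∅ fun p : α × ℕ × ℕ × ℕ × ℕ => A p.1 p.2.1 p.2.2.1 p.2.2.2.1 p.2.2.2.2)
    (hD : PT ∅ fun p : α × ℕ × Cell => DD p.1 p.2.1 p.2.2)
    (hH : PT ∅ fun p : α × ℕ × Cell × ℕ => HH p.1 p.2.1 p.2.2.1 p.2.2.2)
    (hU : PT ∅ fun p : α × ℕ × Cell × ℕ => UU p.1 p.2.1 p.2.2.1 p.2.2.2) :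
    PT ∅ fun a => bodyF (P a) (sd a) (k a) (b a) (o a) := by
  simp only [bodyF, ec, eA, eD, eH, eU]
  exact PT.ite (by fun_prop) (by fun_prop) (PT.ite (by fun_prop) (by fun_prop)
    (PT.ite (by fun_prop) (by fun_prop) (PT.ite (by fun_prop) (by fun_prop)
      (PT.ite (by fun_prop) (by fun_prop) (by fun_prop)))))

variable {l : α → List (Key × List ℕ)}

theorem pt_oc (hl : PT ∅ l) : PT ∅ fun p : α × ℕ × ℕ => oc (look (l p.1)) p.2.1 p.2.2 :=
  PT.headD (pt_look (by fun_prop) (by fun_prop) (by fun_prop) (by fun_prop) (by fun_prop)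
    (by fun_prop) (by fun_prop) (by fun_prop) (by fun_prop) (by fun_prop)) (PT.const 0)

theorem pt_oA (hl : PT ∅ l) : PT ∅ fun p : α × ℕ × ℕ × ℕ × ℕ =>
    oA (look (l p.1)) p.2.1 p.2.2.1 p.2.2.2.1 p.2.2.2.2 :=
  pt_look (by fun_prop) (by fun_prop) (by fun_prop) (by fun_prop) (by fun_prop)
    (by fun_prop) (by fun_prop) (by fun_prop) (by fun_prop) (by fun_prop)

theorem pt_lookC {g : ℕ} (hl : PT ∅ l) (hT : PT ∅ T) (hc : PT ∅ c) (hτ : PT ∅ τ) :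
    PT ∅ fun a => (look (l a) ⟨g, T a, c a, τ a⟩).headD 0 :=
  PT.headD (pt_look hl (PT.const g) hT hτ (pt_j hc) (pt_i hc) (pt_ka hc) (pt_x hc) (pt_p hc)
    (pt_q hc)) (PT.const 0)

theorem pt_oD (hl : PT ∅ l) : PT ∅ fun p : α × ℕ × Cell => oD (look (l p.1)) p.2.1 p.2.2 :=
  pt_lookC (by fun_prop) (by fun_prop) (by fun_prop) (by fun_prop)

theorem pt_oH (hl : PT ∅ l) :
    PT ∅ fun p : α × ℕ × Cell × ℕ => oH (look (l p.1)) p.2.1 p.2.2.1 p.2.2.2 :=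
  pt_lookC (by fun_prop) (by fun_prop) (by fun_prop) (by fun_prop)

theorem pt_oU (hl : PT ∅ l) :
    PT ∅ fun p : α × ℕ × Cell × ℕ => oU (look (l p.1)) p.2.1 p.2.2.1 p.2.2.2 :=
  pt_lookC (by fun_prop) (by fun_prop) (by fun_prop) (by fun_prop)

theorem ext_main : PT ∅ fun p : (Par × List ℕ) × Key => mach.ext p.1 p.2 := by
  simp only [mach, extF]
  fun_prop

theorem pt_sds {L : α → List ℕ} (hL : PT ∅ L) : PT ∅ fun p : α × ℕ => sds (L p.1) p.2 := by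
  unfold sds; fun_prop

theorem qs_main : PT ∅ fun p : (Par × List ℕ) × ℕ × Key × List (Key × List ℕ) =>
    mach.qs p.1 p.2.1 p.2.2.1 (look p.2.2.2) :=
  pt_qsF (P := fun p : (Par × List ℕ) × ℕ × Key × List (Key × List ℕ) => p.1.1)
    (sd := fun p => sds p.1.2) (ph := fun p => p.2.1) (k := fun p => p.2.2.1)
    (o := fun p => look p.2.2.2) (DD := fun p => oD (look p.2.2.2))
    (HH := fun p => oH (look p.2.2.2)) (UU := fun p => oU (look p.2.2.2))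
    (fun _ => rfl) (fun _ => rfl) (fun _ => rfl) PT.fst'.fst (pt_sds PT.fst'.snd)
    PT.snd'.fst PT.snd'.snd.fst (pt_oD PT.snd'.snd.snd) (pt_oH PT.snd'.snd.snd)
    (pt_oU PT.snd'.snd.snd)

theorem body_main : PT ∅ fun p : (Par × List ℕ) × Key × ℕ × List (Key × List ℕ) =>
    mach.body p.1 p.2.1 p.2.2.1 (look p.2.2.2) :=
  pt_bodyF (P := fun p : (Par × List ℕ) × Key × ℕ × List (Key × List ℕ) => p.1.1)
    (sd := fun p => sds p.1.2) (k := fun p => p.2.1) (b := fun p => p.2.2.1)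
    (o := fun p => look p.2.2.2) (cc := fun p => oc (look p.2.2.2))
    (A := fun p => oA (look p.2.2.2)) (DD := fun p => oD (look p.2.2.2))
    (HH := fun p => oH (look p.2.2.2)) (UU := fun p => oU (look p.2.2.2))
    (fun _ => rfl) (fun _ => rfl) (fun _ => rfl) (fun _ => rfl) (fun _ => rfl)
    PT.fst'.fst (pt_sds PT.fst'.snd) PT.snd'.fst PT.snd'.snd.fst (pt_oc PT.snd'.snd.snd)
    (pt_oA PT.snd'.snd.snd) (pt_oD PT.snd'.snd.snd) (pt_oH PT.snd'.snd.snd)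
    (pt_oU PT.snd'.snd.snd)

end Vale.Agent.P315Z.PtT
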