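import Vale.Agent.P315Z.Pt0
import Vale.Agent.P315Z.PtB

/-! P315Z: polynomial time of the scheme. -/

set_option autoImplicit false

namespace Vale.Agent.P315Z

open Vale.Agent.Lib.PolyTime

theorem pt_ext : PT ∅ fun p : (Par × List ℕ) × Key => mach.ext p.1 p.2 := PtT.ext_main

theorem pt_qs : PT ∅ fun p : (Par × List ℕ) × ℕ × Key × List (Key × List ℕ) =>
    mach.qs p.1 p.2.1 p.2.2.1 (look p.2.2.2) := PtT.qs_main

theorem pt_body : PT ∅ fun p : (Par × List ℕ) × Key × ℕ × List (Key × List ℕ) =>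
    mach.body p.1 p.2.1 p.2.2.1 (look p.2.2.2) := PtT.body_main

end Vale.Agent.P315Z
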