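import Vale.Agent.P315Z.Epoch
import Vale.Agent.P315Z.Count
import Vale.Agent.P315Z.Pt

/-! P315Z: the assembly. -/

set_option autoImplicit false

namespace Vale.Agent.P315Z

open Vale.Agent.P315 Vale.Agent.P315.RAM
open Vale.Agent.Lib.PolyTime (PT Enc esize esize_list_le)

/-- The parameters of the main program. -/
def bitF : BitF where
  m := fun p => mb p.1 p.2
  N := fun p => (par p.1 p.2).N
  e := fun p => (par p.1 p.2).E
  Q := fun p => 2 ^ (par p.1 p.2).lQ
  D := fun p => p.2 + 1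
  pt_m := pt_mb
  pt_N := pt_N
  pt_e := pt_E
  pt_Q := pt_Q
  pt_D := Lib.PolyTime.PT.add Lib.PolyTime.PT.snd' (Lib.PolyTime.PT.const 1)

/-- The strategy. -/
def strat0 : Strat (MState (Par × List ℕ) Key) :=
  mach.strat parF (fun _ => kO) pt_parF (Lib.PolyTime.PT.const kO) pt_keyEq pt_ext pt_qs pt_body

namespace Final

theorem NS_le_N (P : Par) : P.NS ≤ P.N := by
  unfold Par.N Par.nb
  refine Nat.le_mul_of_pos_left _ ?_
  positivity

theorem parF_feed (lx ly : ℕ) {cs : List ℕ} (h : cs.length = (par lx ly).N) :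
    parF ([lx, ly] ++ cs) = (par lx ly, cs) := by
  have h1 := NS_le_N (par lx ly)
  have h2 : (par lx ly).NS ≤ ([lx, ly] ++ cs).length := by
    simp only [List.length_append, List.length_cons, List.length_nil]
    omega
  unfold parF
  have e0 : ([lx, ly] ++ cs).getD 0 0 = lx := rfl
  have e1 : ([lx, ly] ++ cs).getD 1 0 = ly := rfl
  rw [e0, e1, if_pos h2]
  rfl

theorem bitOf_le (x y : List ℕ) (D q : ℕ) : bitOf x y D q ≤ 1 := by
  unfold bitOf
  split_ifs <;> omega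

theorem runOk_mono {α : Type} [Enc α] {St : Strat α} {ans : ℕ → List ℕ} {Q : ℕ} {feed : List ℕ}
    {S S' Vb R : ℕ} (h : St.RunOk ans Q feed S Vb R) (hS : S ≤ S') :
    St.RunOk ans Q feed S' Vb R :=
  ⟨h.ask, fun t ht j hj => (h.size t ht j hj).trans hS, h.sizeQ.trans hS, h.out⟩

theorem esize_arg (P : Par) {cs : List ℕ} (h : cs.length = P.N) (hv : ∀ v ∈ cs, v < P.E) :
    esize (P, cs) ≤ 2 * esize P + 1 + P.N * (2 * P.lE + 1) := by
  rw [esize_pair]
  have h1 : esize cs ≤ cs.length * (2 * P.lE + 1) :=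
    esize_list_le fun v hv' => esize_nat_le (hv v hv')
  rw [h] at h1
  omega

/-- The run of the strategy, for given parameters. -/
theorem run0 {P : Par} (hP : P.Ok) {cs feed : List ℕ} (hf : parF feed = (P, cs))
    (h : cs.length = P.N) (hv : ∀ v ∈ cs, v < P.E) {bit : ℕ → ℕ} (hb : ∀ q, bit q ≤ 1)
    {R : ℕ} (hR : 2 * P.B ^ P.k ≤ R) :
    strat0.fin (fun q => [bit q]) (2 ^ P.lQ) feed = outv P ((sysOf P (sds cs) bit).D P.Tend) ∧
      strat0.RunOk (fun q => [bit q]) (2 ^ P.lQ) feed P.szS ((P.lx + 1) * (P.ly + 1)) R := by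
  obtain ⟨Ok, W, h0, hW, hB, hout⟩ := mach_bounds hP cs hb
  have hB' : mach.Bounds (parF feed) bit Ok W P.KB P.VB (2 ^ P.lT) ((P.lx + 1) * (P.ly + 1)) := by
    rw [hf]; exact hB
  have hout' : (mach.val (parF feed) bit kO).headD 0 ≤ R := by
    rw [hf]; exact hout.trans hR
  have key := mach.run_ok parF (fun _ => kO) pt_parF (Lib.PolyTime.PT.const kO) pt_keyEq pt_ext
    pt_qs pt_body feed bit (mach_wf _) (Q := 2 ^ P.lQ)
    (Nat.mul_pos (Nat.succ_pos _) (Nat.succ_pos _)) hB' h0 hW hout'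
  obtain ⟨key1, key2⟩ := key
  rw [hf] at key1 key2
  refine ⟨key1.trans (val_kO _ _ _), runOk_mono key2 ?_⟩
  have h1 := esize_arg P h hv
  have h2 : mach.rank (P, cs) kO + 1 = 6 + 3 * (P.Tend + P.k) := by
    show rankF P kO + 1 = _
    simp [rankF, kO]
    omega
  rw [h2]
  unfold Par.szS
  omega

/-- The run of the strategy. -/
theorem run {x y : List ℕ} (hP : (par x.length y.length).Ok) {cs : List ℕ}
    (h : cs.length = (par x.length y.length).N) (hv : ∀ v ∈ cs, v < (par x.length y.length).E)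
    {R : ℕ} (hR : 2 * (par x.length y.length).B ^ (par x.length y.length).k ≤ R) :
    strat0.fin (bitF.ans x y) (bitF.Q (len2 x y)) ([x.length, y.length] ++ cs) =
        outv (par x.length y.length) ((sysOf (par x.length y.length) (sds cs)
          (bitOf x y (y.length + 1))).D (par x.length y.length).Tend) ∧
      strat0.RunOk (bitF.ans x y) (bitF.Q (len2 x y)) ([x.length, y.length] ++ cs)
        (par x.length y.length).szS ((x.length + 1) * (y.length + 1)) R :=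
  run0 hP (parF_feed x.length y.length h) h hv (bitOf_le x y (y.length + 1)) hR

/-- The bound for the time: the largest cost for lengths with maximum `n`. -/
def tim (k₁ k₂ c0 n : ℕ) : ℕ :=
  c0 + 8 + ((Finset.range (n + 1) ×ˢ Finset.range (n + 1)).filter fun p => max p.1 p.2 = n).sup
    fun p => mainCost k₁ k₂ (p.1 + p.2) (mb p.1 p.2) (2 + (par p.1 p.2).N)
      (2 ^ (par p.1 p.2).lQ) (par p.1 p.2).szS 1 50

theorem tim_le (k₁ k₂ c0 : ℕ) {δ : ℝ} (hδ : 0 < δ) :
    ∃ C : ℝ, ∀ n : ℕ, (tim k₁ k₂ c0 n : ℝ) ≤ C * ((n : ℝ) + 1) ^ (1 + δ) := by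
  obtain ⟨C, hC⟩ := par_cost k₁ k₂ hδ
  refine ⟨c0 + 8 + max C 0, fun n => ?_⟩
  have h1 : (1 : ℝ) ≤ ((n : ℝ) + 1) ^ (1 + δ) :=
    Real.one_le_rpow (by have : (0 : ℝ) ≤ n := Nat.cast_nonneg n; linarith) (by linarith)
  have h0 : (0 : ℝ) ≤ max C 0 * ((n : ℝ) + 1) ^ (1 + δ) :=
    mul_nonneg (le_max_right _ _) (by linarith)
  have h2 : ((((Finset.range (n + 1) ×ˢ Finset.range (n + 1)).filter
      fun p => max p.1 p.2 = n).sup fun p => mainCost k₁ k₂ (p.1 + p.2) (mb p.1 p.2)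
        (2 + (par p.1 p.2).N) (2 ^ (par p.1 p.2).lQ) (par p.1 p.2).szS 1 50 : ℕ) : ℝ) ≤
      max C 0 * ((n : ℝ) + 1) ^ (1 + δ) := by
    rw [← Nat.le_floor_iff h0, Finset.sup_le_iff]
    intro p hp
    rw [Nat.le_floor_iff h0]
    have h3 := hC p.1 p.2
    rw [(Finset.mem_filter.1 hp).2] at h3
    exact h3.trans (mul_le_mul_of_nonneg_right (le_max_left _ _) (by linarith))
  unfold tim
  push_cast
  have h4 : (0 : ℝ) ≤ (c0 : ℝ) + 8 := by positivity
  nlinarith [mul_le_mul_of_nonneg_left h1 h4]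

theorem cost_le (k₁ k₂ c0 : ℕ) (x y : List ℕ) :
    bitF.cost k₁ k₂ x y (par x.length y.length).szS + 8 ≤
      tim k₁ k₂ c0 (max x.length y.length) := by
  have h : (fun p : ℕ × ℕ => mainCost k₁ k₂ (p.1 + p.2) (mb p.1 p.2) (2 + (par p.1 p.2).N)
      (2 ^ (par p.1 p.2).lQ) (par p.1 p.2).szS 1 50) (x.length, y.length) ≤ _ :=
    Finset.le_sup (s := (Finset.range (max x.length y.length + 1) ×ˢ
      Finset.range (max x.length y.length + 1)).filter
        fun p => max p.1 p.2 = max x.length y.length) (b := (x.length, y.length))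
      (f := fun p : ℕ × ℕ => mainCost k₁ k₂ (p.1 + p.2) (mb p.1 p.2) (2 + (par p.1 p.2).N)
        (2 ^ (par p.1 p.2).lQ) (par p.1 p.2).szS 1 50)
      (by simp only [Finset.mem_filter, Finset.mem_product, Finset.mem_range, and_true]; omega)
  unfold tim
  exact (Nat.add_le_add_right h 8).trans (by omega)

theorem success {x y : List ℕ} (hOk : (par x.length y.length).Ok) {ε : ℝ}
    (hε : 64 ≤ ε * 2 ^ (par x.length y.length).le) :
    2 * Nat.card (Fin (bitF.N (len2 x y)) → Fin (bitF.e (len2 x y))) ≤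
      3 * Nat.card {c : Fin (bitF.N (len2 x y)) → Fin (bitF.e (len2 x y)) //
        ED x y ≤ strat0.fin (bitF.ans x y) (bitF.Q (len2 x y))
          (H873.feedP [x.length, y.length] c) ∧
        ((strat0.fin (bitF.ans x y) (bitF.Q (len2 x y))
          (H873.feedP [x.length, y.length] c) : ℕ) : ℝ) ≤ (1 + ε) * ED x y} := by
  have key : ∀ (P : Par), P.Ok → P.lx = x.length → P.ly = y.length → 64 ≤ ε * 2 ^ P.le →
      2 * Nat.card (Fin P.N → Fin P.E) ≤ 3 * Nat.card {u : Fin P.N → Fin P.E //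
        ED x y ≤ outv P ((sysOf P (bv u) (bitOf x y (P.ly + 1))).D P.Tend) ∧
          (outv P ((sysOf P (bv u) (bitOf x y (P.ly + 1))).D P.Tend) : ℝ) ≤
            (1 + ε) * ED x y} := by
    intro P h1 h2 h3 h4
    have key2 : ∀ (c : ℕ → ℕ → ℕ) (F : Fam P c), c = cbit x y P.lx →
        2 * Nat.card (Fin P.N → Fin P.E) ≤ 3 * Nat.card {u : Fin P.N → Fin P.E //
          ED x y ≤ outv P ((F.sys (bv u)).D P.Tend) ∧
            (outv P ((F.sys (bv u)).D P.Tend) : ℝ) ≤ (1 + ε) * ED x y} := by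
      intro c F hc
      subst hc
      exact prob_main h1 x y h2 h3 F h4
    exact key2 _ (famOf P (bitOf x y (P.ly + 1))) (cOf_bitOf h2 h3)
  refine (key _ hOk rfl rfl hε).trans (le_of_eq ?_)
  refine congrArg (fun v => 3 * v) (Nat.card_congr (Equiv.subtypeEquivRight fun u => ?_))
  have hr := (run (x := x) (y := y) hOk (cs := List.ofFn fun i => (u i : ℕ)) List.length_ofFn
    (by
      intro v hv
      obtain ⟨i, rfl⟩ := List.mem_ofFn.1 hv
      exact (u i).isLt) le_rfl).1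
  rw [sds_ofFn] at hr
  have e : strat0.fin (bitF.ans x y) (bitF.Q (len2 x y)) (H873.feedP [x.length, y.length] u) =
      outv (par x.length y.length) ((sysOf (par x.length y.length) (bv u)
        (bitOf x y ((par x.length y.length).ly + 1))).D (par x.length y.length).Tend) := hr
  exact (e ▸ Iff.rfl)

theorem fits : ∃ n0 c1, ∀ x y : List ℕ, n0 ≤ max x.length y.length →
    bitF.Fits x y (par x.length y.length).szS ((x.length + 1) * (y.length + 1))
      ((max x.length y.length + 2) ^ c1) ∧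
    2 * (par x.length y.length).B ^ (par x.length y.length).k ≤
      (max x.length y.length + 2) ^ c1 := by
  obtain ⟨n3, c1, h3⟩ := par_fits
  refine ⟨n3, c1, fun x y hn => ?_⟩
  obtain ⟨a1, a2, a3, a4, a5, a6, a7, a8, a9, a10, a11⟩ := h3 x.length y.length hn
  exact ⟨⟨a1, a2, a3, Nat.two_pow_pos _, a4, a5, a6, a7, a8, a9, a10,
    le_trans (Nat.le_mul_of_pos_left _ (Nat.succ_pos _)) a10⟩, a11⟩

end Final

open Final

/-- One program whose time is `n ^ (1 + o(1))`. -/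
theorem almost_linear {ε : ℝ} (hε : 0 < ε) : ∃ (k : ℕ) (P : Prog) (t : ℕ → ℝ),
    Top.Solves P (fun x y D => ED x y ≤ D ∧ (D : ℝ) ≤ (1 + ε) * ED x y) t k ∧
      ∀ δ : ℝ, 0 < δ → ∃ C : ℝ, ∀ n : ℕ, t n ≤ C * ((n : ℝ) + 1) ^ (1 + δ) := by
  obtain ⟨k₂, hk₂⟩ := bit_solves strat0
  obtain ⟨n1, h1⟩ := par_ok
  obtain ⟨n2, h2⟩ := par_le hε
  obtain ⟨n3, c1, h3⟩ := fits
  obtain ⟨n0, hn0, hn1, hn2, hn3⟩ : ∃ n0, 1 ≤ n0 ∧ n1 ≤ n0 ∧ n2 ≤ n0 ∧ n3 ≤ n0 :=
    ⟨n1 + n2 + n3 + 1, by omega, by omega, by omega, by omega⟩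
  obtain ⟨k₁, hk₁⟩ := hk₂ bitF n0 c1 (fun x y => (par x.length y.length).szS)
    (fun x y => (x.length + 1) * (y.length + 1)) hn0
    (fun x y hn => (h3 x y (hn3.trans hn)).1)
    (fun x y _ => ⟨(par x.length y.length).lE, rfl⟩)
    (fun x y hn cs hcs hv =>
      (run (h1 x.length y.length (hn1.trans hn)) hcs hv (h3 x y (hn3.trans hn)).2).2)
  obtain ⟨P, k, hP⟩ := hk₁ (fun x y D => ED x y ≤ D ∧ (D : ℝ) ≤ (1 + ε) * ED x y)
    (fun n => (tim k₁ k₂ (360 * ((n0 + 1) * (2 * n0 + 1)) + 10) n : ℝ))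
    (fun x y _ => Nat.cast_le.2 (cost_le k₁ k₂ _ x y))
    (fun n _ => Nat.cast_le.2 ((Nat.le_add_right _ 8).trans (Nat.le_add_right _ _)))
    (fun x y => ⟨le_rfl, by
      have : (0 : ℝ) ≤ ε * ED x y := mul_nonneg hε.le (Nat.cast_nonneg _)
      linarith⟩)
    (fun x y hn => success (h1 x.length y.length (hn1.trans hn))
      (h2 x.length y.length (hn2.trans hn)))
  exact ⟨k, P, _, hP, fun δ hδ => tim_le k₁ k₂ _ hδ⟩

end Vale.Agent.P315Z
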