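import Vale.Agent.P315Z.Base
import Vale.Agent.P315.H519.RunsW

/-! P315Z: the regret bound of the optimistic learner on paths with row weights. -/

set_option autoImplicit false

namespace Vale.Agent.P315Z

open Finset Vale.Agent.P315
open Vale.Agent.P315.H763 (SolvedW picksW)

/-- One coordinate, with the factor `1 + γ`. -/
theorem coordG {x y s γ : ℝ} (hx : 0 ≤ x) (hy : 0 < y) (hs0 : 0 ≤ s) (hs1 : s ≤ γ)
    (hγ1 : γ ≤ 1) :
    x - y * (1 + (1 + γ) * s) ≤ x * Real.log x - x * Real.log y - s * x := by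
  have hγ0 : 0 ≤ γ := hs0.trans hs1
  rcases eq_or_lt_of_le hx with h0 | hxpos
  · rw [← h0]
    have : 0 ≤ y * (1 + (1 + γ) * s) := by positivity
    simp only [zero_mul, mul_zero, sub_zero]
    linarith
  · have hexp : Real.exp s ≤ 1 + (1 + γ) * s := by
      have h := Real.abs_exp_sub_one_sub_id_le (x := s)
        (by rw [abs_of_nonneg hs0]; exact hs1.trans hγ1)
      have h2 := le_abs_self (Real.exp s - 1 - s)
      have h3 : s ^ 2 ≤ γ * s := by nlinarith
      linarith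
    have hz : 0 < y * Real.exp s := mul_pos hy (Real.exp_pos s)
    have hlog : Real.log (y * Real.exp s) = Real.log y + s := by
      rw [Real.log_mul hy.ne' (Real.exp_pos s).ne', Real.log_exp]
    have h1 : 1 - (x / (y * Real.exp s))⁻¹ ≤ Real.log (x / (y * Real.exp s)) :=
      Real.one_sub_inv_le_log_of_pos (div_pos hxpos hz)
    rw [Real.log_div hxpos.ne' hz.ne', hlog, inv_div] at h1
    have h2 : x * (1 - y * Real.exp s / x) ≤ x * (Real.log x - (Real.log y + s)) :=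
      mul_le_mul_of_nonneg_left h1 hx
    have h3 : x * (1 - y * Real.exp s / x) = x - y * Real.exp s := by
      field_simp
    have h4 : y * Real.exp s ≤ y * (1 + (1 + γ) * s) := mul_le_mul_of_nonneg_left hexp hy.le
    rw [h3] at h2
    nlinarith [h2, h4]

/-- The key inequality with the factor `1 + γ`. -/
theorem keyG {I E : Type*} [Fintype I] [Fintype E] [DecidableEq E] {PP : Set (I → E)}
    {a L xh q : I → E → ℝ} {e1 e2 γ : ℝ} (hγ0 : 0 ≤ γ) (hγ1 : γ ≤ 1) (he2 : 0 ≤ e2)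
    (ha : ∀ i e, 0 < a i e) (hs : SolvedW PP a L xh q e1 e2) {s : I → E → ℝ}
    (hs0 : ∀ i e, 0 ≤ s i e) (hs1 : ∀ i e, s i e ≤ γ * a i e) {x : I → E → ℝ}
    (hx : x ∈ H782.Flow PP) :
    H330.pair L xh + H519.entW a xh - (1 + γ) * H330.pair s xh - (e1 + 3 * e2) ≤
      H330.pair L x + H519.entW a x - H330.pair s x := by
  have h1 := H519.opt_flow hs hx
  obtain ⟨r, hr0, hr1, hr2⟩ := hs.q_le
  have h2 : ∀ i e, -(a i e * q i e) - (1 + γ) * (s i e * q i e) ≤
      a i e * (x i e * Real.log (x i e) - x i e) - (a i e * Real.log (q i e)) * x i e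
        - s i e * x i e := by
    intro i e
    have hai := ha i e
    have hg := coordG (x := x i e) (y := q i e) (s := s i e / a i e) (γ := γ)
      (H519.flow_nonneg hx i e) (hs.q_pos i e) (div_nonneg (hs0 i e) hai.le)
      ((div_le_iff₀ hai).2 (hs1 i e)) hγ1
    have hg2 := mul_le_mul_of_nonneg_left hg hai.le
    have e3 : a i e * (x i e - q i e * (1 + (1 + γ) * (s i e / a i e))) =
        a i e * x i e - a i e * q i e - (1 + γ) * (s i e * q i e) := by
      field_simp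
      ring
    have e4 : a i e * (x i e * Real.log (x i e) - x i e * Real.log (q i e)
        - s i e / a i e * x i e) =
        a i e * (x i e * Real.log (x i e)) - (a i e * Real.log (q i e)) * x i e
          - s i e * x i e := by
      field_simp
    rw [e3, e4] at hg2
    nlinarith [hg2]
  have h3 : -(∑ i, ∑ e, a i e * q i e) - (1 + γ) * H330.pair s q ≤
      H519.entW a x - H330.pair (fun i e => a i e * Real.log (q i e)) x - H330.pair s x := by
    unfold H519.entW H330.pair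
    rw [Finset.mul_sum, ← Finset.sum_neg_distrib, ← Finset.sum_sub_distrib,
      ← Finset.sum_sub_distrib, ← Finset.sum_sub_distrib]
    refine Finset.sum_le_sum fun i _ => ?_
    rw [Finset.mul_sum, ← Finset.sum_neg_distrib, ← Finset.sum_sub_distrib,
      ← Finset.sum_sub_distrib, ← Finset.sum_sub_distrib]
    exact Finset.sum_le_sum fun e _ => h2 i e
  have h4 : ∑ i, ∑ e, a i e * q i e ≤ ∑ i, ∑ e, a i e * xh i e + e2 := by
    refine le_trans ?_ (add_le_add_right hr1 _)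
    rw [← Finset.sum_add_distrib]
    refine Finset.sum_le_sum fun i _ => ?_
    rw [← Finset.sum_add_distrib]
    refine Finset.sum_le_sum fun e _ => ?_
    rw [← mul_add]
    exact mul_le_mul_of_nonneg_left (hr2 i e) (ha i e).le
  have h5 : H330.pair s q ≤ H330.pair s xh + e2 := by
    have : H330.pair s q ≤ H330.pair s xh + ∑ i, ∑ e, a i e * r i e := by
      unfold H330.pair
      rw [← Finset.sum_add_distrib]
      refine Finset.sum_le_sum fun i _ => ?_
      rw [← Finset.sum_add_distrib]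
      refine Finset.sum_le_sum fun e _ => ?_
      have h6 := mul_le_mul_of_nonneg_left (hr2 i e) (hs0 i e)
      have h8 : s i e ≤ a i e := by
        have := mul_le_mul_of_nonneg_right hγ1 (ha i e).le
        linarith [hs1 i e]
      have h7 := mul_le_mul_of_nonneg_right h8 (hr0 i e)
      linarith
    linarith
  have h6 : H519.entW a xh = ∑ i, ∑ e, a i e * (xh i e * Real.log (xh i e))
      - ∑ i, ∑ e, a i e * xh i e := by
    unfold H519.entW
    rw [← Finset.sum_sub_distrib]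
    refine Finset.sum_congr rfl fun i _ => ?_
    rw [← Finset.sum_sub_distrib]
    exact Finset.sum_congr rfl fun e _ => by ring
  have h7 := mul_le_mul_of_nonneg_left h5 (by linarith : (0 : ℝ) ≤ 1 + γ)
  have h8 : γ * e2 ≤ e2 := by nlinarith
  rw [h6]
  nlinarith [h1, h3, h4, h7, h8]

/-- Lower bound of the regulariser on the laws. -/
theorem entW_ge {I E : Type*} [Fintype I] [Fintype E] [DecidableEq E] [Nonempty E]
    {PP : Set (I → E)} {a : I → ℝ} (ha : ∀ i, 0 < a i) {x : I → E → ℝ}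
    (hx : x ∈ H782.Flow PP) :
    -((∑ i, a i) * Real.log (Fintype.card E) + ∑ i, a i) ≤ H519.entW (fun i _ => a i) x := by
  have hc : (0 : ℝ) < Fintype.card E := by exact_mod_cast Fintype.card_pos
  have h := H519.regW_ge (a := fun i _ => a i) (b := fun _ _ => Real.log (Fintype.card E))
    (fun i _ => ha i) (H519.flow_nonneg hx)
  have h1 : ∑ i, ∑ _e : E, a i * Real.exp (-(Real.log (Fintype.card E))) = ∑ i, a i := by
    refine Finset.sum_congr rfl fun i _ => ?_
    rw [Real.exp_neg, Real.exp_log hc, Finset.sum_const, Finset.card_univ, nsmul_eq_mul]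
    field_simp
  have h2 : H330.pair (fun (i : I) (_ : E) => a i * Real.log (Fintype.card E)) x =
      (∑ i, a i) * Real.log (Fintype.card E) := by
    unfold H330.pair
    rw [Finset.sum_mul]
    refine Finset.sum_congr rfl fun i _ => ?_
    rw [← Finset.mul_sum, (H782.flow_stoch hx).2 i, mul_one]
  rw [h1, h2] at h
  linarith

/-- Abstract form. `M t` are the hints, `U t` the losses of round `t`. -/
theorem ftrl {I E : Type*} [Fintype I] [Fintype E] [DecidableEq E] [Nonempty E]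
    {PP : Set (I → E)} {a : I → ℝ} (ha : ∀ i, 0 < a i) {M U : ℕ → I → E → ℝ} {cap γ : ℝ}
    (hcap : 0 < cap) (hγ0 : 0 < γ) (hγ1 : γ ≤ 1) {N : ℕ}
    (hUM : ∀ t < N, ∀ i e, U t i e ≤ M t i e)
    (hdrop : ∀ t < N, ∀ i e, M t i e - U t i e ≤ cap * a i)
    {xh q : ℕ → I → E → ℝ} {e1 e2 : ℝ} (he1 : 0 ≤ e1) (he2 : 0 ≤ e2)
    (hmem : ∀ t < N, xh t ∈ H782.Flow PP)
    (hsol : ∀ t < N, SolvedW PP (fun i _ => a i)
      (fun i e => γ / cap * ((1 + γ) * M t i e + ∑ j ∈ range t, (γ * M j i e + U j i e)))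
      (xh t) (q t) e1 e2)
    {p : I → E} (hp : p ∈ PP) :
    ∑ t ∈ range N, H782.val (U t) (xh t) ≤ ∑ t ∈ range N, ∑ i, U t i (p i) +
      γ * ∑ t ∈ range N, ∑ i, (M t i (p i) - U t i (p i)) +
      cap / γ * ((∑ i, a i) * Real.log (Fintype.card E) + N * (e1 + 3 * e2)) := by
  set B0 : ℝ := (∑ i, a i) * Real.log (Fintype.card E) + ∑ i, a i with hB0
  set err : ℝ := e1 + 3 * e2 with herr
  set η : ℝ := γ / cap with hη
  have hη0 : 0 < η := div_pos hγ0 hcap
  have hL : ∀ t (x : I → E → ℝ), H330.pair (fun i e => η * ((1 + γ) * M t i e +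
      ∑ j ∈ range t, (γ * M j i e + U j i e))) x =
      η * ((1 + γ) * H330.pair (M t) x +
        ∑ j ∈ range t, (γ * H330.pair (M j) x + H330.pair (U j) x)) := by
    intro t x
    rw [H330.pair_smul_left, H330.pair_add_left, H330.pair_smul_left, H519.pair_sum_left]
    congr 2
    refine Finset.sum_congr rfl fun j _ => ?_
    rw [H330.pair_add_left, H330.pair_smul_left]
  have hmain : ∀ t, t ≤ N → ∀ x ∈ H782.Flow PP,
      -B0 + η * ((1 + γ) * ∑ j ∈ range t, H330.pair (U j) (xh j)) - (t : ℝ) * err ≤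
      η * (∑ j ∈ range t, (γ * H330.pair (M j) x + H330.pair (U j) x)) +
        H519.entW (fun i _ => a i) x := by
    intro t
    induction t with
    | zero =>
      intro _ x hx
      have := entW_ge ha hx
      simp only [Finset.range_zero, Finset.sum_empty, mul_zero, Nat.cast_zero, zero_mul,
        add_zero, sub_zero, zero_add]
      exact this
    | succ t ih =>
      intro ht x hx
      have htN : t < N := ht
      rw [Finset.sum_range_succ, Finset.sum_range_succ]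
      have hs0 : ∀ i e, 0 ≤ η * (M t i e - U t i e) := fun i e =>
        mul_nonneg hη0.le (sub_nonneg.2 (hUM t htN i e))
      have hs1 : ∀ i (e : E), η * (M t i e - U t i e) ≤ γ * a i := fun i e => by
        have h := mul_le_mul_of_nonneg_left (hdrop t htN i e) hη0.le
        have h2 : η * (cap * a i) = γ * a i := by
          rw [hη]
          field_simp
        rwa [h2] at h
      have hk := keyG hγ0.le hγ1 he2 (fun i _ => ha i) (hsol t htN) hs0 hs1 hx
      rw [hL, hL, H330.pair_smul_left, H330.pair_smul_left, H330.pair_sub_left,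
        H330.pair_sub_left] at hk
      have h4 := ih htN.le (xh t) (hmem t htN)
      push_cast
      nlinarith [hk, h4]
  have h1 := hmain N le_rfl _ (subset_convexHull ℝ _ ⟨p, hp, rfl⟩)
  rw [H519.entW_ind] at h1
  have hpair : ∀ F : I → E → ℝ, H330.pair F (H782.ind p) = ∑ i, F i (p i) := fun F => by
    rw [H782.pair_eq_val, H782.val_ind]
  simp only [hpair, H782.pair_eq_val] at h1
  set SX := ∑ t ∈ range N, H782.val (U t) (xh t) with hSX
  set SU := ∑ t ∈ range N, ∑ i, U t i (p i) with hSU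
  set SD := ∑ t ∈ range N, ∑ i, (M t i (p i) - U t i (p i)) with hSD
  have hSD0 : 0 ≤ SD := Finset.sum_nonneg fun t ht => Finset.sum_nonneg fun i _ =>
    sub_nonneg.2 (hUM t (Finset.mem_range.1 ht) i (p i))
  have h2 : ∑ j ∈ range N, (γ * ∑ i, M j i (p i) + ∑ i, U j i (p i)) =
      (1 + γ) * SU + γ * SD := by
    rw [hSU, hSD, Finset.mul_sum, Finset.mul_sum, ← Finset.sum_add_distrib]
    refine Finset.sum_congr rfl fun j _ => ?_
    rw [Finset.sum_sub_distrib]
    ring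
  rw [h2] at h1
  set C : ℝ := (∑ i, a i) * Real.log (Fintype.card E) + N * err with hC
  have hC0 : 0 ≤ C := by
    have h3 : 0 ≤ ∑ i, a i := Finset.sum_nonneg fun i _ => (ha i).le
    have h4 : 0 ≤ Real.log (Fintype.card E : ℝ) := Real.log_natCast_nonneg _
    have h5 : 0 ≤ err := by rw [herr]; positivity
    rw [hC]
    positivity
  have h3 : η * ((1 + γ) * (SX - SU)) ≤ η * (γ * SD) + C := by
    rw [hC]
    rw [hB0] at h1
    nlinarith [h1]
  have h4 : cap / γ * η = 1 := by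
    rw [hη]
    field_simp
  have hcg : 0 < cap / γ := div_pos hcap hγ0
  have h5 := mul_le_mul_of_nonneg_left h3 hcg.le
  have h6 : cap / γ * (η * ((1 + γ) * (SX - SU))) = (1 + γ) * (SX - SU) := by
    rw [← mul_assoc, h4, one_mul]
  have h7 : cap / γ * (η * (γ * SD) + C) = γ * SD + cap / γ * C := by
    rw [mul_add, ← mul_assoc, h4, one_mul]
  rw [h6, h7] at h5
  have h8 : 0 ≤ γ * SD + cap / γ * C := by positivity
  by_cases h9 : SX - SU ≤ 0
  · linarith
  · have h10 : 0 ≤ γ * (SX - SU) := mul_nonneg hγ0.le (by linarith)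
    linarith

/-- The picks depend on the used entries only. -/
theorem lanes_congr {l1 rows nn c0 capd gd Am : ℕ} {W W' : ℕ → ℕ} {M U M' U' : ℕ → ℕ → ℕ → ℕ → ℕ}
    {t : ℕ} (hW : ∀ r < rows, W r = W' r)
    (hM : ∀ j ≤ t, ∀ r < rows, ∀ u < nn, ∀ v < nn, M j r u v = M' j r u v)
    (hU : ∀ j < t, ∀ r < rows, ∀ u < nn, ∀ v < nn, U j r u v = U' j r u v) :
    lanes l1 rows nn c0 capd gd Am W M U t = lanes l1 rows nn c0 capd gd Am W' M' U' t := by
  have htab : ∀ f f' : ℕ → ℕ → ℕ → ℕ, (∀ r < rows, ∀ u < nn, ∀ v < nn, f r u v = f' r u v) →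
      tab3 rows nn f = tab3 rows nn f' := by
    intro f f' h
    unfold tab3
    refine List.map_congr_left fun r hr => List.map_congr_left fun u hu =>
      List.map_congr_left fun v hv => ?_
    exact h r (List.mem_range.1 hr) u (List.mem_range.1 hu) v (List.mem_range.1 hv)
  unfold lanes
  congr 1
  · refine htab _ _ fun r hr u hu v hv => ?_
    rw [hM t le_rfl r hr u hu v hv]
    congr 3
    refine List.map_congr_left fun j hj => ?_
    have hj' := List.mem_range.1 hj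
    rw [hM j hj'.le r hr u hu v hv, hU j hj' r hr u hu v hv]
  · exact htab _ _ fun r hr _ _ _ _ => hW r hr

theorem tab3_length (rows nn : ℕ) (f : ℕ → ℕ → ℕ → ℕ) : (tab3 rows nn f).length = rows := by
  simp [tab3]

theorem tab3_nn {rows : ℕ} (hrows : 0 < rows) (nn : ℕ) (f : ℕ → ℕ → ℕ → ℕ) :
    H763.nn (tab3 rows nn f) = nn := by
  have h1 : (tab3 rows nn f).headD [] = (tab3 rows nn f).getD 0 [] := by
    cases (tab3 rows nn f) <;> rfl
  unfold H763.nn
  rw [h1]
  unfold tab3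
  rw [H763.getD_map_range _ _ _ hrows]
  simp

theorem tab3_ent {rows nn : ℕ} (f : ℕ → ℕ → ℕ → ℕ) {r u v : ℕ} (hr : r < rows) (hu : u < nn)
    (hv : v < nn) : H763.ent3 (tab3 rows nn f) r u v = f r u v := by
  unfold H763.ent3 H763.ent2 tab3
  rw [H763.getD_map_range _ _ _ hr, H763.getD_map_range _ _ _ hu, H763.getD_map_range _ _ _ hv]

theorem lsr_ftrl (n : ℕ) (f : ℕ → ℕ) :
    ((List.range n).map f).sum = ∑ i ∈ range n, f i := by
  induction n with
  | zero => simp
  | succ n ih =>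
    rw [List.range_succ, List.map_append, List.sum_append, ih, Finset.sum_range_succ]
    simp

theorem pcost_cast (rows : ℕ) (f : ℕ → ℕ → ℕ → ℕ) (g : ℕ → ℕ) :
    (pcost rows f g : ℝ) = ∑ i : Fin rows, (f i (g i) (g (i + 1)) : ℝ) := by
  unfold pcost
  rw [lsr_ftrl, Nat.cast_sum,
    ← Fin.sum_univ_eq_sum_range (fun i => ((f i (g i) (g (i + 1)) : ℕ) : ℝ))]

/-- The greedy run with the dimensions as parameters. -/
theorem greedy_dim {S Q R Am rows nn : ℕ} (hS : 0 < S) (hQ : 0 < Q) (hR : 0 < R) (T : ℕ)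
    (Li W : List (List (List ℕ))) (h1 : Li.length = rows) (h2 : H763.nn Li = nn)
    (hrows : 0 < rows) (hnn : 0 < nn)
    (hW : ∀ i < rows, ∀ u < nn, ∀ v < nn, H763.ent3 W i u v ≤ Am) :
    H763.GreedyW (fun (i : Fin rows) (e : Fin nn × Fin nn) => (H763.ent3 W i e.1 e.2 : ℝ))
      (fun i e => (H763.ent3 Li i e.1 e.2 : ℝ) / (S * Q)) (H763.paths rows nn 0 0) T
      (2 * (rows * (Am * (1 / R + (T + nn * nn) * R / S))))
      (fun j => H763.edge rows nn hnn ((picksW S Q R Am 0 0 T Li W).getD j [])) := by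
  subst h1 h2
  exact H763.picksW_greedyW hS hQ hR 0 0 T Li W (List.length_pos_iff.mp hrows) hnn hnn hW

/-- The nodes of a pick are nodes of the table. -/
theorem picks_lt {S Q R Am rows nn T : ℕ} (Li W : List (List (List ℕ)))
    (h1 : Li.length = rows) (h2 : H763.nn Li = nn) (hrows : 0 < rows) (hnn : 0 < nn) {j : ℕ}
    (hj : j < T) {i : ℕ} (hi : i ≤ rows) :
    ((picksW S Q R Am 0 0 T Li W).getD j []).getD i 0 < nn := by
  subst h1 h2
  obtain ⟨f, hf, -, -, fj, -⟩ := H763.picksW_spec S Q R Am 0 0 T Li W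
    (List.length_pos_iff.mp hrows) hnn hnn hj
  rw [hf, H763.getD_map_range' _ _ (by omega)]
  exact fj i hi

/-- The error of the solver per row and unit weight. -/
theorem err_small {K m : ℝ} (hK : 32 ≤ K) (hm1 : 1 ≤ m) (hmK : m ≤ K) :
    ((m * Real.log (K ^ 4 + m) + 2 * m + (m + 1) * (1 + Real.log (K ^ 4))) / K ^ 2 +
      (K ^ 2 + m) / K ^ 4 + K ^ 2 / (K ^ 4 - K ^ 2)) +
      (K ^ 4 / K ^ 2 + 1) * (2 * (1 / K ^ 4 + (K ^ 4 + m) * K ^ 4 / K ^ 12)) +
      3 * (m / K ^ 4) ≤ 32 * m / K := by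
  have hK0 : 0 < K := by linarith
  have hK1 : 1 ≤ K := by linarith
  have hlogK : Real.log K ≤ K := by
    have := Real.log_le_sub_one_of_pos hK0
    linarith
  have hK2 : 32 * K ≤ K ^ 2 := by nlinarith
  have hK3 : 32 * K ^ 2 ≤ K ^ 3 := by
    have := mul_le_mul_of_nonneg_right hK (by positivity : (0 : ℝ) ≤ K ^ 2)
    nlinarith
  have hK4 : 32 * K ^ 3 ≤ K ^ 4 := by
    have := mul_le_mul_of_nonneg_right hK (by positivity : (0 : ℝ) ≤ K ^ 3)
    nlinarith
  have hK5 : 32 * K ^ 4 ≤ K ^ 5 := by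
    have := mul_le_mul_of_nonneg_right hK (by positivity : (0 : ℝ) ≤ K ^ 4)
    nlinarith
  have hP2 : 0 < K ^ 2 := by positivity
  have hP3 : 0 < K ^ 3 := by positivity
  have hP4 : 0 < K ^ 4 := by positivity
  have l1 : Real.log (K ^ 4 + m) ≤ 5 * K := by
    have h1 : Real.log (K ^ 4 + m) ≤ Real.log (K ^ 5) :=
      Real.log_le_log (by positivity) (by linarith)
    rw [Real.log_pow] at h1
    push_cast at h1
    linarith
  have l2 : Real.log (K ^ 4) ≤ 4 * K := by
    rw [Real.log_pow]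
    push_cast
    linarith
  have t1 : (m * Real.log (K ^ 4 + m) + 2 * m + (m + 1) * (1 + Real.log (K ^ 4))) / K ^ 2 ≤
      14 * m / K := by
    rw [div_le_div_iff₀ hP2 hK0]
    have a1 : m * Real.log (K ^ 4 + m) ≤ m * (5 * K) :=
      mul_le_mul_of_nonneg_left l1 (by linarith)
    have a2 : (m + 1) * (1 + Real.log (K ^ 4)) ≤ (2 * m) * (1 + 4 * K) :=
      mul_le_mul (by linarith) (by linarith)
        (by have := Real.log_nonneg (one_le_pow₀ (n := 4) hK1); linarith) (by linarith)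
    have a3 : 4 * m ≤ m * K := by nlinarith
    have a4 : m * Real.log (K ^ 4 + m) + 2 * m + (m + 1) * (1 + Real.log (K ^ 4)) ≤
        14 * m * K := by nlinarith
    have a5 := mul_le_mul_of_nonneg_right a4 hK0.le
    nlinarith
  have t2 : (K ^ 2 + m) / K ^ 4 ≤ 1 / K := by
    rw [div_le_div_iff₀ hP4 hK0]
    nlinarith
  have t3 : K ^ 2 / (K ^ 4 - K ^ 2) ≤ 1 / K := by
    rw [div_le_div_iff₀ (by linarith) hK0]
    nlinarith
  have t4 : (K ^ 4 / K ^ 2 + 1) * (2 * (1 / K ^ 4 + (K ^ 4 + m) * K ^ 4 / K ^ 12)) ≤ 1 / K := by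
    have a1 : K ^ 4 / K ^ 2 = K ^ 2 := by field_simp
    have a2 : (K ^ 4 + m) * K ^ 4 / K ^ 12 ≤ 2 / K ^ 4 := by
      rw [div_le_div_iff₀ (by positivity) hP4]
      have b1 : (K ^ 4 + m) ≤ 2 * K ^ 4 := by linarith
      have b2 := mul_le_mul_of_nonneg_right b1 (by positivity : (0 : ℝ) ≤ K ^ 8)
      calc (K ^ 4 + m) * K ^ 4 * K ^ 4 = (K ^ 4 + m) * K ^ 8 := by ring
        _ ≤ 2 * K ^ 4 * K ^ 8 := b2
        _ = 2 * K ^ 12 := by ring
    have a3 : 2 * (1 / K ^ 4 + (K ^ 4 + m) * K ^ 4 / K ^ 12) ≤ 6 / K ^ 4 := by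
      have : 2 * (1 / K ^ 4 + 2 / K ^ 4) = 6 / K ^ 4 := by ring
      linarith
    have a4 : K ^ 4 / K ^ 2 + 1 ≤ 2 * K ^ 2 := by
      rw [a1]
      linarith
    calc _ ≤ (2 * K ^ 2) * (6 / K ^ 4) :=
          mul_le_mul a4 a3 (by positivity) (by positivity)
      _ = 12 * K ^ 2 / K ^ 4 := by ring
      _ ≤ 1 / K := by
          rw [div_le_div_iff₀ hP4 hK0]
          nlinarith
  have t5 : 3 * (m / K ^ 4) ≤ 1 / K := by
    rw [← mul_div_assoc, div_le_div_iff₀ hP4 hK0]
    nlinarith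
  have t6 : 1 / K ≤ m / K := div_le_div_of_nonneg_right hm1 hK0.le
  have t7 : 32 * m / K = 14 * m / K + 18 * (m / K) := by ring
  have t8 : 0 ≤ m / K := by positivity
  linarith

/-- Regret of the uniform law on the picks against the node sequence `g`. -/
theorem lanes_regret {l1 rows nn c0 capd gd Am N ln lr : ℕ} (hrows : 0 < rows) (hnn : 0 < nn)
    (hc0 : 0 < c0) (hcapd : 0 < capd) (hgd : 0 < gd) (hln : nn ≤ 2 ^ ln)
    (hlr : N * rows ≤ 2 ^ lr) (hl1 : 2 * ln + lr + 5 ≤ l1)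
    {W : ℕ → ℕ} (hW0 : ∀ r < rows, 0 < W r) (hW1 : ∀ r < rows, W r ≤ Am)
    {M U : ℕ → ℕ → ℕ → ℕ → ℕ}
    (hUM : ∀ t < N, ∀ r < rows, ∀ u < nn, ∀ v < nn, U t r u v ≤ M t r u v)
    (hdrop : ∀ t < N, ∀ r < rows, ∀ u < nn, ∀ v < nn,
      c0 * capd * (M t r u v - U t r u v) ≤ W r)
    {g : ℕ → ℕ} (hg0 : g 0 = 0) (hg1 : g rows = 0) (hg : ∀ r ≤ rows, g r < nn) :
    ∑ t ∈ range N, (∑ j ∈ range (2 ^ (4 * l1)), (pcost rows (U t)
        (fun r => ((lanes l1 rows nn c0 capd gd Am W M U t).getD j []).getD r 0) : ℝ)) /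
          2 ^ (4 * l1) ≤
      ∑ t ∈ range N, (pcost rows (U t) g : ℝ) +
      (∑ t ∈ range N, ((pcost rows (M t) g : ℝ) - pcost rows (U t) g)) / gd +
      (gd : ℝ) / (capd * c0) * ((∑ r ∈ range rows, (W r : ℝ)) * (2 * ln) + Am) := by
  have : Nonempty (Fin nn × Fin nn) := ⟨(⟨0, hnn⟩, ⟨0, hnn⟩)⟩
  have hc0' : (0 : ℝ) < c0 := by exact_mod_cast hc0
  have hcapd' : (0 : ℝ) < capd := by exact_mod_cast hcapd
  have hgd' : (0 : ℝ) < gd := by exact_mod_cast hgd
  have hgd1 : (1 : ℝ) ≤ gd := by exact_mod_cast hgd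
  have hT : 0 < 2 ^ (4 * l1) := by positivity
  have hs : 0 < 2 ^ (2 * l1) := by positivity
  have hsT : 2 ^ (2 * l1) < 2 ^ (4 * l1) := Nat.pow_lt_pow_right (by norm_num) (by omega)
  have hcard : Fintype.card (Fin nn × Fin nn) = nn * nn := by
    rw [Fintype.card_prod, Fintype.card_fin]
  set pk : ℕ → ℕ → Fin rows → Fin nn × Fin nn := fun t j =>
    H763.edge rows nn hnn ((lanes l1 rows nn c0 capd gd Am W M U t).getD j []) with hpk
  set η : ℝ := 2 * (rows * (Am * (1 / ((2 ^ (4 * l1) : ℕ) : ℝ) +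
    (((2 ^ (4 * l1) : ℕ) : ℝ) + nn * nn) * ((2 ^ (4 * l1) : ℕ) : ℝ) /
      ((2 ^ (12 * l1) : ℕ) : ℝ)))) with hη
  have hη0 : 0 ≤ η := by rw [hη]; positivity
  have hgr : ∀ t, H763.GreedyW (fun (i : Fin rows) (_ : Fin nn × Fin nn) => (W i : ℝ))
      (fun i e => (1 / (gd : ℝ)) / (1 / (capd : ℝ)) * ((1 + 1 / (gd : ℝ)) *
        ((c0 : ℝ) * M t i e.1 e.2) + ∑ j ∈ range t, (1 / (gd : ℝ) * ((c0 : ℝ) * M j i e.1 e.2) +
          (c0 : ℝ) * U j i e.1 e.2))) (H763.paths rows nn 0 0) (2 ^ (4 * l1)) η (pk t) := by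
    intro t
    have h := greedy_dim (S := 2 ^ (12 * l1)) (Q := gd * gd) (R := 2 ^ (4 * l1)) (Am := Am)
      (by positivity) (Nat.mul_pos hgd hgd) hT (2 ^ (4 * l1))
      (tab3 rows nn fun r u v => 2 ^ (12 * l1) * capd * c0 *
        ((gd + 1) * M t r u v + ((List.range t).map fun j => M j r u v + gd * U j r u v).sum))
      (tab3 rows nn fun r _ _ => W r) (tab3_length _ _ _) (tab3_nn hrows _ _) hrows hnn
      (fun i hi u hu v hv => by rw [tab3_ent _ hi hu hv]; exact hW1 i hi)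
    have e1 : (fun (i : Fin rows) (e : Fin nn × Fin nn) =>
        (H763.ent3 (tab3 rows nn fun r _ _ => W r) i e.1 e.2 : ℝ)) =
        fun (i : Fin rows) (_ : Fin nn × Fin nn) => (W i : ℝ) := by
      funext i e
      rw [tab3_ent _ i.2 e.1.2 e.2.2]
    have e2 : (fun (i : Fin rows) (e : Fin nn × Fin nn) =>
        (H763.ent3 (tab3 rows nn fun r u v => 2 ^ (12 * l1) * capd * c0 *
          ((gd + 1) * M t r u v + ((List.range t).map fun j => M j r u v + gd * U j r u v).sum))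
          i e.1 e.2 : ℝ) / (((2 ^ (12 * l1) : ℕ) : ℝ) * ((gd * gd : ℕ) : ℝ))) =
        fun (i : Fin rows) (e : Fin nn × Fin nn) =>
          (1 / (gd : ℝ)) / (1 / (capd : ℝ)) * ((1 + 1 / (gd : ℝ)) *
          ((c0 : ℝ) * M t i e.1 e.2) + ∑ j ∈ range t,
            (1 / (gd : ℝ) * ((c0 : ℝ) * M j i e.1 e.2) + (c0 : ℝ) * U j i e.1 e.2)) := by
      funext i e
      rw [tab3_ent _ i.2 e.1.2 e.2.2, lsr_ftrl]
      have e3 : ∑ j ∈ range t, (1 / (gd : ℝ) * ((c0 : ℝ) * M j i e.1 e.2) +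
          (c0 : ℝ) * U j i e.1 e.2) =
          (c0 : ℝ) / gd * ∑ j ∈ range t, ((M j i e.1 e.2 : ℝ) + gd * U j i e.1 e.2) := by
        rw [Finset.mul_sum]
        refine Finset.sum_congr rfl fun j _ => ?_
        field_simp
      rw [e3]
      push_cast
      field_simp
    rw [e1, e2] at h
    exact h
  set p : Fin rows → Fin nn × Fin nn := fun i =>
    (⟨g i, hg i i.2.le⟩, ⟨g (i + 1), hg (i + 1) i.2⟩) with hp
  have hpP : p ∈ H763.paths rows nn 0 0 := ⟨g, hg0, hg1, fun i => ⟨rfl, rfl⟩⟩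
  set e1 : ℝ := Fintype.card (Fin rows) * ((Am : ℝ) * H763.errW
    (Fintype.card (Fin nn × Fin nn)) (2 ^ (4 * l1)) (2 ^ (2 * l1))) +
    (((2 ^ (4 * l1) : ℕ) : ℝ) / ((2 ^ (2 * l1) : ℕ) : ℝ) + 1) * η with he1
  set e2 : ℝ := Fintype.card (Fin rows) * ((Am : ℝ) *
    (Fintype.card (Fin nn × Fin nn) / ((2 ^ (4 * l1) : ℕ) : ℝ))) with he2
  -- the size of the error
  set K : ℝ := 2 ^ l1 with hK
  have hK32 : 32 ≤ K := by
    rw [hK]
    calc (32 : ℝ) = 2 ^ 5 := by norm_num
      _ ≤ 2 ^ l1 := pow_le_pow_right₀ (by norm_num) (by omega)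
  have hK0 : 0 < K := by linarith
  have hm : nn * nn ≤ 2 ^ (2 * ln) := by
    rw [two_mul, pow_add]
    exact Nat.mul_le_mul hln hln
  have hm1 : (1 : ℝ) ≤ ((nn * nn : ℕ) : ℝ) := by exact_mod_cast Nat.mul_pos hnn hnn
  have hbig : 32 * (nn * nn) * (N * rows) ≤ 2 ^ l1 := by
    calc 32 * (nn * nn) * (N * rows) ≤ 2 ^ 5 * 2 ^ (2 * ln) * 2 ^ lr :=
          Nat.mul_le_mul (Nat.mul_le_mul (by norm_num) hm) hlr
      _ = 2 ^ (5 + 2 * ln + lr) := by rw [pow_add, pow_add]
      _ ≤ 2 ^ l1 := Nat.pow_le_pow_right (by norm_num) (by omega)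
  have hmK : ((nn * nn : ℕ) : ℝ) ≤ K := by
    rw [hK]
    exact_mod_cast hm.trans (Nat.pow_le_pow_right (by norm_num) (by omega))
  have k2 : ((2 ^ (2 * l1) : ℕ) : ℝ) = K ^ 2 := by
    rw [hK, ← pow_mul, mul_comm l1 2]; push_cast; rfl
  have k4 : ((2 ^ (4 * l1) : ℕ) : ℝ) = K ^ 4 := by
    rw [hK, ← pow_mul, mul_comm l1 4]; push_cast; rfl
  have k12 : ((2 ^ (12 * l1) : ℕ) : ℝ) = K ^ 12 := by
    rw [hK, ← pow_mul, mul_comm l1 12]; push_cast; rfl
  have hsm := err_small hK32 hm1 hmK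
  have herrW0 : 0 ≤ H763.errW (nn * nn) (2 ^ (4 * l1)) (2 ^ (2 * l1)) := by
    unfold H763.errW
    rw [k2, k4]
    have a1 : 0 ≤ Real.log (K ^ 4 + ((nn * nn : ℕ) : ℝ)) :=
      Real.log_nonneg (by have : 0 < K ^ 4 := by positivity
                          linarith)
    have a2 : 0 ≤ Real.log (K ^ 4) := Real.log_nonneg (one_le_pow₀ (by linarith))
    have a3 : 0 < K ^ 4 - K ^ 2 := by
      have : K ^ 4 - K ^ 2 = K ^ 2 * (K ^ 2 - 1) := by ring
      rw [this]
      exact mul_pos (by positivity) (by nlinarith)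
    positivity
  have he10 : 0 ≤ e1 := by
    rw [he1, hcard]
    positivity
  have he20 : 0 ≤ e2 := by
    rw [he2]
    positivity
  have herr : (N : ℝ) * (e1 + 3 * e2) ≤ Am := by
    have a1 : e1 + 3 * e2 ≤ rows * (Am * (32 * ((nn * nn : ℕ) : ℝ) / K)) := by
      have a2 := mul_le_mul_of_nonneg_left (mul_le_mul_of_nonneg_left hsm
        (Nat.cast_nonneg (α := ℝ) Am)) (Nat.cast_nonneg (α := ℝ) rows)
      refine le_trans (le_of_eq ?_) a2
      rw [he1, he2, hη, hcard, Fintype.card_fin]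
      unfold H763.errW
      rw [k2, k4, k12]
      push_cast
      ring
    have a3 : (32 : ℝ) * ((nn * nn : ℕ) : ℝ) * (N * rows) ≤ K := by
      rw [hK]
      exact_mod_cast hbig
    have a4 : (32 : ℝ) * ((nn * nn : ℕ) : ℝ) * (N * rows) / K ≤ 1 := (div_le_one hK0).2 a3
    calc (N : ℝ) * (e1 + 3 * e2) ≤ N * (rows * (Am * (32 * ((nn * nn : ℕ) : ℝ) / K))) :=
          mul_le_mul_of_nonneg_left a1 (Nat.cast_nonneg N)
      _ = Am * (32 * ((nn * nn : ℕ) : ℝ) * (N * rows) / K) := by ring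
      _ ≤ Am * 1 := mul_le_mul_of_nonneg_left a4 (Nat.cast_nonneg Am)
      _ = Am := mul_one _
  have hf := ftrl (I := Fin rows) (E := Fin nn × Fin nn) (PP := H763.paths rows nn 0 0)
    (a := fun i => (W i : ℝ)) (fun i => by exact_mod_cast hW0 i i.2)
    (M := fun t i e => (c0 : ℝ) * M t i e.1 e.2) (U := fun t i e => (c0 : ℝ) * U t i e.1 e.2)
    (cap := 1 / (capd : ℝ)) (γ := 1 / (gd : ℝ)) (by positivity) (by positivity)
    ((div_le_one hgd').2 hgd1) (N := N)
    (fun t ht i e => mul_le_mul_of_nonneg_left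
      (by exact_mod_cast hUM t ht i i.2 _ e.1.2 _ e.2.2) hc0'.le)
    (fun t ht i e => by
      have a1 := hdrop t ht i i.2 _ e.1.2 _ e.2.2
      have a2 : ((c0 * capd * (M t i e.1 e.2 - U t i e.1 e.2) : ℕ) : ℝ) ≤ W i := by
        exact_mod_cast a1
      rw [Nat.cast_mul, Nat.cast_mul, Nat.cast_sub (hUM t ht i i.2 _ e.1.2 _ e.2.2)] at a2
      rw [one_div, ← div_eq_inv_mul, le_div_iff₀ hcapd']
      linarith)
    (xh := fun t => H782.xx (pk t) (2 ^ (4 * l1))) (q := fun t => H763.qs (pk t) (2 ^ (4 * l1)))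
    (e1 := e1) (e2 := e2) he10 he20
    (fun t _ => H782.xx_mem_flow hT (hgr t).mem)
    (fun t _ => H763.solvedW_of_greedyW (hgr t) (fun i _ => Nat.cast_nonneg _)
      (fun i _ => by exact_mod_cast hW1 i i.2) Fintype.card_pos hs hsT hη0)
    hpP
  -- the left side
  have hTR : (0 : ℝ) < 2 ^ (4 * l1) := by positivity
  have hL : ∀ t, H782.val (fun (i : Fin rows) (e : Fin nn × Fin nn) => (c0 : ℝ) * U t i e.1 e.2)
      (H782.xx (pk t) (2 ^ (4 * l1))) = c0 * ((∑ j ∈ range (2 ^ (4 * l1)), (pcost rows (U t)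
        (fun r => ((lanes l1 rows nn c0 capd gd Am W M U t).getD j []).getD r 0) : ℝ)) /
          2 ^ (4 * l1)) := by
    intro t
    have a1 := H782.val_xx (fun (i : Fin rows) (e : Fin nn × Fin nn) =>
      (c0 : ℝ) * U t i e.1 e.2) (pk t) hT
    rw [← mul_div_assoc, eq_div_iff hTR.ne', mul_comm]
    push_cast at a1
    rw [a1, Finset.mul_sum]
    refine Finset.sum_congr rfl fun j hj => ?_
    rw [pcost_cast, Finset.mul_sum]
    refine Finset.sum_congr rfl fun i _ => ?_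
    have b1 : ∀ k ≤ rows, ((lanes l1 rows nn c0 capd gd Am W M U t).getD j []).getD k 0 < nn :=
      fun k hk => picks_lt _ _ (tab3_length _ _ _) (tab3_nn hrows _ _) hrows hnn
        (Finset.mem_range.1 hj) hk
    have b2 : ((pk t j i).1 : ℕ) =
        ((lanes l1 rows nn c0 capd gd Am W M U t).getD j []).getD i 0 :=
      Nat.mod_eq_of_lt (b1 i i.2.le)
    have b3 : ((pk t j i).2 : ℕ) =
        ((lanes l1 rows nn c0 capd gd Am W M U t).getD j []).getD (i + 1) 0 :=
      Nat.mod_eq_of_lt (b1 (i + 1) i.2)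
    rw [b2, b3]
  have hU : ∀ t, ∑ i : Fin rows, (c0 : ℝ) * U t i (p i).1 (p i).2 = c0 * pcost rows (U t) g := by
    intro t
    rw [pcost_cast, Finset.mul_sum]
  have hD : ∀ t, ∑ i : Fin rows, ((c0 : ℝ) * M t i (p i).1 (p i).2 -
      (c0 : ℝ) * U t i (p i).1 (p i).2) =
      c0 * ((pcost rows (M t) g : ℝ) - pcost rows (U t) g) := by
    intro t
    rw [pcost_cast, pcost_cast, ← Finset.sum_sub_distrib, Finset.mul_sum]
    exact Finset.sum_congr rfl fun i _ => (mul_sub _ _ _).symm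
  simp only [hL, hU, hD] at hf
  rw [← Finset.mul_sum, ← Finset.mul_sum, ← Finset.mul_sum,
    Fin.sum_univ_eq_sum_range (fun i => (W i : ℝ)), hcard] at hf
  have hlog : Real.log ((nn * nn : ℕ) : ℝ) ≤ 2 * ln := by
    have a1 : ((nn * nn : ℕ) : ℝ) ≤ 2 ^ (2 * ln) := by exact_mod_cast hm
    have a2 := Real.log_le_log (by linarith) a1
    rw [Real.log_pow] at a2
    have a3 : Real.log 2 ≤ 1 := by
      have := Real.log_le_sub_one_of_pos (x := 2) (by norm_num)
      linarith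
    have a4 : ((2 * ln : ℕ) : ℝ) * Real.log 2 ≤ ((2 * ln : ℕ) : ℝ) * 1 :=
      mul_le_mul_of_nonneg_left a3 (Nat.cast_nonneg _)
    push_cast at a2 a4 ⊢
    linarith
  have hSW : 0 ≤ ∑ r ∈ range rows, (W r : ℝ) := Finset.sum_nonneg fun _ _ => Nat.cast_nonneg _
  have hfin : 1 / (capd : ℝ) / (1 / (gd : ℝ)) * ((∑ r ∈ range rows, (W r : ℝ)) *
      Real.log ((nn * nn : ℕ) : ℝ) + N * (e1 + 3 * e2)) ≤
      c0 * ((gd : ℝ) / (capd * c0) * ((∑ r ∈ range rows, (W r : ℝ)) * (2 * ln) + Am)) := by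
    have a1 := mul_le_mul_of_nonneg_left hlog hSW
    have a2 : (c0 : ℝ) * ((gd : ℝ) / (capd * c0) * ((∑ r ∈ range rows, (W r : ℝ)) * (2 * ln) +
        Am)) = 1 / (capd : ℝ) / (1 / (gd : ℝ)) *
          ((∑ r ∈ range rows, (W r : ℝ)) * (2 * ln) + Am) := by
      field_simp
    rw [a2]
    exact mul_le_mul_of_nonneg_left (by linarith) (by positivity)
  refine le_of_mul_le_mul_left ?_ hc0'
  refine hf.trans ?_
  refine (add_le_add_right hfin _).trans (le_of_eq ?_)
  field_simp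

end Vale.Agent.P315Z
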