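import Vale.Agent.P315Z.Ana
import Vale.Agent.P315Z.Engine

/-! P315Z: the recursion as a scheme of keys; encodings; the bounds for the run. -/

set_option autoImplicit false

namespace Vale.Agent.P315Z

open Vale.Agent.Lib.PolyTime (Enc Un enc esize)

/-- A key. Tags: `0` one comparison (row `c.i`, position `c.p`), `1` a table of the start algorithm
(node `c.j`, `c.i`, scale `ta`, block `c.p`), `2` undressed value, `3` value of a box, `4` dressed
value, otherwise the output. -/
structure Key where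
  tag : ℕ
  T : ℕ
  c : Cell
  ta : ℕ
  deriving DecidableEq

instance : Enc Cell :=
  ⟨fun c => enc ((⟨c.j⟩ : Un), c.i, (⟨c.ka⟩ : Un), c.x, c.p, c.q)⟩

instance : Enc Key := ⟨fun k => enc (k.tag, (⟨k.T⟩ : Un), k.c, (⟨k.ta⟩ : Un))⟩

/-- The code of the parameters contains the number of seeds of a block in unary. -/
instance : Enc Par := ⟨fun P => enc ((⟨P.NS⟩ : Un), P.lx, P.ly,
  ([⟨P.lb⟩, ⟨P.k⟩, ⟨P.lg⟩, ⟨P.lc⟩, ⟨P.lK⟩, ⟨P.lS⟩, ⟨P.lm⟩, ⟨P.ne⟩, ⟨P.hA⟩, ⟨P.dl⟩, ⟨P.le⟩,
    ⟨P.lA⟩] : List Un))⟩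

/-- key of a comparison -/
def kB (i p : ℕ) : Key := ⟨0, 0, ⟨0, i, 0, 0, p, 0⟩, 0⟩
/-- key of a table -/
def kA (j i a b : ℕ) : Key := ⟨1, 0, ⟨j, i, 0, 0, b, 0⟩, a⟩
/-- key of an undressed value -/
def kD (T : ℕ) (c : Cell) : Key := ⟨2, T, c, 0⟩
/-- key of the value of a box -/
def kH (T : ℕ) (c : Cell) (τ : ℕ) : Key := ⟨3, T, c, τ⟩
/-- key of a dressed value -/
def kU (T : ℕ) (c : Cell) (τ : ℕ) : Key := ⟨4, T, c, τ⟩
/-- key of the output -/
def kO : Key := ⟨5, 0, ⟨0, 0, 0, 0, 0, 0⟩, 0⟩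

/-- comparisons from an oracle -/
def oc (o : Key → List ℕ) (i p : ℕ) : ℕ := (o (kB i p)).headD 0
/-- tables from an oracle -/
def oA (o : Key → List ℕ) (j i a b : ℕ) : List ℕ := o (kA j i a b)
/-- undressed values from an oracle -/
def oD (o : Key → List ℕ) (T : ℕ) (c : Cell) : ℕ := (o (kD T c)).headD 0
/-- values of boxes from an oracle -/
def oH (o : Key → List ℕ) (T : ℕ) (c : Cell) (τ : ℕ) : ℕ := (o (kH T c τ)).headD 0
/-- dressed values from an oracle -/
def oU (o : Key → List ℕ) (T : ℕ) (c : Cell) (τ : ℕ) : ℕ := (o (kU T c τ)).headD 0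

/-- The code of the comparison for row `i` and position `p`. -/
def extB (P : Par) (i p : ℕ) : ℕ :=
  if 1 ≤ i ∧ i ≤ P.lx ∧ P.lx ≤ p + (i - 1) ∧ p + (i - 1) - P.lx < P.ly then
    (i - 1) * (P.ly + 1) + (p + (i - 1) - P.lx) else 0

/-- The cost of a diagonal step, given the answer `b`. -/
def bitBody (P : Par) (i p b : ℕ) : ℕ :=
  if i = 0 ∨ P.lx < i then 0
  else if P.lx ≤ p + (i - 1) ∧ p + (i - 1) - P.lx < P.ly then b else 1

/-- The costs of the diagonal steps for the answers `bit`. -/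
def cOf (P : Par) (bit : ℕ → ℕ) (i p : ℕ) : ℕ := bitBody P i p (bit (extB P i p))

/-- Queries of a table. -/
def qA (P : Par) (sd : ℕ → ℕ) (j i a b : ℕ) : List Key :=
  if j = 0 then (List.range (tlen P a)).map fun t => kB i (b * wid P a + t * res P a)
  else ((List.range (2 ^ P.nA)).flatMap fun u => (List.range P.LA).flatMap fun l =>
    if u * 2 ^ l < 2 ^ P.nA then (List.range (tlen P a)).flatMap fun t =>
      (cands P (a + 1 - l) (b * wid P a + t * res P a)).map fun r =>
        kA (j - P.ha) (i * ar P j + sd u % ar P j) (a + 1 - l) (r / wid P (a + 1 - l))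
    else []).dedup

/-- Queries of a start value. -/
def qD0 (P : Par) (e : Cell) : List Key :=
  if e.j = 0 then [kB e.i e.p]
  else (List.range (P.am - P.a0 + 1)).flatMap fun u => (cands P (P.a0 + u) e.p).map fun r =>
    kA e.j e.i (P.a0 + u) (r / wid P (P.a0 + u))

/-- The cells of all children. -/
def allKids (P : Par) (e : Cell) : List Cell :=
  if e.j = 0 then [] else (List.range P.B).flatMap fun r => kids P e r

/-- Queries of an undressed value at time `T + 1`. -/
def qD (P : Par) (T : ℕ) (e : Cell) : List Key :=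
  (sibs P e ++ allKids P e).flatMap fun c => (List.range (c.ka + P.h2 + 1)).map fun τ => kU T c τ

/-- Queries of reference values. -/
def qR (P : Par) (t : ℕ) (e : Cell) : List Key :=
  (e :: (sibs P e ++ allKids P e)).map fun c => kD t c

/-- The boxes of the sampled rows. -/
def sBox (P : Par) (sd : ℕ → ℕ) (R : Cell → ℕ) (c : Cell) (τ : ℕ) : List (Cell × ℕ) :=
  ((fam P R c τ).flatMap fun e => (List.range (2 ^ P.nH)).flatMap fun u =>
    if u * 2 ^ (τ + 1 - ta P R e (sd u % P.B)) < 2 ^ P.nH then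
      (tube P R e (sd u % P.B)).map fun c' =>
        (box P c' (ta P R e (sd u % P.B)), ta P R e (sd u % P.B))
    else []).dedup

/-- The boxes of a line. -/
def lBox (P : Par) (R : Cell → ℕ) (e : Cell) : List (Cell × ℕ) :=
  ((List.range P.B).flatMap fun r => (tube P R e r).map fun c' =>
    (box P c' (ta P R e r), ta P R e r)).dedup

/-- The two keys of each box. -/
def qBox (T : ℕ) (l : List (Cell × ℕ)) : List Key :=
  l.flatMap fun b => [kD T b.1, kH T b.1 b.2]

/-- Queries of the value of a box. -/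
def qH (P : Par) (sd : ℕ → ℕ) (t T : ℕ) (c : Cell) (τ ph : ℕ) (o : Key → List ℕ) : List Key :=
  if T ≤ P.m then []
  else if ph = 0 then qR P t c
  else if ph = 1 then qBox T (sBox P sd (oD o t) c τ)
  else if (fam P (oD o t) c τ).isEmpty then []
  else qBox T (lBox P (oD o t) (chosen P sd (oD o t) (oD o T) (oH o T) c τ))

/-- Queries of a dressed value. -/
def qU (P : Par) (sd : ℕ → ℕ) (t T : ℕ) (e : Cell) (τ ph : ℕ) (o : Key → List ℕ) : List Key :=
  if ph = 0 then kD T e :: kH T (box P e τ) τ :: (if T ≤ P.m then [] else qR P t e)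
  else if T ≤ P.m then []
  else if adm P (oD o t) e τ then
    if ph = 1 then
      ((lBox P (oD o t) e).map fun b => kH T b.1 b.2) ++
        (List.range P.B).flatMap fun r => (tube P (oD o t) e r).flatMap fun c =>
          kD T c :: (List.range (T - (P.ep T * P.m + 1))).flatMap fun u =>
            [kD (P.ep T * P.m + 1 + u) c,
              kH (P.ep T * P.m + 1 + u) (box P c (ta P (oD o t) e r)) (ta P (oD o t) e r),
              kU (P.ep T * P.m + 1 + u) c (ta P (oD o t) e r)]
    else (List.range P.B).map fun r => kU T (tc P (oD o t) e r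
      ((lanePath P sd T (oD o t) (oD o) (oH o) (oU o) e).getD (r + 1) 0)) (ta P (oD o t) e r)
  else []

/-- All queries. -/
def qsF (P : Par) (S : ℕ → ℕ) (ph : ℕ) (k : Key) (o : Key → List ℕ) : List Key :=
  if k.tag = 0 then []
  else if k.tag = 1 then
    (if ph = 0 then qA P (blk P S (bA k.c.j)) k.c.j k.c.i k.ta k.c.p else [])
  else if k.tag = 2 then
    (if ph = 0 then (if k.T = 0 then qD0 P k.c else qD P (k.T - 1) k.c) else [])
  else if k.tag = 3 then
    qH P (blk P S (bM (P.ep k.T) k.c.j)) (ref P S (P.ep k.T)) k.T k.c k.ta ph o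
  else if k.tag = 4 then
    qU P (blk P S (bM (P.ep k.T) k.c.j)) (ref P S (P.ep k.T)) k.T k.c k.ta ph o
  else if ph = 0 then (List.range (P.km + 1)).map fun ka => kD P.Tend (rootCell P ka) else []

/-- All values. -/
def bodyF (P : Par) (S : ℕ → ℕ) (k : Key) (b : ℕ) (o : Key → List ℕ) : List ℕ :=
  if k.tag = 0 then [bitBody P k.c.i k.c.p b]
  else if k.tag = 1 then abody P (blk P S (bA k.c.j)) (oc o) (oA o) k.c.j k.c.i k.ta k.c.p
  else if k.tag = 2 then
    [if k.T = 0 then d0body P (oc o) (oA o) k.c else dstep P (oU o (k.T - 1)) k.c]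
  else if k.tag = 3 then
    [hbody P (blk P S (bM (P.ep k.T) k.c.j)) k.T (oD o (ref P S (P.ep k.T))) (oD o k.T) (oH o k.T)
      k.c k.ta]
  else if k.tag = 4 then
    [ubody P (blk P S (bM (P.ep k.T) k.c.j)) k.T (oD o (ref P S (P.ep k.T))) (oD o) (oH o) (oU o)
      k.c k.ta]
  else [outv P (oD o P.Tend)]

/-- The external query of a key. -/
def extF (P : Par) (k : Key) : ℕ := if k.tag = 0 then extB P k.c.i k.c.p else 0

/-- The rank of a key. -/
def rankF (P : Par) (k : Key) : ℕ :=
  if k.tag = 0 then 0 else if k.tag = 1 then 1 + k.c.j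
  else if k.tag ≤ 4 then k.tag + 3 * (k.T + k.c.j) else 5 + 3 * (P.Tend + P.k)

/-- The scheme with the seeds as a function. -/
def machF : Mach (Par × (ℕ → ℕ)) Key where
  ext := fun a k => extF a.1 k
  qs := fun a ph k o => qsF a.1 a.2 ph k o
  body := fun a k b o => bodyF a.1 a.2 k b o
  rank := fun a k => rankF a.1 k

/-- A list of seeds as a function. -/
def sds (L : List ℕ) : ℕ → ℕ := fun i => L.getD i 0

/-- The scheme with the seeds as a list. -/
def mach : Mach (Par × List ℕ) Key where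
  ext := fun a k => extF a.1 k
  qs := fun a ph k o => qsF a.1 (sds a.2) ph k o
  body := fun a k b o => bodyF a.1 (sds a.2) k b o
  rank := fun a k => rankF a.1 k

namespace Par

variable (P : Par)

/-- `2 ^ lT` bounds the number of queries of a phase -/
def lT : ℕ := 2 * P.lN
/-- `2 ^ lL * B / 8` bounds the number of boxes of a phase -/
def lL : ℕ := P.lS + 2 * P.lK + 9 + Nat.clog 2 (P.h + 1) + Nat.clog 2 (P.h2 + 5)
/-- cost of the start -/
def lM : ℕ := 2 * P.lT + 4 + P.lb * P.ha + (P.k / P.ha + 1) * (P.lA + Nat.clog 2 P.LA + 4)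
/-- cost of one unit of time -/
def lY : ℕ := 2 * P.lT + 10
/-- `2 ^ lQ` steps of the stack machine -/
def lQ : ℕ := P.lT + 2 + P.lM + (P.lb + P.lL) * P.k + P.lY * P.Tend
/-- size of a key -/
def KB : ℕ := 32 * (P.Tend + P.lcnt + P.h2)
/-- size of a value -/
def VB : ℕ := P.NS * (2 * P.lcnt + 3)
/-- size of a state -/
def szS : ℕ := 2 * (2 * esize P + 1 + P.N * (2 * P.lE + 1)) +
  200 * (6 + 3 * (P.Tend + P.k)) * (2 ^ P.lT + 1) * (P.KB + P.VB + 2)

end Par

end Vale.Agent.P315Z
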