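import Vale.Agent.P315Z.Valid
import Vale.Agent.P315Z.Ftrl

/-! P315Z: the regret of the lanes of an admissible cell. -/

set_option autoImplicit false

namespace Vale.Agent.P315Z

open Finset

variable {P : Par} {S : ℕ → ℕ} {c : ℕ → ℕ → ℕ}

namespace Lane

theorem B_pos' (P : Par) : 0 < P.B := Nat.two_pow_pos _

theorem foldl_max_ge (l : List ℕ) (a : ℕ) : a ≤ l.foldl max a ∧ ∀ x ∈ l, x ≤ l.foldl max a := by
  induction l generalizing a with
  | nil => simp
  | cons b l ih =>
    rw [List.foldl_cons]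
    obtain ⟨h1, h2⟩ := ih (max a b)
    refine ⟨(le_max_left _ _).trans h1, fun x hx => ?_⟩
    rcases List.mem_cons.1 hx with rfl | hx
    · exact (le_max_right _ _).trans h1
    · exact h2 x hx

theorem foldl_max_le (l : List ℕ) (a n : ℕ) (ha : a ≤ n) (h : ∀ x ∈ l, x ≤ n) :
    l.foldl max a ≤ n := by
  induction l generalizing a with
  | nil => simpa
  | cons b l ih =>
    rw [List.foldl_cons]
    exact ih _ (max_le ha (h b List.mem_cons_self)) fun x hx => h x (List.mem_cons_of_mem _ hx)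

theorem nnode_pos (R : Cell → ℕ) (e : Cell) : 0 < nnode P R e := (foldl_max_ge _ 1).1

theorem length_tube_le_nnode (R : Cell → ℕ) (e : Cell) {r : ℕ} (hr : r < P.B) :
    (tube P R e r).length ≤ nnode P R e :=
  (foldl_max_ge _ 1).2 _ (List.mem_map.2 ⟨r, List.mem_range.2 hr, rfl⟩)

theorem nnode_le (R : Cell → ℕ) (e : Cell) : nnode P R e ≤ 2 ^ P.lnn := by
  refine foldl_max_le _ _ _ (Nat.two_pow_pos _) fun x hx => ?_
  obtain ⟨r, -, rfl⟩ := List.mem_map.1 hx
  exact (List.length_filter_le _ _).trans (length_kids e r)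

theorem ecost_congr {R R' : Cell → ℕ} {e : Cell} {τ : ℕ} (ha : adm P R e τ = true)
    (h0 : R e = R' e) (hR : ∀ r < P.B, ∀ c' ∈ kids P e r, R c' = R' c') {f f' : Cell → ℕ → ℕ}
    (hf : ∀ r < P.B, ∀ c' ∈ tube P R e r, f c' (ta P R e r) = f' c' (ta P R e r))
    {r : ℕ} (hr : r < P.B + 1) (u v : ℕ) : ecost P R e f r u v = ecost P R' e f' r u v := by
  have hB := B_pos' P
  have htc : ∀ r < P.B, ∀ u, tc P R' e r u = tc P R e r u := fun r hr u => by
    rw [tc, tc, tube_congr h0 hR hr]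
  unfold ecost
  rw [htc (r - 1) (by omega)]
  split_ifs with h1 h2
  · rw [htc r h1, ← ta_congr h0 hR h1, hf r h1 _ (tc_mem ((adm_iff.1 ha).2.2.2.2.2 r h1) v)]
  · rw [htc r h1, ← ta_congr h0 hR h1, hf r h1 _ (tc_mem ((adm_iff.1 ha).2.2.2.2.2 r h1) v)]
  · rfl

/-- The sequence of nodes of a path in the tube. -/
def gidx (P : Par) (R : Cell → ℕ) (e : Cell) (g : ℕ → Cell) (r : ℕ) : ℕ :=
  if r = 0 ∨ P.B < r then 0 else (tube P R e (r - 1)).idxOf (g (r - 1))

theorem tc_gidx {R : Cell → ℕ} {e : Cell} {g : ℕ → Cell} (hg : ∀ r < P.B, g r ∈ tube P R e r)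
    {r : ℕ} (hr : r < P.B) : tc P R e r (gidx P R e g (r + 1)) = g r := by
  rw [gidx, if_neg (by omega), Nat.add_sub_cancel, tc,
    List.getD_eq_getElem _ _ (List.idxOf_lt_length_of_mem (hg r hr)), List.getElem_idxOf]

theorem gidx_lt {R : Cell → ℕ} {e : Cell} {g : ℕ → Cell} (hg : ∀ r < P.B, g r ∈ tube P R e r)
    (r : ℕ) : gidx P R e g r < nnode P R e := by
  unfold gidx
  split_ifs with h
  · exact nnode_pos R e
  · have hr : r - 1 < P.B := by omega
    exact (List.idxOf_lt_length_of_mem (hg _ hr)).trans_le (length_tube_le_nnode R e hr)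

theorem pcost_gidx {R : Cell → ℕ} {e : Cell} {g : ℕ → Cell} (hg : ∀ r < P.B, g r ∈ tube P R e r)
    (f : Cell → ℕ → ℕ) :
    pcost (P.B + 1) (ecost P R e f) (gidx P R e g) = ∑ r ∈ range P.B, f (g r) (ta P R e r) +
      (∑ r ∈ range P.B, Nat.dist (if r = 0 then e.p else (g (r - 1)).q) (g r).p +
        Nat.dist (g (P.B - 1)).q e.q) := by
  have hB := B_pos' P
  have h1 : ∀ r, r ≠ 0 → r ≤ P.B → tc P R e (r - 1) (gidx P R e g r) = g (r - 1) := by
    intro r h0 hr
    have := tc_gidx hg (r := r - 1) (by omega)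
    rwa [show r - 1 + 1 = r by omega] at this
  rw [pcost, sum_map_range, sum_range_succ, ← add_assoc, ← sum_add_distrib]
  congr 1
  · refine sum_congr rfl fun r hr => ?_
    have hr' := mem_range.1 hr
    rw [ecost, if_pos hr', tc_gidx hg hr', add_comm]
    split_ifs with h
    · rfl
    · rw [h1 r h hr'.le]
  · rw [ecost, if_neg (lt_irrefl _), h1 _ hB.ne' le_rfl]

end Lane

open Lane

/-- The picks depend on the reference values of the cell and its children and on the values of
the cells in the tube up to time `T`. -/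
theorem picks_congr {T : ℕ} {R R' : Cell → ℕ} {D D' : ℕ → Cell → ℕ} {H U H' U' : ℕ → Cell → ℕ → ℕ}
    {e : Cell} {τ : ℕ} (ha : adm P R e τ = true) (h0 : R e = R' e)
    (hR : ∀ r < P.B, ∀ c' ∈ kids P e r, R c' = R' c')
    (hD : ∀ T', P.ep T * P.m + 1 ≤ T' → T' ≤ T → ∀ r < P.B, ∀ c' ∈ tube P R e r,
      D T' c' = D' T' c' ∧ H T' (box P c' (ta P R e r)) (ta P R e r) =
        H' T' (box P c' (ta P R e r)) (ta P R e r))
    (hU : ∀ T', P.ep T * P.m + 1 ≤ T' → T' < T → ∀ r < P.B, ∀ c' ∈ tube P R e r,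
      U T' c' (ta P R e r) = U' T' c' (ta P R e r)) (hT : P.m < T) :
    picks P T R D H U e = picks P T R' D' H' U' e := by
  have hT1 : P.ep T * P.m + 1 ≤ T := by
    have := Nat.div_mul_le_self (T - 1) P.m
    unfold Par.ep
    omega
  have hn : nnode P R' e = nnode P R e := by
    unfold nnode
    rw [List.map_congr_left fun r hr => by rw [← tube_congr h0 hR (List.mem_range.1 hr)]]
  unfold picks
  rw [hn, ← h0]
  refine lanes_congr (fun r hr => ?_) (fun j hj r hr u _ v _ => ?_) fun j hj r hr u _ v _ => ?_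
  · unfold rowW
    split_ifs with h
    · exact wt_congr h0 hR h
    · exact h0
  · refine ecost_congr ha h0 hR (fun r hr c' hc => ?_) hr u v
    obtain ⟨h1, h2⟩ := hD (P.ep T * P.m + 1 + j) (by omega) (by omega) r hr c' hc
    rw [hint, hint, h1, h2]
  · exact ecost_congr ha h0 hR (hU (P.ep T * P.m + 1 + j) (by omega) (by omega)) hr u v

/-- The average cost of the picks against a path `g` in the tube. -/
theorem Sys.lane_regret (X : Sys P S c) (hP : P.Ok) {β : ℕ} (hβ : 1 ≤ β) {e : Cell} {τ : ℕ}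
    (ha : adm P (X.D (ref P S β)) e τ = true) (g : ℕ → Cell)
    (hg : ∀ r < P.B, g r ∈ tube P (X.D (ref P S β)) e r) :
    ∑ t ∈ range P.m, (∑ v ∈ range (2 ^ (4 * P.l1)),
      (pcost (P.B + 1) (ecost P (X.D (ref P S β)) e (X.U (β * P.m + 1 + t))) (fun r =>
        ((picks P (β * P.m + 1 + t) (X.D (ref P S β)) X.D X.H X.U e).getD v []).getD r 0) : ℝ)) /
        2 ^ (4 * P.l1) ≤
    ∑ t ∈ range P.m, ((∑ r ∈ range P.B, X.U (β * P.m + 1 + t) (g r) (ta P (X.D (ref P S β)) e r) +
      (∑ r ∈ range P.B, Nat.dist (if r = 0 then e.p else (g (r - 1)).q) (g r).p +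
        Nat.dist (g (P.B - 1)).q e.q) : ℕ) : ℝ) + 3 / (P.gd : ℝ) * X.D (ref P S β) e := by
  have href := (ref_bounds (P := P) S hβ).2
  have hhint := fun t (ht : t < P.m) (c' : Cell) (σ : ℕ) => by
    have h := X.hint_le (β * P.m + 1 + t) c' σ
    rw [ep_eq P ht] at h
    exact h
  have hanti := fun (c' : Cell) (h : c' ∈ sibs P c') =>
    X.D_anti h (T := ref P S β) (T' := β * P.m + 1 + 0) (by omega)
  generalize X.D (ref P S β) = R at *
  obtain ⟨-, ha1, -, ha3, -, ha5⟩ := adm_iff.1 ha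
  have hw : 0 < R e := by
    have := Nat.two_pow_pos τ
    by_contra h
    rw [Nat.eq_zero_of_not_pos h] at ha1
    omega
  have hB := B_pos' P
  have hBK : 4 * P.B ≤ P.BK := by
    have := hP.hK
    rw [Par.BK, Par.h2, pow_add, Par.B, mul_comm]
    exact Nat.mul_le_mul_left _ (le_trans (by norm_num)
      (Nat.pow_le_pow_right two_pos (show 2 ≤ P.lK by omega)))
  have hcapd : 0 < P.capd := Nat.two_pow_pos _
  have hgd : 0 < P.gd := Nat.two_pow_pos _
  have hAm : P.BK * R e + 3 * (P.B * R e) + R e ≤ 2 * (P.BK * R e) := by nlinarith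
  have key := lanes_regret (l1 := P.l1) (rows := P.B + 1) (nn := nnode P R e) (c0 := P.BK)
    (capd := P.capd) (gd := P.gd) (Am := P.BK * R e + 3 * (P.B * R e)) (N := P.m) (ln := P.lnn)
    (lr := P.lm + P.lb + 1) (Nat.succ_pos _) (nnode_pos R e) (by omega) hcapd hgd (nnode_le R e)
    (by rw [pow_succ, pow_add, mul_assoc]; exact Nat.mul_le_mul_left _ (by unfold Par.B at *; omega))
    (by unfold Par.l1; omega) (W := rowW P R e)
    (fun r _ => by
      unfold rowW wt
      split_ifs <;> omega)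
    (fun r _ => by
      unfold rowW
      split_ifs with h
      · exact (single_le_sum (f := fun r => wt P R e r) (fun _ _ => Nat.zero_le _)
          (mem_range.2 h)).trans ha3
      · nlinarith)
    (M := fun t => ecost P R e (hint P (X.D (β * P.m + 1 + t)) (X.H (β * P.m + 1 + t))))
    (U := fun t => ecost P R e (X.U (β * P.m + 1 + t)))
    (fun t _ r _ u _ v _ => by
      unfold ecost
      split_ifs
      · exact Nat.add_le_add_left (X.U_le_hint _ _ _) _
      · exact Nat.add_le_add_left (X.U_le_hint _ _ _) _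
      · exact le_rfl)
    (fun t ht r _ u _ v _ => by
      unfold ecost rowW
      by_cases h : r < P.B
      · simp only [if_pos h]
        have h1 := hhint t ht (tc P R e r v) (ta P R e r)
        have h2 := (mem_tube.1 (tc_mem (ha5 r h) v)).2.2.2.2.1
        have h3 := Nat.mul_div_le (R (tc P R e r v)) P.capd
        refine le_trans ?_ h2
        rw [mul_assoc]
        exact Nat.mul_le_mul_left _ (le_trans (Nat.mul_le_mul_left _
          (Nat.sub_le_of_le_add (by omega))) h3)
      · simp [h])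
    (g := gidx P R e g) (by simp [gidx]) (by simp [gidx]) fun r _ => gidx_lt hg r
  have e1 : ∀ t ∈ range P.m, picks P (β * P.m + 1 + t) R X.D X.H X.U e =
      lanes P.l1 (P.B + 1) (nnode P R e) P.BK P.capd P.gd (P.BK * R e + 3 * (P.B * R e))
        (rowW P R e)
        (fun t => ecost P R e (hint P (X.D (β * P.m + 1 + t)) (X.H (β * P.m + 1 + t))))
        (fun t => ecost P R e (X.U (β * P.m + 1 + t))) t := fun t ht => by
    rw [picks, ep_eq P (mem_range.1 ht), Nat.add_sub_cancel_left]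
  rw [sum_congr rfl fun t ht => by rw [e1 t ht]]
  refine key.trans ?_
  simp only [pcost_gidx hg]
  rw [add_assoc]
  refine add_le_add_right ?_ _
  have hsib : ∀ r < P.B, g r ∈ sibs P (g r) := fun r hr =>
    (mem_kids.1 (mem_tube.1 (hg r hr)).1).2.2.2.2.2.2
  have hBK0 : (0 : ℝ) < P.BK := by exact_mod_cast (by omega : 0 < P.BK)
  have hcapd' : (0 : ℝ) < P.capd := by exact_mod_cast hcapd
  have hgd' : (0 : ℝ) < P.gd := by exact_mod_cast hgd
  have hsum : ∑ r ∈ range P.B, R (g r) ≤ 2 * R e := by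
    refine Nat.le_of_mul_le_mul_left (c := P.BK) ?_ (by omega)
    rw [mul_sum]
    refine (sum_le_sum fun r hr => (mem_tube.1 (hg r (mem_range.1 hr))).2.2.2.2.1).trans ?_
    rw [mul_left_comm]
    omega
  have d1 : ∑ t ∈ range P.m, (((∑ r ∈ range P.B, hint P (X.D (β * P.m + 1 + t))
        (X.H (β * P.m + 1 + t)) (g r) (ta P R e r) +
      (∑ r ∈ range P.B, Nat.dist (if r = 0 then e.p else (g (r - 1)).q) (g r).p +
        Nat.dist (g (P.B - 1)).q e.q) : ℕ) : ℝ) -
      ((∑ r ∈ range P.B, X.U (β * P.m + 1 + t) (g r) (ta P R e r) +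
      (∑ r ∈ range P.B, Nat.dist (if r = 0 then e.p else (g (r - 1)).q) (g r).p +
        Nat.dist (g (P.B - 1)).q e.q) : ℕ) : ℝ)) ≤ 2 * R e := by
    calc _ ≤ ∑ t ∈ range P.m, ∑ r ∈ range P.B,
          ((X.D (β * P.m + 1 + t) (g r) : ℝ) - X.D (β * P.m + 1 + (t + 1)) (g r)) := by
          refine sum_le_sum fun t _ => ?_
          rw [Nat.cast_add, Nat.cast_add (∑ r ∈ range P.B, X.U _ _ _), add_sub_add_right_eq_sub,
            Nat.cast_sum, Nat.cast_sum, ← sum_sub_distrib]
          refine sum_le_sum fun r hr => sub_le_sub ?_ ?_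
          · exact_mod_cast min_le_left _ _
          · exact_mod_cast X.D_succ_le_U (β * P.m + 1 + t) (hsib r (mem_range.1 hr))
              (mem_tube.1 (hg r (mem_range.1 hr))).2.1
      _ = ∑ r ∈ range P.B,
          ((X.D (β * P.m + 1 + 0) (g r) : ℝ) - X.D (β * P.m + 1 + P.m) (g r)) := by
          rw [sum_comm]
          exact sum_congr rfl fun r _ =>
            sum_range_sub' (fun t => (X.D (β * P.m + 1 + t) (g r) : ℝ)) P.m
      _ ≤ ∑ r ∈ range P.B, (R (g r) : ℝ) := by
          refine sum_le_sum fun r hr => ?_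
          have h1 : (X.D (β * P.m + 1 + 0) (g r) : ℝ) ≤ R (g r) := by
            exact_mod_cast hanti _ (hsib r (mem_range.1 hr))
          have h2 : (0 : ℝ) ≤ X.D (β * P.m + 1 + P.m) (g r) := Nat.cast_nonneg _
          linarith
      _ ≤ 2 * R e := by exact_mod_cast hsum
  have d2 : ∑ r ∈ range (P.B + 1), (rowW P R e r : ℝ) ≤ 2 * (P.BK * R e) := by
    have h1 : ∑ r ∈ range (P.B + 1), rowW P R e r ≤ 2 * (P.BK * R e) := by
      rw [sum_range_succ, sum_congr rfl fun r hr => by rw [rowW, if_pos (mem_range.1 hr)], rowW,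
        if_neg (lt_irrefl _)]
      exact (Nat.add_le_add_right ha3 _).trans hAm
    exact_mod_cast h1
  have d3 : ((P.BK * R e + 3 * (P.B * R e) : ℕ) : ℝ) ≤ 2 * (P.BK * R e) := by
    exact_mod_cast (by omega : P.BK * R e + 3 * (P.B * R e) ≤ 2 * (P.BK * R e))
  have d4 : (P.gd : ℝ) * P.gd * (4 * P.lnn + 2) ≤ P.capd := by exact_mod_cast hP.hcap
  have d5 : (P.gd : ℝ) / (P.capd * P.BK) *
      ((∑ r ∈ range (P.B + 1), (rowW P R e r : ℝ)) * (2 * P.lnn) +
        ((P.BK * R e + 3 * (P.B * R e) : ℕ) : ℝ)) ≤ 1 / P.gd * R e := by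
    calc _ ≤ (P.gd : ℝ) / (P.capd * P.BK) *
          (2 * (P.BK * R e) * (2 * P.lnn) + 2 * (P.BK * R e)) := by gcongr
      _ = (P.gd : ℝ) * P.gd * (4 * P.lnn + 2) / P.capd * (1 / P.gd * R e) := by
          field_simp
          ring
      _ ≤ 1 * (1 / P.gd * R e) := by
          gcongr
          exact (div_le_one hcapd').2 d4
      _ = _ := one_mul _
  calc _ ≤ 2 * (R e : ℝ) / P.gd + 1 / P.gd * R e := add_le_add (by gcongr) d5
    _ = _ := by ring

end Vale.Agent.P315Z
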