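import Vale.Agent.P315Z.Valid
import Vale.Agent.P315Z.Conc

/-! P315Z: the value of a box against the hints, the lifted rounds, and the sampling. -/

set_option autoImplicit false

namespace Vale.Agent.P315Z

open Finset Vale.Agent.P315.H731

variable {P : Par} {S : ℕ → ℕ} {c : ℕ → ℕ → ℕ}

namespace LiftAux

theorem BK_eq (P : Par) : P.BK = P.B * P.K := by
  unfold Par.BK Par.B Par.K Par.h2
  rw [pow_add]

theorem h3_eq (P : Par) : 2 ^ P.h3 = P.B * P.K * P.K := by
  unfold Par.h3 Par.B Par.K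
  ring

theorem B_pos (P : Par) : 0 < P.B := Nat.two_pow_pos _

theorem K_pos (P : Par) : 0 < P.K := Nat.two_pow_pos _

theorem capd_pos (P : Par) : 0 < P.capd := Nat.two_pow_pos _

theorem gd_pos (P : Par) : 0 < P.gd := Nat.two_pow_pos _

theorem K_ge (hP : P.Ok) : 512 * (P.capd * P.gd) ≤ P.K := by
  have h := Nat.pow_le_pow_right two_pos hP.hK
  unfold Par.capd Par.gd Par.K
  rw [pow_add, pow_add] at h
  omega

theorem K_ge' (hP : P.Ok) : 512 ≤ P.K := by
  have h := K_ge hP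
  have h1 := Nat.mul_pos (capd_pos P) (gd_pos P)
  omega

theorem om_le (P : Par) (τ : ℕ) : 2 ^ P.h3 * (om P τ - 1) ≤ 2 ^ τ := by
  unfold om
  by_cases h : P.h3 ≤ τ
  · refine (Nat.mul_le_mul_left _ (Nat.sub_le _ _)).trans ?_
    rw [← pow_add, Nat.add_sub_cancel' h]
  · rw [show τ - P.h3 = 0 by omega]
    simp

theorem rad_le (P : Par) (R : Cell → ℕ) (e : Cell) : 2 * (2 ^ P.h3 * rad P R e) ≤ R e := by
  have h := Nat.mul_div_le (R e) (2 ^ (P.h3 + 1))
  unfold rad
  rw [← mul_assoc, mul_comm 2, ← pow_succ]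
  exact h

theorem le_wt (P : Par) (R : Cell → ℕ) (e : Cell) (r : ℕ) : R e ≤ wt P R e r :=
  Nat.le_add_left _ _

theorem wt_le (P : Par) (R : Cell → ℕ) (e : Cell) (r : ℕ) : wt P R e r ≤ 2 ^ ta P R e r :=
  Nat.le_pow_clog one_lt_two _

theorem pow_clog_le {x : ℕ} (h : 0 < x) : 2 ^ Nat.clog 2 x ≤ 2 * x := by
  by_cases h1 : x = 1
  · subst h1; simp
  · have h2 := Nat.pow_pred_clog_lt_self one_lt_two (x := x) (by omega)
    have h3 := Nat.clog_pos one_lt_two (n := x) (by omega)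
    obtain ⟨n, hn⟩ := Nat.exists_eq_succ_of_ne_zero h3.ne'
    rw [hn] at h2 ⊢
    rw [Nat.pred_succ] at h2
    rw [pow_succ]
    omega

theorem adm_pos {R : Cell → ℕ} {e : Cell} {τ : ℕ} (ha : adm P R e τ = true) : 0 < R e := by
  have h := (adm_iff.1 ha).2.1
  have h1 := Nat.two_pow_pos τ
  rcases Nat.eq_zero_or_pos (R e) with h2 | h2
  · rw [h2] at h; omega
  · exact h2

theorem ta_le {R : Cell → ℕ} {e : Cell} {τ : ℕ} (ha : adm P R e τ = true) (r : ℕ) :
    2 ^ ta P R e r ≤ 2 * wt P R e r :=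
  pow_clog_le ((adm_pos ha).trans_le (le_wt P R e r))

theorem tube_sibs {R : Cell → ℕ} {e c' : Cell} {r : ℕ} (h : c' ∈ tube P R e r) :
    c' ∈ sibs P c' := (mem_kids.1 (mem_tube.1 h).1).2.2.2.2.2.2

theorem sum_wt (hP : P.Ok) {R : Cell → ℕ} {e : Cell} {τ : ℕ} (ha : adm P R e τ = true) :
    ∑ r ∈ range P.B, wt P R e r ≤ 2 * (P.BK * R e) := by
  have h := (adm_iff.1 ha).2.2.2.1
  have h1 := K_ge' hP
  have h2 : P.B * R e * 3 ≤ P.B * R e * P.K := Nat.mul_le_mul_left _ (by omega)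
  have h3 : P.BK * R e = P.B * R e * P.K := by rw [BK_eq]; ring
  omega

/-- The reference values of cells of the tubes. -/
theorem sum_R {R : Cell → ℕ} {e : Cell} {τ : ℕ} (ha : adm P R e τ = true) (g : ℕ → Cell)
    (hg : ∀ r < P.B, g r ∈ tube P R e r) :
    P.K * ∑ r ∈ range P.B, R (g r) ≤ P.K * R e + 3 * R e := by
  have h := (adm_iff.1 ha).2.2.2.1
  have h1 : P.BK * ∑ r ∈ range P.B, R (g r) ≤ ∑ r ∈ range P.B, wt P R e r := by
    rw [mul_sum]
    exact sum_le_sum fun r hr => (mem_tube.1 (hg r (mem_range.1 hr))).2.2.2.2.1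
  refine Nat.le_of_mul_le_mul_left ?_ (B_pos P)
  rw [BK_eq] at h h1
  calc P.B * (P.K * ∑ r ∈ range P.B, R (g r)) = P.B * P.K * ∑ r ∈ range P.B, R (g r) := by ring
    _ ≤ P.B * P.K * R e + 3 * (P.B * R e) := h1.trans h
    _ = _ := by ring

end LiftAux

open LiftAux

/-- The line in one child is not much above the hint of any cell of the tube. -/
theorem Sys.yv_le_hint (X : Sys P S c) {T : ℕ} (hT : 1 ≤ T) (R : Cell → ℕ) {e c' : Cell} {r : ℕ}
    (hc : c' ∈ tube P R e r) :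
    yv P R (X.D T) (X.H T) e r ≤ hint P (X.D T) (X.H T) c' (ta P R e r) +
      4 * (om P (ta P R e r) - 1) + 2 * rad P R e := by
  have h1 : yv P R (X.D T) (X.H T) e r ≤
      min (X.D T (box P c' (ta P R e r))) (X.H T (box P c' (ta P R e r)) (ta P R e r)) +
      Nat.dist (st P R e r) (box P c' (ta P R e r)).p +
      Nat.dist (box P c' (ta P R e r)).q (st P R e (r + 1)) :=
    minL_le (List.mem_map_of_mem hc)
  obtain ⟨-, -, h2, h3, -, -⟩ := mem_tube.1 hc
  have h4 := X.D_lip hT (same_box (P := P) c' (ta P R e r))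
  have h5 := dist_box_p (P := P) c' (ta P R e r)
  have h6 := dist_box_q (P := P) c' (ta P R e r)
  have h7 := Nat.dist.triangle_inequality (st P R e r) c'.p (box P c' (ta P R e r)).p
  have h8 := Nat.dist.triangle_inequality (box P c' (ta P R e r)).q c'.q (st P R e (r + 1))
  rw [Nat.dist_comm (st P R e r) c'.p, Nat.dist_comm c'.p (box P c' (ta P R e r)).p] at h7
  unfold hint
  omega

/-- The range of the cost of a line in one child. -/
theorem Sys.yv_le (X : Sys P S c) (hP : P.Ok) {t T : ℕ} (hT : 1 ≤ T) (ht : t ≤ T) {e : Cell}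
    {τ r : ℕ} (ha : adm P (X.D t) e τ = true) (hr : r < P.B) :
    P.BK * yv P (X.D t) (X.D T) (X.H T) e r ≤ 2 * 2 ^ ta P (X.D t) e r := by
  obtain ⟨c', hc⟩ := List.exists_mem_of_ne_nil _ ((adm_iff.1 ha).2.2.2.2.2 r hr)
  have h1 := X.yv_le_hint hT (X.D t) hc
  have h2 : hint P (X.D T) (X.H T) c' (ta P (X.D t) e r) ≤ X.D t c' :=
    (min_le_left _ _).trans (X.D_anti (tube_sibs hc) ht)
  have h3 := (mem_tube.1 hc).2.2.2.2.1
  have h4 := wt_le P (X.D t) e r
  have h5 := om_le P (ta P (X.D t) e r)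
  have h6 := rad_le P (X.D t) e
  have h7 := le_wt P (X.D t) e r
  have h8 := K_ge' hP
  rw [h3_eq, ← BK_eq] at h5 h6
  generalize om P (ta P (X.D t) e r) - 1 = o at *
  generalize rad P (X.D t) e = ρ at *
  generalize 2 ^ ta P (X.D t) e r = a at *
  have h9 : P.BK * o * 512 ≤ P.BK * o * P.K := Nat.mul_le_mul_left _ h8
  have h10 : P.BK * ρ * 512 ≤ P.BK * ρ * P.K := Nat.mul_le_mul_left _ h8
  have h11 : P.BK * yv P (X.D t) (X.D T) (X.H T) e r ≤ P.BK * (X.D t c' + 4 * o + 2 * ρ) :=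
    Nat.mul_le_mul_left _ (by omega)
  have h12 : P.BK * (X.D t c' + 4 * o + 2 * ρ) =
      P.BK * X.D t c' + 4 * (P.BK * o) + 2 * (P.BK * ρ) := by ring
  have h13 : P.BK * P.K * o = P.BK * o * P.K := by ring
  have h14 : P.BK * P.K * ρ = P.BK * ρ * P.K := by ring
  omega

namespace LiftAux

theorem zv_eq (R D : Cell → ℕ) (H : Cell → ℕ → ℕ) (e : Cell) :
    zv P R D H e = ∑ r ∈ range P.B, yv P R D H e r := rfl

/-- The line of an admissible cell against the hints of any cells of the tubes. -/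
theorem zv_le (X : Sys P S c) (hP : P.Ok) {T : ℕ} (hT : 1 ≤ T) {R : Cell → ℕ} {e : Cell} {τ : ℕ}
    (ha : adm P R e τ = true) (g : ℕ → Cell) (hg : ∀ r < P.B, g r ∈ tube P R e r) :
    P.K * zv P R (X.D T) (X.H T) e ≤
      P.K * ∑ r ∈ range P.B, hint P (X.D T) (X.H T) (g r) (ta P R e r) + 17 * R e := by
  have h1 : ∀ r ∈ range P.B, 2 ^ P.h3 * yv P R (X.D T) (X.H T) e r ≤
      2 ^ P.h3 * hint P (X.D T) (X.H T) (g r) (ta P R e r) + 8 * wt P R e r + R e := by
    intro r hr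
    have h2 := Nat.mul_le_mul_left (2 ^ P.h3) (X.yv_le_hint hT R (hg r (mem_range.1 hr)))
    have h3 := om_le P (ta P R e r)
    have h4 := rad_le P R e
    have h5 := ta_le ha r
    rw [mul_add, mul_add, mul_left_comm _ 4, mul_left_comm _ 2] at h2
    omega
  have h2 := sum_le_sum h1
  rw [sum_add_distrib, sum_add_distrib, ← mul_sum, ← mul_sum, ← mul_sum, ← zv_eq, sum_const,
    card_range, smul_eq_mul, h3_eq] at h2
  have h3 := sum_wt hP ha
  have h4 : P.B * R e * 1 ≤ P.B * R e * P.K := Nat.mul_le_mul_left _ (K_pos P)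
  refine Nat.le_of_mul_le_mul_left ?_ (Nat.mul_pos (B_pos P) (K_pos P))
  rw [BK_eq] at h3
  have h5 : P.B * R e * P.K = P.B * P.K * R e := by ring
  rw [mul_add, ← mul_assoc, ← mul_assoc, mul_left_comm _ 17]
  omega

/-- The value of the box of an admissible cell in a round without failure. -/
theorem box_le {sd : ℕ → ℕ} {T : ℕ} (hT : P.m < T) {R D : Cell → ℕ} {H : Cell → ℕ → ℕ} {e : Cell}
    (he : e ∈ sibs P e) {τ : ℕ} (ha : adm P R e τ = true)
    (hf : ¬ SFail P sd R D H (box P e τ) τ) :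
    P.K * hbody P sd T R D H (box P e τ) τ ≤ P.K * zv P R D H e + 32 * R e := by
  have hm : e ∈ fam P R (box P e τ) τ :=
    mem_fam.2 ⟨(same_box (P := P) e τ).sibs ▸ he, rfl, rfl, ha⟩
  have hne : fam P R (box P e τ) τ ≠ [] := List.ne_nil_of_mem hm
  have hc : chosen P sd R D H (box P e τ) τ ∈ fam P R (box P e τ) τ := argL_mem hne _ _
  have h1 : est P sd R D H τ (chosen P sd R D H (box P e τ) τ) ≤ est P sd R D H τ e :=
    argL_le _ _ hm
  have h2 : hbody P sd T R D H (box P e τ) τ ≤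
      zv P R D H (chosen P sd R D H (box P e τ) τ) + 2 * (om P τ - 1) := by
    unfold hbody
    rw [if_neg (by omega), if_neg (by simpa using hne)]
    exact Nat.add_le_add_right (min_le_right _ _) _
  unfold SFail at hf
  push Not at hf
  have h3 := (abs_le.1 (hf _ hc)).1
  have h4 := (abs_le.1 (hf _ hm)).2
  have h5 : 2 ^ P.h3 * zv P R D H (chosen P sd R D H (box P e τ) τ) ≤
      2 ^ P.h3 * zv P R D H e + 2 * 2 ^ τ := by
    have h6 : (est P sd R D H τ (chosen P sd R D H (box P e τ) τ) : ℝ) ≤ est P sd R D H τ e := by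
      exact_mod_cast h1
    have h7 : (0 : ℝ) < 2 ^ P.lS := by positivity
    have h8 : (0 : ℝ) < 2 ^ P.h3 := by positivity
    have h9 : (2 : ℝ) ^ P.lS * (zv P R D H (chosen P sd R D H (box P e τ) τ) : ℝ) ≤
        2 ^ P.lS * (zv P R D H e + 2 * 2 ^ τ / 2 ^ P.h3) := by
      have : (2 : ℝ) ^ P.lS * (zv P R D H e + 2 * 2 ^ τ / 2 ^ P.h3) =
          2 ^ P.lS * zv P R D H e + 2 * (2 ^ P.lS * 2 ^ τ / 2 ^ P.h3) := by ring
      linarith
    have h10 := mul_le_mul_of_nonneg_left (le_of_mul_le_mul_left h9 h7) h8.le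
    rw [mul_add, mul_div_cancel₀ _ h8.ne'] at h10
    exact_mod_cast h10
  have h6 := om_le P τ
  have h7 := (adm_iff.1 ha).2.1
  have h8 := Nat.mul_le_mul_left (2 ^ P.h3) h2
  rw [mul_add, mul_left_comm _ 2] at h8
  refine Nat.le_of_mul_le_mul_left ?_ (Nat.mul_pos (B_pos P) (K_pos P))
  rw [mul_add, ← mul_assoc, ← mul_assoc, mul_left_comm _ 32, ← h3_eq, ← BK_eq]
  omega

/-- The cells of the lane. -/
theorem lane_ge (sd : ℕ → ℕ) (T : ℕ) {R : Cell → ℕ} (D : ℕ → Cell → ℕ) (H U : ℕ → Cell → ℕ → ℕ)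
    {e : Cell} {τ : ℕ} (ha : adm P R e τ = true) :
    ∃ g : ℕ → Cell, (∀ r < P.B, g r ∈ tube P R e r) ∧
      ∑ r ∈ range P.B, U T (g r) (ta P R e r) ≤ lane P sd T R D H U e := by
  refine ⟨fun r => tc P R e r ((lanePath P sd T R D H U e).getD (r + 1) 0),
    fun r hr => tc_mem ((adm_iff.1 ha).2.2.2.2.2 r hr) _, ?_⟩
  unfold lane pcost
  rw [sum_map_range, sum_range_succ]
  refine (sum_le_sum fun r hr => ?_).trans (Nat.le_add_right _ _)
  unfold ecost
  rw [if_pos (mem_range.1 hr)]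
  exact Nat.le_add_left _ _

/-- The sum over the children of the least undressed value in the tube. -/
def mn (P : Par) (R D : Cell → ℕ) (e : Cell) : ℕ :=
  ∑ r ∈ range P.B, minL ((tube P R e r).map D)

theorem mn_le {R : Cell → ℕ} (D : Cell → ℕ) {e : Cell} (g : ℕ → Cell)
    (hg : ∀ r < P.B, g r ∈ tube P R e r) : mn P R D e ≤ ∑ r ∈ range P.B, D (g r) :=
  sum_le_sum fun r hr => minL_le (List.mem_map_of_mem (hg r (mem_range.1 hr)))

theorem mn_ex {R : Cell → ℕ} (D : Cell → ℕ) {e : Cell} {τ : ℕ} (ha : adm P R e τ = true) :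
    ∃ g : ℕ → Cell, (∀ r < P.B, g r ∈ tube P R e r) ∧ ∑ r ∈ range P.B, D (g r) = mn P R D e := by
  have h : ∀ r, ∃ c', r < P.B → c' ∈ tube P R e r ∧ D c' = minL ((tube P R e r).map D) := by
    intro r
    by_cases hr : r < P.B
    · obtain ⟨c', h1, h2⟩ := List.mem_map.1 (minL_mem (l := (tube P R e r).map D)
        (by simpa using (adm_iff.1 ha).2.2.2.2.2 r hr))
      exact ⟨c', fun _ => ⟨h1, h2⟩⟩
    · exact ⟨e, fun h => absurd h hr⟩
  choose g hg using h
  exact ⟨g, fun r hr => (hg r hr).1, sum_congr rfl fun r hr => (hg r (mem_range.1 hr)).2⟩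

theorem mn_anti (X : Sys P S c) {R : Cell → ℕ} {e : Cell} {τ : ℕ} (ha : adm P R e τ = true)
    (T : ℕ) : mn P R (X.D (T + 1)) e ≤ mn P R (X.D T) e := by
  obtain ⟨g, h1, h2⟩ := mn_ex (X.D T) ha
  rw [← h2]
  exact (mn_le _ g h1).trans (sum_le_sum fun r hr =>
    X.D_anti (tube_sibs (h1 r (mem_range.1 hr))) (Nat.le_succ T))

theorem sum_div_le (s : Finset ℕ) (f : ℕ → ℕ) (n : ℕ) :
    ∑ r ∈ s, f r / n ≤ (∑ r ∈ s, f r) / n := by
  rcases Nat.eq_zero_or_pos n with rfl | hn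
  · simp
  · rw [Nat.le_div_iff_mul_le hn, sum_mul]
    exact sum_le_sum fun r _ => Nat.div_mul_le_self _ _

/-- One round without failure. -/
theorem round (X : Sys P S c) (hP : P.Ok) {T : ℕ} (hT : P.m < T) {e : Cell} (he : e ∈ sibs P e)
    {τ : ℕ} (ha : adm P (X.D (ref P S (P.ep T))) e τ = true)
    (hf : ¬ SFail P (blk P S (bM (P.ep T) e.j)) (X.D (ref P S (P.ep T))) (X.D T) (X.H T)
      (box P e τ) τ) :
    P.K * X.U T e τ + 104 * (P.capd * mn P (X.D (ref P S (P.ep T))) (X.D (T + 1)) e) ≤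
      P.K * lane P (blk P S (bM (P.ep T) e.j)) T (X.D (ref P S (P.ep T))) X.D X.H X.U e +
        104 * (P.capd * mn P (X.D (ref P S (P.ep T))) (X.D T) e) := by
  have hU : X.U T e τ ≤
      max (lane P (blk P S (bM (P.ep T) e.j)) T (X.D (ref P S (P.ep T))) X.D X.H X.U e)
        (X.H T (box P e τ) τ - X.D (ref P S (P.ep T)) e / P.capd) := by
    rw [X.eqU]
    unfold ubody
    rw [if_neg (by omega), if_pos ha]
    exact min_le_right _ _
  have hH : P.K * X.H T (box P e τ) τ ≤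
      P.K * zv P (X.D (ref P S (P.ep T))) (X.D T) (X.H T) e + 32 * X.D (ref P S (P.ep T)) e := by
    rw [X.eqH]
    exact box_le hT he ha hf
  have hanti := mn_anti X ha T
  obtain ⟨g, hg, hl⟩ := lane_ge (blk P S (bM (P.ep T) e.j)) T X.D X.H X.U ha
  obtain ⟨g', hg', hl'⟩ := mn_ex (X.D T) ha
  have h1 := zv_le X hP (T := T) (by omega) ha g hg
  have h2 := zv_le X hP (T := T) (by omega) ha g' hg'
  have h3 : ∑ r ∈ range P.B, hint P (X.D T) (X.H T) (g' r) (ta P (X.D (ref P S (P.ep T))) e r) ≤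
      mn P (X.D (ref P S (P.ep T))) (X.D T) e := by
    rw [← hl']
    exact sum_le_sum fun r _ => min_le_left _ _
  have h4 : mn P (X.D (ref P S (P.ep T))) (X.D (T + 1)) e ≤
      ∑ r ∈ range P.B, X.U T (g r) (ta P (X.D (ref P S (P.ep T))) e r) :=
    (mn_le _ g hg).trans (sum_le_sum fun r hr => X.D_succ_le_U T
      (tube_sibs (hg r (mem_range.1 hr))) (mem_tube.1 (hg r (mem_range.1 hr))).2.1)
  have h5 : ∑ r ∈ range P.B, hint P (X.D T) (X.H T) (g r) (ta P (X.D (ref P S (P.ep T))) e r) ≤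
      ∑ r ∈ range P.B, X.U T (g r) (ta P (X.D (ref P S (P.ep T))) e r) +
        (∑ r ∈ range P.B, X.D (ref P S (P.ep T)) (g r)) / P.capd := by
    refine (sum_le_sum fun r _ => X.hint_le T (g r) _).trans ?_
    rw [sum_add_distrib]
    exact Nat.add_le_add_left (sum_div_le _ _ _) _
  have h6 := sum_R ha g hg
  have hK := K_ge hP
  have hc := capd_pos P
  have hgd := gd_pos P
  generalize lane P (blk P S (bM (P.ep T) e.j)) T (X.D (ref P S (P.ep T))) X.D X.H X.U e = l at *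
  generalize mn P (X.D (ref P S (P.ep T))) (X.D (T + 1)) e = m1 at *
  generalize mn P (X.D (ref P S (P.ep T))) (X.D T) e = m0 at *
  generalize zv P (X.D (ref P S (P.ep T))) (X.D T) (X.H T) e = z at *
  generalize ∑ r ∈ range P.B, hint P (X.D T) (X.H T) (g r)
    (ta P (X.D (ref P S (P.ep T))) e r) = s1 at *
  generalize ∑ r ∈ range P.B, hint P (X.D T) (X.H T) (g' r)
    (ta P (X.D (ref P S (P.ep T))) e r) = s2 at *
  generalize ∑ r ∈ range P.B, X.U T (g r) (ta P (X.D (ref P S (P.ep T))) e r) = su at *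
  generalize ∑ r ∈ range P.B, X.D (ref P S (P.ep T)) (g r) = sr at *
  generalize X.D (ref P S (P.ep T)) e = w at *
  generalize X.H T (box P e τ) τ = h at *
  generalize X.U T e τ = u at *
  obtain ⟨δ, rfl⟩ := Nat.exists_eq_add_of_le hanti
  by_cases hcase : u ≤ l
  · have e1 := Nat.mul_le_mul_left P.K hcase
    rw [mul_add P.capd]
    omega
  · have e1 : u + w / P.capd ≤ h := by omega
    have e2 : m1 + (w / P.capd + 1) ≤ h := by omega
    have e3 : sr / P.capd ≤ w / P.capd + (sr - w) := by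
      rw [← Nat.add_mul_div_left _ _ hc]
      refine Nat.div_le_div_right ?_
      have := Nat.mul_le_mul_right (sr - w) hc
      omega
    have e4 : P.K * (sr - w) ≤ 3 * w := by
      rw [Nat.mul_sub]
      omega
    have e5 : P.K * u ≤ P.K * l + 52 * w := by
      have f1 := Nat.mul_le_mul_left P.K e1
      have f2 := Nat.mul_le_mul_left P.K (show s1 ≤ l + w / P.capd + (sr - w) by omega)
      rw [mul_add] at f1
      rw [mul_add, mul_add] at f2
      omega
    have e6 : w ≤ 2 * (P.capd * δ) := by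
      have f1 := Nat.mul_le_mul_left P.K e2
      have f2 := Nat.mul_le_mul_left P.K h3
      rw [mul_add] at f1 f2
      have f3 : P.K * (w / P.capd + 1) ≤ P.K * δ + 49 * w := by omega
      have f4 : w ≤ P.capd * (w / P.capd + 1) := (Nat.lt_mul_div_succ w hc).le
      have f5 : 98 * P.capd ≤ P.K := by
        have := Nat.mul_le_mul_left P.capd hgd
        omega
      refine Nat.le_of_mul_le_mul_left ?_ (K_pos P)
      have f6 := Nat.mul_le_mul_left P.K f4
      have f7 := Nat.mul_le_mul_left P.capd f3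
      have f8 := Nat.mul_le_mul_right w f5
      have f9 : P.K * (P.capd * (w / P.capd + 1)) = P.capd * (P.K * (w / P.capd + 1)) := by ring
      have f10 : P.capd * (P.K * δ + 49 * w) = P.K * (P.capd * δ) + 49 * (P.capd * w) := by ring
      have f11 : 98 * P.capd * w = 98 * (P.capd * w) := by ring
      have f12 : P.K * (2 * (P.capd * δ)) = 2 * (P.K * (P.capd * δ)) := by ring
      omega
    rw [mul_add P.capd]
    omega

end LiftAux

open Classical in
/-- The dressed values of an admissible cell against its lanes. -/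
theorem Sys.lift (X : Sys P S c) (hP : P.Ok) {β : ℕ} (hβ : 1 ≤ β) {e : Cell}
    (he : e ∈ sibs P e) {τ : ℕ} (ha : adm P (X.D (ref P S β)) e τ = true) :
    ∑ t ∈ range P.m, (X.U (β * P.m + 1 + t) e τ : ℝ) ≤
      ∑ t ∈ range P.m, (lane P (blk P S (bM β e.j)) (β * P.m + 1 + t) (X.D (ref P S β))
        X.D X.H X.U e : ℝ) + 1 / (P.gd : ℝ) * X.D (ref P S β) e +
      X.D (ref P S β) e * ∑ t ∈ range P.m,
        (if SFail P (blk P S (bM β e.j)) (X.D (ref P S β)) (X.D (β * P.m + 1 + t))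
          (X.H (β * P.m + 1 + t)) (box P e τ) τ then (1 : ℝ) else 0) := by
  have hK : (0 : ℝ) < P.K := by exact_mod_cast K_pos P
  have hgd : (0 : ℝ) < P.gd := by exact_mod_cast gd_pos P
  have hcap : (0 : ℝ) < P.capd := by exact_mod_cast capd_pos P
  have href := (ref_bounds (P := P) S hβ).2
  have hm : P.m ≤ β * P.m := Nat.le_mul_of_pos_left _ hβ
  set M : ℕ → ℝ := fun t => (mn P (X.D (ref P S β)) (X.D (β * P.m + 1 + t)) e : ℝ) with hM
  have h1 : ∀ t ∈ range P.m, (X.U (β * P.m + 1 + t) e τ : ℝ) ≤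
      (lane P (blk P S (bM β e.j)) (β * P.m + 1 + t) (X.D (ref P S β)) X.D X.H X.U e : ℝ) +
        104 * P.capd / P.K * (M t - M (t + 1)) + X.D (ref P S β) e *
        (if SFail P (blk P S (bM β e.j)) (X.D (ref P S β)) (X.D (β * P.m + 1 + t))
          (X.H (β * P.m + 1 + t)) (box P e τ) τ then (1 : ℝ) else 0) := by
    intro t ht
    have hep := ep_eq P (β := β) (mem_range.1 ht)
    split_ifs with hf
    · have h2 : X.U (β * P.m + 1 + t) e τ ≤ X.D (ref P S β) e :=
        (X.U_le_D _ _ _).trans (X.D_anti he (by omega))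
      have h3 : (X.U (β * P.m + 1 + t) e τ : ℝ) ≤ X.D (ref P S β) e := by exact_mod_cast h2
      have h4 : M (t + 1) ≤ M t := by
        simp only [hM]
        exact_mod_cast mn_anti X ha (β * P.m + 1 + t)
      have h5 : 0 ≤ 104 * (P.capd : ℝ) / P.K * (M t - M (t + 1)) :=
        mul_nonneg (by positivity) (by linarith)
      have h6 : (0 : ℝ) ≤ lane P (blk P S (bM β e.j)) (β * P.m + 1 + t) (X.D (ref P S β))
        X.D X.H X.U e := Nat.cast_nonneg _
      linarith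
    · have h2 := round X hP (T := β * P.m + 1 + t) (by omega) he (τ := τ) (by rwa [hep])
        (by rwa [hep])
      rw [hep] at h2
      have h3 : (P.K : ℝ) * X.U (β * P.m + 1 + t) e τ + 104 * (P.capd * M (t + 1)) ≤
          P.K * lane P (blk P S (bM β e.j)) (β * P.m + 1 + t) (X.D (ref P S β)) X.D X.H X.U e +
            104 * (P.capd * M t) := by
        simp only [hM]
        exact_mod_cast h2
      refine le_of_mul_le_mul_left ?_ hK
      have h4 : (P.K : ℝ) * (104 * P.capd / P.K * (M t - M (t + 1))) =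
          104 * (P.capd * M t) - 104 * (P.capd * M (t + 1)) := by
        field_simp
      rw [mul_zero, add_zero, mul_add, h4]
      linarith
  refine (sum_le_sum h1).trans ?_
  rw [sum_add_distrib, sum_add_distrib, ← mul_sum, ← mul_sum, sum_range_sub']
  have h2 : M 0 ≤ 2 * X.D (ref P S β) e := by
    obtain ⟨g, hg, -⟩ := mn_ex (X.D 0) ha
    have h3 := sum_R ha g hg
    have h4 : mn P (X.D (ref P S β)) (X.D (β * P.m + 1 + 0)) e ≤
        ∑ r ∈ range P.B, X.D (ref P S β) (g r) :=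
      (mn_le _ g hg).trans (sum_le_sum fun r hr =>
        X.D_anti (tube_sibs (hg r (mem_range.1 hr))) (by omega))
    have h5 : ∑ r ∈ range P.B, X.D (ref P S β) (g r) ≤ 2 * X.D (ref P S β) e := by
      refine Nat.le_of_mul_le_mul_left ?_ (K_pos P)
      have h6 := Nat.mul_le_mul_right (X.D (ref P S β) e) (show 3 ≤ P.K by
        have := K_ge' hP; omega)
      rw [mul_left_comm]
      omega
    simp only [hM]
    exact_mod_cast h4.trans h5
  have h3 : 0 ≤ M P.m := Nat.cast_nonneg _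
  have h4 : 104 * (P.capd : ℝ) / P.K * (M 0 - M P.m) ≤ 1 / (P.gd : ℝ) * X.D (ref P S β) e := by
    have h5 : 512 * ((P.capd : ℝ) * P.gd) ≤ P.K := by exact_mod_cast K_ge hP
    have h6 : 104 * (P.capd : ℝ) / P.K * 2 ≤ 1 / P.gd := by
      rw [div_mul_eq_mul_div, div_le_div_iff₀ hK hgd]
      nlinarith [mul_pos hcap hgd]
    calc 104 * (P.capd : ℝ) / P.K * (M 0 - M P.m)
        ≤ 104 * (P.capd : ℝ) / P.K * (2 * X.D (ref P S β) e) :=
          mul_le_mul_of_nonneg_left (by linarith) (by positivity)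
      _ = 104 * (P.capd : ℝ) / P.K * 2 * X.D (ref P S β) e := by ring
      _ ≤ _ := mul_le_mul_of_nonneg_right h6 (Nat.cast_nonneg _)
  linarith

namespace LiftAux

theorem lS_ge (hP : P.Ok) : P.lK + 4 ≤ P.lS := by
  have h := hP.hS
  have h1 := K_pos P
  have h2 : 2 ^ (P.lK + 4) ≤ 2 ^ P.lS := by
    refine le_trans ?_ h
    have h3 : P.K * 1 ≤ P.K * P.K := Nat.mul_le_mul_left _ h1
    have h4 : 128 * (P.K * P.K) * 1 ≤ 128 * (P.K * P.K) * (P.lm + 2 * P.lG + P.lg + 5) :=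
      Nat.mul_le_mul_left _ (by omega)
    have h5 : 2 ^ (P.lK + 4) = 16 * P.K := by unfold Par.K; ring
    omega
  exact (Nat.pow_le_pow_iff_right one_lt_two).1 h2

theorem nH_le (P : Par) : 2 ^ P.nH ≤ P.NS :=
  Nat.pow_le_pow_right two_pos (by unfold Par.lN; omega)

theorem B_dvd (P : Par) : P.B ∣ P.E := by
  refine pow_dvd_pow 2 ?_
  have : P.lb * 1 ≤ P.lb * P.ha := Nat.mul_le_mul_left _ (by unfold Par.ha; omega)
  unfold Par.lE
  omega

theorem exp_neg_le (n : ℕ) : Real.exp (-(n : ℝ)) ≤ 1 / 2 ^ n := by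
  rw [Real.exp_neg, one_div]
  refine inv_anti₀ (by positivity) ?_
  have h : (2 : ℝ) ≤ Real.exp 1 := by have := Real.add_one_le_exp 1; linarith
  calc (2 : ℝ) ^ n ≤ Real.exp 1 ^ n := pow_le_pow_left₀ (by norm_num) h n
    _ = Real.exp n := by rw [← Real.exp_nat_mul, mul_one]

open Classical in
/-- The two tails of the stratified estimator. -/
theorem two_tails (hP : P.Ok) (y : ℕ → ℕ → ℕ) (z τ : ℕ)
    (hsum : ∑ r ∈ range P.B, ∑ l ∈ range (P.h2 + 5), y l r = z)
    (hy : ∀ r < P.B, P.BK * ∑ l ∈ range (P.h2 + 5), 2 ^ l * y l r ≤ 4 * 2 ^ τ)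
    (hz : P.BK * z ≤ 8 * 2 ^ τ) :
    av (fun u : Fin P.NS → Fin P.E =>
      if (2 : ℝ) ^ P.lS * 2 ^ τ / 2 ^ P.h3 <
        |(strat P.nH (P.h2 + 5) P.B (bv u) y : ℝ) - 2 ^ P.lS * (z : ℝ)|
      then (1 : ℝ) else 0) ≤ 2 / 2 ^ (P.lm + 2 * P.lG + P.lg + 5) := by
  have hK : (0 : ℝ) < P.K := by exact_mod_cast K_pos P
  have hB : (0 : ℝ) < P.B := by exact_mod_cast B_pos P
  have hBK : (P.BK : ℝ) = P.B * P.K := by exact_mod_cast BK_eq P
  have hBK0 : (0 : ℝ) < P.B * P.K := mul_pos hB hK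
  have h3 : (2 : ℝ) ^ P.h3 = P.B * P.K * P.K := by exact_mod_cast h3_eq P
  have hM : ∀ r < P.B, ((∑ l ∈ range (P.h2 + 5), 2 ^ l * y l r : ℕ) : ℝ) ≤
      4 * 2 ^ τ / (P.B * P.K) := by
    intro r hr
    rw [le_div_iff₀ hBK0, ← hBK, mul_comm]
    exact_mod_cast hy r hr
  have hz' : (z : ℝ) ≤ 8 * 2 ^ τ / (P.B * P.K) := by
    rw [le_div_iff₀ hBK0, ← hBK, mul_comm]
    exact_mod_cast hz
  have hL : P.h2 + 5 ≤ P.nH + 1 := by
    have := lS_ge hP
    unfold Par.h2 Par.nH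
    omega
  have hK16 : (0 : ℝ) < 16 * P.K := by linarith
  have hη1 : 1 / (16 * (P.K : ℝ)) ≤ 1 := by
    rw [div_le_one hK16]
    have : (1 : ℝ) ≤ P.K := by exact_mod_cast K_pos P
    linarith
  have hM0 : (0 : ℝ) < 4 * 2 ^ τ / (P.B * P.K) := div_pos (by positivity) hBK0
  have ht0 : (0 : ℝ) ≤ 2 ^ P.lS * 2 ^ τ / 2 ^ P.h3 / 2 := by positivity
  have hup := strat_up (NS := P.NS) (e := P.E) (Nat.two_pow_pos _) (B_dvd P) (nH_le P) hL y
    hM0 (one_div_pos.2 hK16) hη1 ht0 hM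
  have hdn := strat_down (NS := P.NS) (e := P.E) (Nat.two_pow_pos _) (B_dvd P) (nH_le P) hL y
    hM0 (one_div_pos.2 hK16) hη1 ht0 hM
  have hmean : (2 : ℝ) ^ P.nH / P.B = 2 ^ P.lS := by
    have : (P.B : ℝ) = 2 ^ P.lb := by unfold Par.B; push_cast; rfl
    rw [this, Par.nH, pow_add, mul_div_assoc, div_self (by positivity), mul_one]
  rw [hsum, hmean] at hup hdn
  have hexp : Real.exp (-(1 / (16 * (P.K : ℝ)) * (2 ^ P.lS * 2 ^ τ / 2 ^ P.h3 / 2) /
      (4 * 2 ^ τ / (P.B * P.K)))) ≤ 1 / 2 ^ (P.lm + 2 * P.lG + P.lg + 5) := by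
    refine le_trans (Real.exp_le_exp.2 (neg_le_neg ?_)) (exp_neg_le _)
    have b1 : 1 / (16 * (P.K : ℝ)) * (2 ^ P.lS * 2 ^ τ / 2 ^ P.h3 / 2) /
        (4 * 2 ^ τ / (P.B * P.K)) = 2 ^ P.lS / (128 * (P.K * P.K)) := by
      rw [h3]
      field_simp
      norm_num
    rw [b1, le_div_iff₀ (by positivity), mul_comm]
    exact_mod_cast hP.hS
  have hη : 1 / (16 * (P.K : ℝ)) * (2 ^ P.lS * (z : ℝ)) ≤
      2 ^ P.lS * 2 ^ τ / 2 ^ P.h3 / 2 := by
    calc 1 / (16 * (P.K : ℝ)) * (2 ^ P.lS * (z : ℝ))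
        ≤ 1 / (16 * (P.K : ℝ)) * (2 ^ P.lS * (8 * 2 ^ τ / (P.B * P.K))) := by gcongr
      _ = _ := by
        rw [h3]
        field_simp
        norm_num
  refine le_trans (av_mono fun u => ?_) ((av_add _ _).le.trans
    ((add_le_add (hup.trans hexp) (hdn.trans hexp)).trans (le_of_eq (by ring))))
  split_ifs with b1 b2 b3 b3
  · norm_num
  · norm_num
  · norm_num
  · exfalso
    rw [lt_abs] at b1
    rcases b1 with b1 | b1
    · apply b2; linarith
    · apply b3; linarith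
  all_goals norm_num

theorem ta_lo {R : Cell → ℕ} {e : Cell} {τ : ℕ} (ha : adm P R e τ = true) (r : ℕ) :
    τ + 1 - ta P R e r < P.h2 + 5 := by
  have a1 := (adm_iff.1 ha).2.1
  have b1 := Nat.mul_le_mul_left P.BK ((le_wt P R e r).trans (wt_le P R e r))
  have b2 : 2 ^ τ ≤ 2 ^ (P.h2 + ta P R e r + 3) := by
    rw [pow_add, pow_add]
    unfold Par.BK at a1 b1
    omega
  have := (Nat.pow_le_pow_iff_right one_lt_two).1 b2
  omega

theorem ta_hi (hP : P.Ok) {R : Cell → ℕ} {e : Cell} {τ : ℕ} (ha : adm P R e τ = true) {r : ℕ}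
    (hr : r < P.B) : ta P R e r ≤ τ + 1 := by
  have a2 := (adm_iff.1 ha).2.2.1
  have a3 := sum_wt hP ha
  have b1 : wt P R e r ≤ ∑ r ∈ range P.B, wt P R e r :=
    single_le_sum (f := fun r => wt P R e r) (fun _ _ => Nat.zero_le _) (mem_range.2 hr)
  refine Nat.clog_le_of_le_pow ?_
  rw [pow_succ]
  omega

open Classical in
/-- The estimate of one line is good with high probability. -/
theorem samp_one (hP : P.Ok) {R : Cell → ℕ} (D : Cell → ℕ) (H : Cell → ℕ → ℕ) {e : Cell} {τ : ℕ}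
    (ha : adm P R e τ = true)
    (hy : ∀ r < P.B, P.BK * yv P R D H e r ≤ 2 * 2 ^ ta P R e r) :
    av (fun u : Fin P.NS → Fin P.E =>
      if (2 : ℝ) ^ P.lS * 2 ^ τ / 2 ^ P.h3 <
        |(est P (fun i => bv u (i % P.NS)) R D H τ e : ℝ) - 2 ^ P.lS * (zv P R D H e : ℝ)|
      then (1 : ℝ) else 0) ≤ 2 / 2 ^ (P.lm + 2 * P.lG + P.lg + 5) := by
  have hest : ∀ u : Fin P.NS → Fin P.E, est P (fun i => bv u (i % P.NS)) R D H τ e =
      strat P.nH (P.h2 + 5) P.B (bv u)
        fun l r => if l = τ + 1 - ta P R e r then yv P R D H e r else 0 := fun u =>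
    strat_congr (fun i hi => by rw [Nat.mod_eq_of_lt (hi.trans_le (nH_le P))])
      fun _ _ _ _ _ => rfl
  simp only [hest]
  refine two_tails hP _ _ τ ?_ (fun r hr => ?_) ?_
  · rw [zv_eq]
    refine sum_congr rfl fun r _ => ?_
    rw [sum_ite_eq', if_pos (mem_range.2 (ta_lo ha r))]
  · simp only [mul_ite, mul_zero]
    rw [sum_ite_eq', if_pos (mem_range.2 (ta_lo ha r))]
    have b2 := Nat.mul_le_mul_left (2 ^ (τ + 1 - ta P R e r)) (hy r hr)
    rw [mul_left_comm _ 2, ← pow_add, Nat.sub_add_cancel (ta_hi hP ha hr), mul_left_comm,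
      pow_succ] at b2
    omega
  · have a2 := (adm_iff.1 ha).2.2.1
    have a3 := sum_wt hP ha
    have b1 : P.BK * zv P R D H e ≤ 4 * ∑ r ∈ range P.B, wt P R e r := by
      rw [zv_eq, mul_sum, mul_sum]
      refine sum_le_sum fun r hr => ?_
      have := hy r (mem_range.1 hr)
      have := ta_le ha r
      omega
    omega

end LiftAux

open Classical in
/-- The sampling fails with small probability. -/
theorem samp (hP : P.Ok) (R D : Cell → ℕ) (H : Cell → ℕ → ℕ) (c' : Cell) (τ : ℕ)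
    (hy : ∀ e, adm P R e τ = true → ∀ r < P.B, P.BK * yv P R D H e r ≤ 2 * 2 ^ ta P R e r) :
    av (fun u : Fin P.NS → Fin P.E =>
      if SFail P (fun i => bv u (i % P.NS)) R D H c' τ then (1 : ℝ) else 0) ≤
      1 / ((P.m : ℝ) * P.gd) := by
  have h1 : ∀ u : Fin P.NS → Fin P.E,
      (if SFail P (fun i => bv u (i % P.NS)) R D H c' τ then (1 : ℝ) else 0) ≤
      ∑ e ∈ (fam P R c' τ).toFinset, if (2 : ℝ) ^ P.lS * 2 ^ τ / 2 ^ P.h3 <
        |(est P (fun i => bv u (i % P.NS)) R D H τ e : ℝ) - 2 ^ P.lS * (zv P R D H e : ℝ)|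
      then (1 : ℝ) else 0 := by
    intro u
    split_ifs with h
    · obtain ⟨e, he, h2⟩ := h
      refine le_trans ?_ (single_le_sum (f := fun e => if (2 : ℝ) ^ P.lS * 2 ^ τ / 2 ^ P.h3 <
        |(est P (fun i => bv u (i % P.NS)) R D H τ e : ℝ) - 2 ^ P.lS * (zv P R D H e : ℝ)|
        then (1 : ℝ) else 0) (fun _ _ => by positivity) (List.mem_toFinset.2 he))
      rw [if_pos h2]
    · exact sum_nonneg fun _ _ => by positivity
  refine (av_mono h1).trans ?_
  rw [av_sum]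
  refine (sum_le_sum fun e he => samp_one hP D H (mem_fam.1 (List.mem_toFinset.1 he)).2.2.2
    (hy e (mem_fam.1 (List.mem_toFinset.1 he)).2.2.2)).trans ?_
  have h2 : (fam P R c' τ).toFinset.card ≤ 2 ^ (2 * P.lG + 4) :=
    (List.toFinset_card_le _).trans ((List.length_filter_le _ _).trans (length_sibs c'))
  have h3 : ((fam P R c' τ).toFinset.card : ℝ) ≤ 2 ^ (2 * P.lG + 4) := by exact_mod_cast h2
  rw [sum_const, nsmul_eq_mul]
  refine (mul_le_mul_of_nonneg_right h3 (by positivity)).trans (le_of_eq ?_)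
  unfold Par.m Par.gd
  push_cast
  field_simp
  ring

end Vale.Agent.P315Z
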