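import Vale.Agent.P315Z.Keys
import Vale.Agent.P315Z.Lane
import Vale.Agent.P315Z.Conc
import Vale.Agent.P315Z.BitRam

/-! P315Z: locality of the scheme, and the family of solutions given by its values. -/

set_option autoImplicit false

namespace Vale.Agent.P315Z

open Vale.Agent.P315.H155 (minD)

section shape

variable {P : Par}

theorem lc_B_pos (P : Par) : 0 < P.B := Nat.two_pow_pos _

theorem lc_ref_le (S : ℕ → ℕ) {T : ℕ} (hT : P.m < T) : ref P S (P.ep T) ≤ T := by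
  have hm : 0 < P.m := Nat.two_pow_pos _
  have h1 : 1 ≤ P.ep T := (Nat.le_div_iff_mul_le hm).2 (by omega)
  have h2 : P.ep T * P.m ≤ T - 1 := Nat.div_mul_le_self _ _
  have h3 := Nat.mod_lt (blk P S (bR (P.ep T)) 0) hm
  have h4 : (P.ep T - 1) * P.m + P.m = P.ep T * P.m := by
    rw [← Nat.succ_mul, Nat.succ_eq_add_one, Nat.sub_add_cancel h1]
  unfold ref
  omega

theorem lc_ep_mono {T T' : ℕ} (h : T ≤ T') : P.ep T ≤ P.ep T' :=
  Nat.div_le_div_right (by omega)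

theorem mem_allKids {e c : Cell} : c ∈ allKids P e ↔ e.j ≠ 0 ∧ ∃ r < P.B, c ∈ kids P e r := by
  unfold allKids
  split_ifs with h
  · simp [h]
  · simp [h, List.mem_flatMap]

theorem near_j {e c : Cell} (h : c ∈ sibs P e ++ allKids P e) : c.j ≤ e.j := by
  rcases List.mem_append.1 h with h | h
  · exact (same_of_mem_sibs h).1.le
  · obtain ⟨-, r, -, h⟩ := mem_allKids.1 h
    rw [(mem_kids.1 h).1]
    omega

theorem tube_j {R : Cell → ℕ} {e c : Cell} {r : ℕ} (hj : e.j ≠ 0) (h : c ∈ tube P R e r) :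
    c.j < e.j := by
  rw [(mem_kids.1 (mem_tube.1 h).1).1]
  omega

theorem fam_j {R : Cell → ℕ} {c e : Cell} {τ : ℕ} (h : e ∈ fam P R c τ) : e.j = c.j ∧ e.j ≠ 0 :=
  ⟨(same_of_mem_sibs (mem_fam.1 h).1).1, (adm_iff.1 (mem_fam.1 h).2.2.2).1⟩

theorem mem_qR {t : ℕ} {e : Cell} {k : Key} :
    k ∈ qR P t e ↔ ∃ c, (c = e ∨ c ∈ sibs P e ++ allKids P e) ∧ kD t c = k := by
  simp only [qR, List.mem_map, List.mem_cons]

theorem mem_sBox {sd : ℕ → ℕ} {R : Cell → ℕ} {c : Cell} {τ : ℕ} {b : Cell × ℕ} :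
    b ∈ sBox P sd R c τ ↔ ∃ e ∈ fam P R c τ, ∃ u < 2 ^ P.nH,
      u * 2 ^ (τ + 1 - ta P R e (sd u % P.B)) < 2 ^ P.nH ∧ ∃ c' ∈ tube P R e (sd u % P.B),
        (box P c' (ta P R e (sd u % P.B)), ta P R e (sd u % P.B)) = b := by
  simp only [sBox, List.mem_dedup, List.mem_flatMap, List.mem_range, List.mem_ite_nil_right,
    List.mem_map]

theorem mem_lBox {R : Cell → ℕ} {e : Cell} {b : Cell × ℕ} : b ∈ lBox P R e ↔
    ∃ r < P.B, ∃ c' ∈ tube P R e r, (box P c' (ta P R e r), ta P R e r) = b := by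
  simp only [lBox, List.mem_dedup, List.mem_flatMap, List.mem_range, List.mem_map]

theorem mem_qBox {T : ℕ} {l : List (Cell × ℕ)} {k : Key} :
    k ∈ qBox T l ↔ ∃ b ∈ l, k = kD T b.1 ∨ k = kH T b.1 b.2 := by
  simp only [qBox, List.mem_flatMap, List.mem_cons, List.not_mem_nil, or_false]

theorem chosen_mem {sd : ℕ → ℕ} {R D : Cell → ℕ} {H : Cell → ℕ → ℕ} {c : Cell} {τ : ℕ}
    (h : ¬ (fam P R c τ).isEmpty = true) : chosen P sd R D H c τ ∈ fam P R c τ :=
  argL_mem (by simpa using h) _ _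

theorem qR_shape {t : ℕ} {e : Cell} {k : Key} (h : k ∈ qR P t e) :
    k.tag = 2 ∧ k.T = t ∧ k.c.j ≤ e.j := by
  obtain ⟨c, hc, rfl⟩ := mem_qR.1 h
  refine ⟨rfl, rfl, ?_⟩
  rcases hc with rfl | hc
  · exact le_rfl
  · exact near_j hc

theorem qH_shape {sd : ℕ → ℕ} {t T : ℕ} {c : Cell} {τ ph : ℕ} {o : Key → List ℕ} {k : Key}
    (ht : P.m < T → t ≤ T) (h : k ∈ qH P sd t T c τ ph o) :
    k.T ≤ T ∧ ((k.tag = 2 ∧ k.c.j ≤ c.j) ∨ (k.tag = 3 ∧ k.c.j < c.j)) := by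
  have key : ∀ l : List (Cell × ℕ), (∀ b ∈ l, b.1.j < c.j) → k ∈ qBox T l →
      k.T ≤ T ∧ ((k.tag = 2 ∧ k.c.j ≤ c.j) ∨ (k.tag = 3 ∧ k.c.j < c.j)) := by
    intro l hl hk
    obtain ⟨b, hb, rfl | rfl⟩ := mem_qBox.1 hk
    · exact ⟨le_rfl, Or.inl ⟨rfl, (hl b hb).le⟩⟩
    · exact ⟨le_rfl, Or.inr ⟨rfl, hl b hb⟩⟩
  unfold qH at h
  split_ifs at h with h1 h2 h3 h4
  · simp at h
  · obtain ⟨a1, a2, a3⟩ := qR_shape h
    exact ⟨a2 ▸ ht (by omega), Or.inl ⟨a1, a3⟩⟩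
  · refine key _ (fun b hb => ?_) h
    obtain ⟨e, he, u, -, -, c', hc', rfl⟩ := mem_sBox.1 hb
    exact (tube_j (fam_j he).2 hc').trans_eq (fam_j he).1
  · simp at h
  · refine key _ (fun b hb => ?_) h
    obtain ⟨r, -, c', hc', rfl⟩ := mem_lBox.1 hb
    exact (tube_j (fam_j (chosen_mem h4)).2 hc').trans_eq (fam_j (chosen_mem h4)).1

theorem qU_shape {sd : ℕ → ℕ} {t T : ℕ} {e : Cell} {τ ph : ℕ} {o : Key → List ℕ} {k : Key}
    (ht : P.m < T → t ≤ T) (h : k ∈ qU P sd t T e τ ph o) :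
    k.T ≤ T ∧ (((k.tag = 2 ∨ k.tag = 3) ∧ k.c.j ≤ e.j) ∨ (k.tag = 4 ∧ k.c.j < e.j)) := by
  unfold qU at h
  split_ifs at h with h1 h2 h3 h4 h5
  · simp only [List.mem_cons, List.not_mem_nil, or_false] at h
    rcases h with rfl | rfl
    · exact ⟨le_rfl, Or.inl ⟨Or.inl rfl, le_rfl⟩⟩
    · exact ⟨le_rfl, Or.inl ⟨Or.inr rfl, le_rfl⟩⟩
  · simp only [List.mem_cons] at h
    rcases h with rfl | rfl | h
    · exact ⟨le_rfl, Or.inl ⟨Or.inl rfl, le_rfl⟩⟩
    · exact ⟨le_rfl, Or.inl ⟨Or.inr rfl, le_rfl⟩⟩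
    · obtain ⟨a1, a2, a3⟩ := qR_shape h
      exact ⟨a2 ▸ ht (by omega), Or.inl ⟨Or.inl a1, a3⟩⟩
  · simp at h
  · have hj := (adm_iff.1 h4).1
    rcases List.mem_append.1 h with h | h
    · obtain ⟨b, hb, rfl⟩ := List.mem_map.1 h
      obtain ⟨r, -, c', hc', rfl⟩ := mem_lBox.1 hb
      exact ⟨le_rfl, Or.inl ⟨Or.inr rfl, (tube_j hj hc').le⟩⟩
    · simp only [List.mem_flatMap, List.mem_range, List.mem_cons, List.not_mem_nil,
        or_false] at h
      obtain ⟨r, -, c', hc', h⟩ := h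
      have hc := tube_j hj hc'
      rcases h with rfl | ⟨u, hu, rfl | rfl | rfl⟩
      · exact ⟨le_rfl, Or.inl ⟨Or.inl rfl, hc.le⟩⟩
      · exact ⟨by show _ + u ≤ T; omega, Or.inl ⟨Or.inl rfl, hc.le⟩⟩
      · exact ⟨by show _ + u ≤ T; omega, Or.inl ⟨Or.inr rfl, hc.le⟩⟩
      · exact ⟨by show _ + u ≤ T; omega, Or.inr ⟨rfl, hc⟩⟩
  · obtain ⟨r, hr, rfl⟩ := List.mem_map.1 h
    have ha := adm_iff.1 h4
    exact ⟨le_rfl, Or.inr ⟨rfl, tube_j ha.1 (tc_mem (ha.2.2.2.2.2 r (List.mem_range.1 hr)) _)⟩⟩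
  · simp at h

/-- The shape of the queries. -/
theorem qs_shape {S : ℕ → ℕ} {ph : ℕ} {k k' : Key} {o : Key → List ℕ} (h : k' ∈ qsF P S ph k o) :
    (k.tag = 1 ∧ (k'.tag = 0 ∨ (k'.tag = 1 ∧ k'.c.j < k.c.j))) ∨
    (k.tag = 2 ∧ k.T = 0 ∧ (k'.tag = 0 ∨ (k'.tag = 1 ∧ k'.c.j = k.c.j))) ∨
    (k.tag = 2 ∧ k.T ≠ 0 ∧ k'.tag = 4 ∧ k'.T = k.T - 1 ∧ k'.c.j ≤ k.c.j) ∨
    (k.tag = 3 ∧ k'.T ≤ k.T ∧ ((k'.tag = 2 ∧ k'.c.j ≤ k.c.j) ∨ (k'.tag = 3 ∧ k'.c.j < k.c.j))) ∨
    (k.tag = 4 ∧ k'.T ≤ k.T ∧ (((k'.tag = 2 ∨ k'.tag = 3) ∧ k'.c.j ≤ k.c.j) ∨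
      (k'.tag = 4 ∧ k'.c.j < k.c.j))) ∨
    (5 ≤ k.tag ∧ k'.tag = 2 ∧ k'.T = P.Tend ∧ k'.c.j = P.k) := by
  unfold qsF at h
  split_ifs at h with h0 h1 h1' h2 h2' h2'' h3 h4 h5
  · simp at h
  · refine Or.inl ⟨h1, ?_⟩
    unfold qA at h
    split_ifs at h with hj
    · obtain ⟨t, -, rfl⟩ := List.mem_map.1 h
      exact Or.inl rfl
    · simp only [List.mem_dedup, List.mem_flatMap, List.mem_ite_nil_right, List.mem_map] at h
      obtain ⟨u, -, l, -, -, t, -, r, -, rfl⟩ := h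
      exact Or.inr ⟨rfl, by show k.c.j - P.ha < _; unfold Par.ha; omega⟩
  · simp at h
  · refine Or.inr (Or.inl ⟨h2, h2'', ?_⟩)
    unfold qD0 at h
    split_ifs at h with hj
    · rw [List.mem_singleton.1 h]
      exact Or.inl rfl
    · simp only [List.mem_flatMap, List.mem_map] at h
      obtain ⟨u, -, r, -, rfl⟩ := h
      exact Or.inr ⟨rfl, rfl⟩
  · refine Or.inr (Or.inr (Or.inl ⟨h2, h2'', ?_⟩))
    simp only [qD, List.mem_flatMap, List.mem_map] at h
    obtain ⟨c, hc, τ, -, rfl⟩ := h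
    exact ⟨rfl, rfl, near_j hc⟩
  · simp at h
  · exact Or.inr (Or.inr (Or.inr (Or.inl ⟨h3, qH_shape (lc_ref_le S) h⟩)))
  · exact Or.inr (Or.inr (Or.inr (Or.inr (Or.inl ⟨h4, qU_shape (lc_ref_le S) h⟩))))
  · obtain ⟨ka, -, rfl⟩ := List.mem_map.1 h
    exact Or.inr (Or.inr (Or.inr (Or.inr (Or.inr ⟨by omega, rfl, rfl, rfl⟩))))
  · simp at h

theorem rank_lt {S : ℕ → ℕ} {ph : ℕ} {k k' : Key} {o : Key → List ℕ} (h : k' ∈ qsF P S ph k o) :
    rankF P k' < rankF P k := by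
  have := qs_shape h
  unfold rankF
  split_ifs <;> omega

end shape

section congr

variable {P : Par} {R R' D D' : Cell → ℕ} {H H' : Cell → ℕ → ℕ} {o o' : Key → List ℕ}

theorem oD_eq {T : ℕ} {c : Cell} (h : o (kD T c) = o' (kD T c)) : oD o T c = oD o' T c :=
  congrArg (fun l : List ℕ => l.headD 0) h

theorem oH_eq {T : ℕ} {c : Cell} {τ : ℕ} (h : o (kH T c τ) = o' (kH T c τ)) :
    oH o T c τ = oH o' T c τ := congrArg (fun l : List ℕ => l.headD 0) h

theorem oU_eq {T : ℕ} {c : Cell} {τ : ℕ} (h : o (kU T c τ) = o' (kU T c τ)) :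
    oU o T c τ = oU o' T c τ := congrArg (fun l : List ℕ => l.headD 0) h

/-- The reference values agree on a cell and on its children. -/
def Ag1 (P : Par) (R R' : Cell → ℕ) (e : Cell) : Prop :=
  R e = R' e ∧ (e.j ≠ 0 → ∀ r < P.B, ∀ c ∈ kids P e r, R c = R' c)

theorem ag_of_qR {t : ℕ} {c : Cell} (h : ∀ k ∈ qR P t c, o k = o' k) :
    Ag1 P (oD o t) (oD o' t) c ∧ ∀ e ∈ sibs P c, Ag1 P (oD o t) (oD o' t) e := by
  have h1 : ∀ e, (e = c ∨ e ∈ sibs P c ++ allKids P c) → oD o t e = oD o' t e := by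
    intro e he
    unfold oD
    rw [h _ (mem_qR.2 ⟨e, he, rfl⟩)]
  have h2 : c.j ≠ 0 → ∀ r < P.B, ∀ a ∈ kids P c r, oD o t a = oD o' t a := fun hj r hr a ha =>
    h1 a (Or.inr (List.mem_append_right _ (mem_allKids.2 ⟨hj, r, hr, ha⟩)))
  refine ⟨⟨h1 c (Or.inl rfl), h2⟩, fun e he => ⟨h1 e (Or.inr (List.mem_append_left _ he)), ?_⟩⟩
  intro hj r hr a ha
  have hs := same_of_mem_sibs he
  exact h2 (hs.1 ▸ hj) r hr a (hs.kids r ▸ ha)

theorem fam_congr {c : Cell} (h : ∀ e ∈ sibs P c, Ag1 P R R' e) (τ : ℕ) :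
    fam P R c τ = fam P R' c τ := by
  unfold fam
  exact List.filter_congr fun e he => by rw [adm_congr (h e he).1 (h e he).2]

theorem sBox_congr {c : Cell} (h : ∀ e ∈ sibs P c, Ag1 P R R' e) (sd : ℕ → ℕ) (τ : ℕ) :
    sBox P sd R c τ = sBox P sd R' c τ := by
  unfold sBox
  rw [← fam_congr h]
  refine congrArg List.dedup (List.flatMap_congr fun e he => List.flatMap_congr fun u _ => ?_)
  have h1 := h e (mem_fam.1 he).1
  have h2 := Nat.mod_lt (sd u) (lc_B_pos P)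
  rw [ta_congr h1.1 (h1.2 (fam_j he).2) h2, tube_congr h1.1 (h1.2 (fam_j he).2) h2]

theorem lBox_congr {e : Cell} (h : Ag1 P R R' e) (hj : e.j ≠ 0) : lBox P R e = lBox P R' e := by
  unfold lBox
  refine congrArg List.dedup (List.flatMap_congr fun r hr => ?_)
  rw [ta_congr h.1 (h.2 hj) (List.mem_range.1 hr), tube_congr h.1 (h.2 hj) (List.mem_range.1 hr)]

theorem yv_congr {e : Cell} (h : Ag1 P R R' e) (hj : e.j ≠ 0) {r : ℕ} (hr : r < P.B)
    (hD : ∀ c ∈ tube P R e r, D (box P c (ta P R e r)) = D' (box P c (ta P R e r)) ∧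
      H (box P c (ta P R e r)) (ta P R e r) = H' (box P c (ta P R e r)) (ta P R e r)) :
    yv P R D H e r = yv P R' D' H' e r := by
  unfold yv
  rw [← ta_congr h.1 (h.2 hj) hr, ← tube_congr h.1 (h.2 hj) hr, ← st_congr (h.2 hj),
    ← st_congr (h.2 hj)]
  congr 1
  exact List.map_congr_left fun c hc => by rw [(hD c hc).1, (hD c hc).2]

theorem chosen_congr {c : Cell} (h : ∀ e ∈ sibs P c, Ag1 P R R' e) {sd : ℕ → ℕ} {τ : ℕ}
    (hD : ∀ b ∈ sBox P sd R c τ, D b.1 = D' b.1 ∧ H b.1 b.2 = H' b.1 b.2) :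
    chosen P sd R D H c τ = chosen P sd R' D' H' c τ := by
  unfold chosen
  rw [← fam_congr h]
  refine argL_congr _ fun e he => ?_
  have h1 := h e (mem_fam.1 he).1
  unfold est
  refine strat_congr (fun _ _ => rfl) fun u hu l _ hl => ?_
  have h2 := Nat.mod_lt (sd u) (lc_B_pos P)
  rw [← ta_congr h1.1 (h1.2 (fam_j he).2) h2]
  split_ifs with h3
  · exact yv_congr h1 (fam_j he).2 h2 fun c' hc' =>
      hD _ (mem_sBox.2 ⟨e, he, u, hu, h3 ▸ hl, c', hc', rfl⟩)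
  · rfl

theorem zv_congr {e : Cell} (h : Ag1 P R R' e) (hj : e.j ≠ 0)
    (hD : ∀ b ∈ lBox P R e, D b.1 = D' b.1 ∧ H b.1 b.2 = H' b.1 b.2) :
    zv P R D H e = zv P R' D' H' e := by
  unfold zv
  congr 1
  exact List.map_congr_left fun r hr => yv_congr h hj (List.mem_range.1 hr) fun c hc =>
    hD _ (mem_lBox.2 ⟨r, List.mem_range.1 hr, c, hc, rfl⟩)

theorem of_qBox {T : ℕ} {l : List (Cell × ℕ)} (h : ∀ k ∈ qBox T l, o k = o' k) :
    ∀ b ∈ l, oD o T b.1 = oD o' T b.1 ∧ oH o T b.1 b.2 = oH o' T b.1 b.2 := by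
  intro b hb
  unfold oD oH
  rw [h _ (mem_qBox.2 ⟨b, hb, Or.inl rfl⟩), h _ (mem_qBox.2 ⟨b, hb, Or.inr rfl⟩)]
  exact ⟨rfl, rfl⟩

theorem qH_congr {sd : ℕ → ℕ} {t T : ℕ} {c : Cell} {τ ph : ℕ}
    (h : ∀ ph' < ph, ∀ k ∈ qH P sd t T c τ ph' o, o k = o' k) :
    qH P sd t T c τ ph o = qH P sd t T c τ ph o' := by
  by_cases h1 : T ≤ P.m
  · simp only [qH, if_pos h1]
  by_cases h2 : ph = 0
  · simp only [qH, if_pos h2]
  have a0 := (ag_of_qR (P := P) (t := t) (c := c) fun k hk => h 0 (by omega) k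
    (by simpa only [qH, if_neg h1, if_true] using hk)).2
  by_cases h3 : ph = 1
  · simp only [qH, if_neg h2, if_pos h3, sBox_congr a0]
  have a1 := of_qBox (T := T) (l := sBox P sd (oD o t) c τ) fun k hk => h 1 (by omega) k
    (by simpa only [qH, if_neg h1, if_true, if_neg one_ne_zero] using hk)
  simp only [qH, if_neg h1, if_neg h2, if_neg h3, ← fam_congr a0, ← chosen_congr a0 a1]
  split_ifs with h4
  · rfl
  · have a2 := chosen_mem (sd := sd) (D := oD o T) (H := oH o T) h4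
    rw [lBox_congr (a0 _ (mem_fam.1 a2).1) (fam_j a2).2]

theorem hbody_congr {sd : ℕ → ℕ} {t T : ℕ} {c : Cell} {τ : ℕ}
    (h : ∀ ph < 3, ∀ k ∈ qH P sd t T c τ ph o, o k = o' k) :
    hbody P sd T (oD o t) (oD o T) (oH o T) c τ = hbody P sd T (oD o' t) (oD o' T) (oH o' T) c τ := by
  by_cases h1 : T ≤ P.m
  · simp only [hbody, if_pos h1]
  have a0 := (ag_of_qR (P := P) (t := t) (c := c) fun k hk => h 0 (by omega) k
    (by simpa only [qH, if_neg h1, if_true] using hk)).2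
  have a1 := of_qBox (T := T) (l := sBox P sd (oD o t) c τ) fun k hk => h 1 (by omega) k
    (by simpa only [qH, if_neg h1, if_true, if_neg one_ne_zero] using hk)
  simp only [hbody, if_neg h1, ← fam_congr a0, ← chosen_congr a0 a1]
  split_ifs with h4
  · rfl
  · have a2 := chosen_mem (sd := sd) (D := oD o T) (H := oH o T) h4
    have a3 := of_qBox (T := T)
      (l := lBox P (oD o t) (chosen P sd (oD o t) (oD o T) (oH o T) c τ)) fun k hk =>
      h 2 (by omega) k (by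
        simpa only [qH, if_neg h1, if_neg two_ne_zero, if_neg (by omega : ¬ 2 = 1), if_neg h4]
          using hk)
    rw [zv_congr (a0 _ (mem_fam.1 a2).1) (fam_j a2).2 a3]

theorem tc_congr {e : Cell} (h : Ag1 P R R' e) (hj : e.j ≠ 0) {r : ℕ} (hr : r < P.B) (u : ℕ) :
    tc P R e r u = tc P R' e r u := by
  unfold tc
  rw [tube_congr h.1 (h.2 hj) hr]

theorem lanePath_congr {sd : ℕ → ℕ} {t T : ℕ} {e : Cell} {τ : ℕ} (h1 : ¬ T ≤ P.m)
    (ha : adm P (oD o t) e τ = true) (a0 : Ag1 P (oD o t) (oD o' t) e)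
    (h : ∀ k ∈ qU P sd t T e τ 1 o, o k = o' k) :
    lanePath P sd T (oD o t) (oD o) (oH o) (oU o) e =
      lanePath P sd T (oD o' t) (oD o') (oH o') (oU o') e := by
  simp only [qU, if_neg one_ne_zero, if_neg h1, if_pos ha, if_true, List.mem_append,
    List.mem_map, List.mem_flatMap, List.mem_range, List.mem_cons, List.not_mem_nil,
    or_false] at h
  unfold lanePath
  rw [picks_congr ha a0.1 (a0.2 (adm_iff.1 ha).1) (D' := oD o') (H' := oH o') (U' := oU o')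
    (fun T' b1 b2 r hr c hc => ?_) (fun T' b1 b2 r hr c hc => ?_) (by omega)]
  · rcases Nat.lt_or_eq_of_le b2 with b3 | rfl
    · obtain ⟨u, rfl⟩ := Nat.exists_eq_add_of_le b1
      exact ⟨oD_eq (h _ (Or.inr ⟨r, hr, c, hc, Or.inr ⟨u, by omega, Or.inl rfl⟩⟩)),
        oH_eq (h _ (Or.inr ⟨r, hr, c, hc, Or.inr ⟨u, by omega, Or.inr (Or.inl rfl)⟩⟩))⟩
    · exact ⟨oD_eq (h _ (Or.inr ⟨r, hr, c, hc, Or.inl rfl⟩)),
        oH_eq (h _ (Or.inl ⟨_, mem_lBox.2 ⟨r, hr, c, hc, rfl⟩, rfl⟩))⟩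
  · obtain ⟨u, rfl⟩ := Nat.exists_eq_add_of_le b1
    exact oU_eq (h _ (Or.inr ⟨r, hr, c, hc, Or.inr ⟨u, by omega, Or.inr (Or.inr rfl)⟩⟩))

theorem ag_of_qU {sd : ℕ → ℕ} {t T : ℕ} {e : Cell} {τ : ℕ} (h1 : ¬ T ≤ P.m)
    (h : ∀ k ∈ qU P sd t T e τ 0 o, o k = o' k) : Ag1 P (oD o t) (oD o' t) e :=
  (ag_of_qR fun k hk => h k (by
    simp only [qU, if_true, if_neg h1]
    exact List.mem_cons_of_mem _ (List.mem_cons_of_mem _ hk))).1

theorem qU_congr {sd : ℕ → ℕ} {t T : ℕ} {e : Cell} {τ ph : ℕ}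
    (h : ∀ ph' < ph, ∀ k ∈ qU P sd t T e τ ph' o, o k = o' k) :
    qU P sd t T e τ ph o = qU P sd t T e τ ph o' := by
  by_cases h2 : ph = 0
  · simp only [qU, if_pos h2]
  by_cases h1 : T ≤ P.m
  · simp only [qU, if_pos h1]
  have a0 := ag_of_qU h1 (h 0 (by omega))
  simp only [qU, if_neg h1, if_neg h2, ← adm_congr a0.1 a0.2]
  split_ifs with ha h3
  · have hj := (adm_iff.1 ha).1
    rw [lBox_congr a0 hj]
    refine congrArg _ (List.flatMap_congr fun r hr => ?_)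
    rw [ta_congr a0.1 (a0.2 hj) (List.mem_range.1 hr),
      tube_congr a0.1 (a0.2 hj) (List.mem_range.1 hr)]
  · have hj := (adm_iff.1 ha).1
    rw [← lanePath_congr h1 ha a0 (h 1 (by omega))]
    refine List.map_congr_left fun r hr => ?_
    rw [ta_congr a0.1 (a0.2 hj) (List.mem_range.1 hr), tc_congr a0 hj (List.mem_range.1 hr)]
  · rfl

theorem ubody_congr {sd : ℕ → ℕ} {t T : ℕ} {e : Cell} {τ : ℕ}
    (h : ∀ ph < 3, ∀ k ∈ qU P sd t T e τ ph o, o k = o' k) :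
    ubody P sd T (oD o t) (oD o) (oH o) (oU o) e τ =
      ubody P sd T (oD o' t) (oD o') (oH o') (oU o') e τ := by
  have b1 : oD o T e = oD o' T e := by
    unfold oD
    rw [h 0 (by omega) _ (by simp only [qU, if_true]; exact List.mem_cons_self)]
  have b2 : oH o T (box P e τ) τ = oH o' T (box P e τ) τ := by
    unfold oH
    rw [h 0 (by omega) _ (by
      simp only [qU, if_true]; exact List.mem_cons_of_mem _ List.mem_cons_self)]
  by_cases h1 : T ≤ P.m
  · simp only [ubody, if_pos h1, hint, b1, b2]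
  have a0 := ag_of_qU h1 (h 0 (by omega))
  simp only [ubody, if_neg h1, hint, b1, b2, ← adm_congr a0.1 a0.2, ← a0.1]
  split_ifs with ha
  · have hj := (adm_iff.1 ha).1
    have b3 : lane P sd T (oD o t) (oD o) (oH o) (oU o) e =
        lane P sd T (oD o' t) (oD o') (oH o') (oU o') e := by
      unfold lane pcost
      rw [← lanePath_congr h1 ha a0 (h 1 (by omega))]
      refine congrArg List.sum (List.map_congr_left fun r hr => ?_)
      have hr' := List.mem_range.1 hr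
      have hB := lc_B_pos P
      unfold ecost
      rw [← tc_congr a0 hj (r := r - 1) (by omega)]
      by_cases h4 : r < P.B
      · rw [if_pos h4, if_pos h4, ← tc_congr a0 hj h4, ← ta_congr a0.1 (a0.2 hj) h4,
          oU_eq (h 2 (by omega) _ (by
            simp only [qU, if_neg two_ne_zero, if_neg h1, if_pos ha, if_neg (by omega : ¬ 2 = 1)]
            exact List.mem_map.2 ⟨r, List.mem_range.2 h4, rfl⟩))]
      · rw [if_neg h4, if_neg h4]
    rw [b3]
  · rfl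

theorem zh_congr {A A' : ℕ → List ℕ} {a s : ℕ}
    (h : ∀ r ∈ cands P a s, A (r / wid P a) = A' (r / wid P a)) : zh P A a s = zh P A' a s := by
  unfold zh
  congr 1
  exact List.map_congr_left fun r hr => by rw [fa, fa, h r hr]

theorem abody_congr {sd : ℕ → ℕ} {j i a b : ℕ} (h : ∀ k ∈ qA P sd j i a b, o k = o' k) :
    abody P sd (oc o) (oA o) j i a b = abody P sd (oc o') (oA o') j i a b := by
  unfold abody
  refine List.map_congr_left fun t ht => ?_
  unfold qA at h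
  split_ifs at h ⊢ with hj
  · unfold oc
    rw [h _ (List.mem_map.2 ⟨t, ht, rfl⟩)]
  · simp only [List.mem_dedup, List.mem_flatMap, List.mem_ite_nil_right, List.mem_map] at h
    rw [strat_congr (sd' := sd) (fun _ _ => rfl) fun u hu l hl hul => ?_]
    rw [zh_congr fun r hr => ?_]
    exact h _ ⟨u, List.mem_range.2 hu, l, List.mem_range.2 hl, hul, t, ht, r, hr, rfl⟩

theorem d0body_congr {e : Cell} (h : ∀ k ∈ qD0 P e, o k = o' k) :
    d0body P (oc o) (oA o) e = d0body P (oc o') (oA o') e := by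
  unfold d0body
  unfold qD0 at h
  split_ifs at h ⊢ with hj
  · unfold leafc oc
    rw [h _ (List.mem_singleton.2 rfl)]
  · simp only [List.mem_flatMap, List.mem_map] at h
    rw [List.filter_congr fun u hu => ?_]
    rw [zh_congr fun r hr => ?_]
    exact h _ ⟨u, hu, r, hr, rfl⟩

theorem dstep_congr {T : ℕ} {e : Cell} (h : ∀ k ∈ qD P T e, o k = o' k) :
    dstep P (oU o T) e = dstep P (oU o' T) e := by
  have h1 : ∀ c ∈ sibs P e ++ allKids P e, ubest P (oU o T) c = ubest P (oU o' T) c := by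
    intro c hc
    unfold ubest
    congr 1
    refine List.map_congr_left fun τ hτ => ?_
    unfold oU
    rw [h _ (List.mem_flatMap.2 ⟨c, hc, List.mem_map.2 ⟨τ, hτ, rfl⟩⟩)]
  unfold dstep
  rw [List.map_congr_left fun c hc => by rw [h1 c (List.mem_append_left _ hc)]]
  split_ifs with hj
  · rfl
  · rw [phi_congr fun r hr c hc =>
      h1 c (List.mem_append_right _ (mem_allKids.2 ⟨hj, r, hr, hc⟩))]

end congr

theorem machF_wf (a : Par × (ℕ → ℕ)) : machF.Wf a := by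
  obtain ⟨P, S⟩ := a
  refine ⟨fun ph k o _ k' hk' => rank_lt hk', fun ph k o o' _ h => ?_, fun k b o o' h => ?_⟩
  · change qsF P S ph k o = qsF P S ph k o'
    change ∀ ph' < ph, ∀ k' ∈ qsF P S ph' k o, o k' = o' k' at h
    unfold qsF at h ⊢
    by_cases h3 : k.tag = 3
    · simp only [h3, if_true, OfNat.ofNat_ne_zero, OfNat.ofNat_ne_one, if_false,
        if_neg (by omega : ¬ 3 = 2)] at h ⊢
      exact qH_congr h
    by_cases h4 : k.tag = 4
    · simp only [h4, if_true, OfNat.ofNat_ne_zero, OfNat.ofNat_ne_one, if_false,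
        if_neg (by omega : ¬ 4 = 2), if_neg (by omega : ¬ 4 = 3)] at h ⊢
      exact qU_congr h
    simp only [if_neg h3, if_neg h4]
  · change bodyF P S k b o = bodyF P S k b o'
    change ∀ ph < 3, ∀ k' ∈ qsF P S ph k o, o k' = o' k' at h
    unfold qsF at h
    unfold bodyF
    split_ifs with h0 h1 h2 h2' h3 h4
    · rfl
    · exact abody_congr fun k' hk' => h 0 (by omega) k' (by
        rw [if_neg h0, if_pos h1, if_pos rfl]; exact hk')
    · rw [d0body_congr fun k' hk' => h 0 (by omega) k' (by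
        rw [if_neg h0, if_neg h1, if_pos h2, if_pos rfl, if_pos h2']; exact hk')]
    · rw [dstep_congr fun k' hk' => h 0 (by omega) k' (by
        rw [if_neg h0, if_neg h1, if_pos h2, if_pos rfl, if_neg h2']; exact hk')]
    · rw [hbody_congr fun ph hph k' hk' => h ph hph k' (by
        rw [if_neg h0, if_neg h1, if_neg h2, if_pos h3]; exact hk')]
    · rw [ubody_congr fun ph hph k' hk' => h ph hph k' (by
        rw [if_neg h0, if_neg h1, if_neg h2, if_neg h3, if_pos h4]; exact hk')]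
    · unfold outv
      rw [List.map_congr_left fun ka hka => ?_]
      unfold oD
      rw [h 0 (by omega) _ (by
        rw [if_neg h0, if_neg h1, if_neg h2, if_neg h3, if_neg h4, if_pos rfl]
        exact List.mem_map.2 ⟨ka, hka, rfl⟩)]

theorem mach_wf (a : Par × List ℕ) : mach.Wf a :=
  ⟨(machF_wf (a.1, sds a.2)).rank_lt, (machF_wf (a.1, sds a.2)).loc_qs,
    (machF_wf (a.1, sds a.2)).loc_body⟩

theorem mach_val (P : Par) (L : List ℕ) (bit : ℕ → ℕ) :
    mach.val (P, L) bit = machF.val (P, sds L) bit := by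
  funext k
  induction hn : rankF P k using Nat.strong_induction_on generalizing k with
  | _ n ih =>
    rw [mach.val_eq (mach_wf _), machF.val_eq (machF_wf _)]
    exact (mach_wf (P, L)).loc_body k _ _ _ fun ph _ k' hk' => ih _ (hn ▸ rank_lt hk') k' rfl

theorem val_F (P : Par) (S : ℕ → ℕ) (bit : ℕ → ℕ) (k : Key) : machF.val (P, S) bit k =
    bodyF P S k (bit (extF P k)) (machF.val (P, S) bit) :=
  machF.val_eq (machF_wf _) bit k

theorem oc_val (P : Par) (S : ℕ → ℕ) (bit : ℕ → ℕ) : oc (machF.val (P, S) bit) = cOf P bit := by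
  funext i p
  unfold oc
  rw [val_F]
  rfl

/-- The solution given by the values of the scheme. -/
noncomputable def sysOf (P : Par) (S : ℕ → ℕ) (bit : ℕ → ℕ) : Sys P S (cOf P bit) where
  A := oA (machF.val (P, S) bit)
  D := oD (machF.val (P, S) bit)
  H := oH (machF.val (P, S) bit)
  U := oU (machF.val (P, S) bit)
  eqA := fun j i a b => by
    rw [← oc_val P S bit]
    exact val_F P S bit (kA j i a b)
  eqD0 := fun e => by
    rw [← oc_val P S bit]
    exact congrArg (fun l : List ℕ => l.headD 0) (val_F P S bit (kD 0 e))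
  eqD := fun T e => congrArg (fun l : List ℕ => l.headD 0) (val_F P S bit (kD (T + 1) e))
  eqH := fun T e τ => congrArg (fun l : List ℕ => l.headD 0) (val_F P S bit (kH T e τ))
  eqU := fun T e τ => congrArg (fun l : List ℕ => l.headD 0) (val_F P S bit (kU T e τ))

theorem val_depA (P : Par) (bit : ℕ → ℕ) {S S' : ℕ → ℕ} {j : ℕ}
    (h : ∀ j' ≤ j, blk P S (bA j') = blk P S' (bA j')) (k : Key)
    (hk : k.tag = 0 ∨ (k.tag = 1 ∧ k.c.j ≤ j)) :
    machF.val (P, S) bit k = machF.val (P, S') bit k := by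
  refine machF.val_dep (machF_wf (P, S)) (machF_wf (P, S')) bit (fun k => k.tag = 0 ∨ (k.tag = 1 ∧ k.c.j ≤ j))
    (fun k hk ph _ o k' hk' => ?_) (fun _ _ => rfl) (fun k hk b o => ?_) k hk
  · have := qs_shape (P := P) (S := S) hk'
    omega
  · change bodyF P S k b o = bodyF P S' k b o
    unfold bodyF
    rcases hk with h0 | ⟨h1, h2⟩
    · rw [if_pos h0, if_pos h0]
    · rw [if_neg (by omega), if_pos h1, if_neg (by omega), if_pos h1, h _ h2]

theorem val_depM (P : Par) (bit : ℕ → ℕ) {S S' : ℕ → ℕ} {β j : ℕ}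
    (hA : ∀ j', blk P S (bA j') = blk P S' (bA j'))
    (hR : ∀ β' ≤ β, blk P S (bR β') = blk P S' (bR β'))
    (hM : ∀ β' ≤ β, ∀ j' ≤ j, blk P S (bM β' j') = blk P S' (bM β' j')) (k : Key)
    (hk : k.tag = 0 ∨ k.tag = 1 ∨ (k.tag = 2 ∧ k.c.j ≤ j ∧ P.ep (k.T - 1) ≤ β) ∨
      ((k.tag = 3 ∨ k.tag = 4) ∧ k.c.j ≤ j ∧ P.ep k.T ≤ β)) :
    machF.val (P, S) bit k = machF.val (P, S') bit k := by
  refine machF.val_dep (machF_wf (P, S)) (machF_wf (P, S')) bit (fun k => k.tag = 0 ∨ k.tag = 1 ∨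
      (k.tag = 2 ∧ k.c.j ≤ j ∧ P.ep (k.T - 1) ≤ β) ∨
      ((k.tag = 3 ∨ k.tag = 4) ∧ k.c.j ≤ j ∧ P.ep k.T ≤ β))
    (fun k hk ph _ o k' hk' => ?_) (fun _ _ => rfl) (fun k hk b o => ?_) k hk
  · have h1 := qs_shape (P := P) (S := S) hk'
    have h2 : k'.T ≤ k.T → P.ep k'.T ≤ P.ep k.T := lc_ep_mono
    have h3 : P.ep (k'.T - 1) ≤ P.ep k'.T := lc_ep_mono (Nat.sub_le _ _)
    have h4 : k'.T = k.T - 1 → P.ep k'.T = P.ep (k.T - 1) := fun e => by rw [e]
    omega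
  · change bodyF P S k b o = bodyF P S' k b o
    unfold bodyF
    split_ifs with h0 h1 h2 h2' h3 h4
    · rfl
    · rw [hA]
    · rfl
    · rfl
    · unfold ref
      rw [hR _ (by omega), hM _ (by omega) _ (by omega)]
    · unfold ref
      rw [hR _ (by omega), hM _ (by omega) _ (by omega)]
    · rfl

/-- The family of solutions. -/
noncomputable def famOf (P : Par) (bit : ℕ → ℕ) : Fam P (cOf P bit) where
  sys := fun S => sysOf P S bit
  depA := fun S S' j h j' hj => by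
    funext i a b
    exact val_depA P bit h (kA j' i a b) (Or.inr ⟨rfl, hj⟩)
  depM := fun S S' β j hA hR hM T hT e he => by
    refine ⟨?_, ?_, funext fun τ => ?_, funext fun τ => ?_⟩
    · exact congrArg (fun l : List ℕ => l.headD 0) (val_depM P bit hA hR hM (kD T e)
        (Or.inr (Or.inr (Or.inl ⟨rfl, he, (lc_ep_mono (Nat.sub_le _ _)).trans hT⟩))))
    · exact congrArg (fun l : List ℕ => l.headD 0) (val_depM P bit hA hR hM (kD (T + 1) e)
        (Or.inr (Or.inr (Or.inl ⟨rfl, he, hT⟩))))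
    · exact congrArg (fun l : List ℕ => l.headD 0) (val_depM P bit hA hR hM (kH T e τ)
        (Or.inr (Or.inr (Or.inr ⟨Or.inl rfl, he, hT⟩))))
    · exact congrArg (fun l : List ℕ => l.headD 0) (val_depM P bit hA hR hM (kU T e τ)
        (Or.inr (Or.inr (Or.inr ⟨Or.inr rfl, he, hT⟩))))

theorem val_kO (P : Par) (L : List ℕ) (bit : ℕ → ℕ) :
    (mach.val (P, L) bit kO).headD 0 = outv P ((sysOf P (sds L) bit).D P.Tend) := by
  rw [mach_val, val_F]
  rfl

theorem cOf_bitOf {P : Par} {x y : List ℕ} (hx : P.lx = x.length) (hy : P.ly = y.length) :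
    cOf P (bitOf x y (P.ly + 1)) = cbit x y P.lx := by
  funext i p
  unfold cOf bitBody cbit
  rw [← hx, ← hy]
  split_ifs with h1 h2 h3
  · rfl
  all_goals first
    | rfl
    | have e : extB P i p = (p + (i - 1) - P.lx) + (P.ly + 1) * (i - 1) := by
        unfold extB
        rw [if_pos ⟨by omega, by omega, h2.1, h2.2⟩, add_comm, mul_comm]
      unfold bitOf
      rw [e, Nat.add_mul_div_left _ _ (Nat.succ_pos _), Nat.add_mul_mod_self_left,
        Nat.div_eq_of_lt (by omega), Nat.mod_eq_of_lt (by omega), zero_add]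
      simp only [h3, if_true, if_false]

theorem sds_ofFn {N e : ℕ} (u : Fin N → Fin e) : sds (List.ofFn fun i => (u i : ℕ)) = bv u := by
  funext i
  unfold sds bv
  split_ifs with h
  · rw [List.getD_eq_getElem _ _ (by simpa using h)]
    simp
  · rw [List.getD_eq_default _ _ (by simpa using h)]

end Vale.Agent.P315Z
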