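import Vale.Agent.P315.Lev

/-! P315Z: the linear lower bound. A run that does not read position `i` of the second string
gives the same output when this symbol is changed. -/

set_option autoImplicit false

namespace Vale.Agent.P315Z.Lower

open Vale.Agent.P315 Finset

/-- The states agree except possibly in entry `i` of array `1`. -/
def Near (i : ℕ) (s s' : State) : Prop :=
  s.reg = s'.reg ∧ s.coins = s'.coins ∧ ∀ j a, a ≠ i → s.arr j a = s'.arr j a

theorem Near.setReg {i : ℕ} {s s' : State} (h : Near i s s') (r v : ℕ) :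
    Near i (s.setReg r v) (s'.setReg r v) :=
  ⟨by simp only [State.setReg, h.1], h.2.1, h.2.2⟩

theorem Near.setArr {i : ℕ} {s s' : State} (h : Near i s s') (j a v : ℕ) :
    Near i (s.setArr j a v) (s'.setArr j a v) := by
  refine ⟨h.1, h.2.1, fun j' a' ha => ?_⟩
  simp only [State.setArr]
  by_cases hj : j' = j
  · subst hj
    simp only [Function.update_self]
    by_cases e : a' = a
    · subst e; simp
    · simp [Function.update_of_ne e, h.2.2 _ _ ha]
  · simp [Function.update_of_ne hj, h.2.2 _ _ ha]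

theorem eval_loc {N : ℕ} {s : State} {e : Expr} {v t : ℕ} (h : Eval N s e v t) :
    ∃ R : Finset ℕ, R.card ≤ t ∧
      ∀ i ∉ R, ∀ s' v' t', Near i s s' → Eval N s' e v' t' → v = v' := by
  induction h with
  | lit c h => exact ⟨∅, by simp, fun i _ s' v' t' _ h' => by cases h'; rfl⟩
  | reg r h => exact ⟨∅, by simp, fun i _ s' v' t' hn h' => by cases h'; rw [hn.1]⟩
  | get j e a t he h ih =>
    obtain ⟨R, hR, H⟩ := ih
    refine ⟨insert a R, (card_insert_le _ _).trans (by omega), fun i hi s' v' t' hn h' => ?_⟩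
    rw [mem_insert, not_or] at hi
    cases h' with
    | get _ _ a' t'' he' _ =>
      obtain rfl := H i hi.2 s' _ _ hn he'
      exact hn.2.2 _ _ (Ne.symm hi.1)
  | op o e e' a a' t t' he he' h ih ih' =>
    obtain ⟨R, hR, H⟩ := ih
    obtain ⟨R', hR', H'⟩ := ih'
    refine ⟨R ∪ R', (card_union_le _ _).trans (by omega), fun i hi s' v' t' hn h' => ?_⟩
    rw [mem_union, not_or] at hi
    cases h' with
    | op _ _ _ b b' _ _ hb hb' _ =>
      rw [H i hi.1 s' _ _ hn hb, H' i hi.2 s' _ _ hn hb']

theorem exec_loc {N : ℕ} {ρ : ℕ → ℕ} {p : Prog} {s u : State} {t : ℕ} (h : Exec N ρ p s t u) :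
    ∃ R : Finset ℕ, R.card ≤ t ∧
      ∀ i ∉ R, ∀ s' t' u', Near i s s' → Exec N ρ p s' t' u' → Near i u u' := by
  induction h with
  | set r e s v t he =>
    obtain ⟨R, hR, H⟩ := eval_loc he
    refine ⟨R, by omega, fun i hi s' t' u' hn h' => ?_⟩
    cases h' with
    | set _ _ _ v' _ he' =>
      obtain rfl := H i hi s' _ _ hn he'
      exact hn.setReg _ _
  | put j e e' s a v t t' he he' =>
    obtain ⟨R, hR, H⟩ := eval_loc he
    obtain ⟨R', hR', H'⟩ := eval_loc he'
    refine ⟨R ∪ R', (card_union_le _ _).trans (by omega), fun i hi s' t' u' hn h' => ?_⟩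
    rw [mem_union, not_or] at hi
    cases h' with
    | put _ _ _ _ b w _ _ hb hw =>
      obtain rfl := H i hi.1 s' _ _ hn hb
      obtain rfl := H' i hi.2 s' _ _ hn hw
      exact hn.setArr _ _ _
  | rand r s h =>
    refine ⟨∅, by simp, fun i _ s' t' u' hn h' => ?_⟩
    cases h' with
    | rand _ _ _ =>
      exact ⟨by simp only [State.setReg, hn.1, hn.2.1], by simp only [hn.2.1], hn.2.2⟩
  | seq p q s s1 s2 t t' h h' ih ih' =>
    obtain ⟨R, hR, H⟩ := ih
    obtain ⟨R', hR', H'⟩ := ih'
    refine ⟨R ∪ R', (card_union_le _ _).trans (by omega), fun i hi s' t' u' hn g => ?_⟩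
    rw [mem_union, not_or] at hi
    cases g with
    | seq _ _ _ s1' _ _ _ g g' => exact H' i hi.2 _ _ _ (H i hi.1 _ _ _ hn g) g'
  | iteTrue e p q s s1 v t t' he hv h ih =>
    obtain ⟨R, hR, H⟩ := eval_loc he
    obtain ⟨R', hR', H'⟩ := ih
    refine ⟨R ∪ R', (card_union_le _ _).trans (by omega), fun i hi s' t' u' hn g => ?_⟩
    rw [mem_union, not_or] at hi
    cases g with
    | iteTrue _ _ _ _ _ _ _ _ _ _ g => exact H' i hi.2 _ _ _ hn g
    | iteFalse _ _ _ _ _ _ _ ge _ => exact absurd (H i hi.1 _ _ _ hn ge) hv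
  | iteFalse e p q s s1 t t' he h ih =>
    obtain ⟨R, hR, H⟩ := eval_loc he
    obtain ⟨R', hR', H'⟩ := ih
    refine ⟨R ∪ R', (card_union_le _ _).trans (by omega), fun i hi s' t' u' hn g => ?_⟩
    rw [mem_union, not_or] at hi
    cases g with
    | iteTrue _ _ _ _ _ _ _ _ ge gv _ => exact absurd (H i hi.1 _ _ _ hn ge).symm gv
    | iteFalse _ _ _ _ _ _ _ _ g => exact H' i hi.2 _ _ _ hn g
  | loop r e p n t σ τ he h ih =>
    obtain ⟨R, hR, H⟩ := eval_loc he
    choose! f hf hF using ih
    refine ⟨R ∪ (range n).biUnion f, (card_union_le _ _).trans ?_, fun i hi s' t' u' hn g => ?_⟩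
    · have h1 : ((range n).biUnion f).card ≤ ∑ k ∈ range n, (τ k + 2) :=
        card_biUnion_le.trans (sum_le_sum fun k hk => by have := hf k (mem_range.1 hk); omega)
      omega
    · rw [mem_union, not_or] at hi
      cases g with
      | loop _ _ _ n' _ σ' τ' ge g =>
        obtain rfl := H i hi.1 _ _ _ hn ge
        have key : ∀ m ≤ n, Near i (σ m) (σ' m) := by
          intro m
          induction m with
          | zero => exact fun _ => hn
          | succ m ihm =>
            intro hm
            refine hF m hm i (fun hc => hi.2 (mem_biUnion.2 ⟨m, mem_range.2 hm, hc⟩)) _ _ _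
              ((ihm (by omega)).setReg _ _) (g m hm)
        exact key n le_rfl

theorem eq_of_ED {x y : List ℕ} (h : ED x y = 0) : x = y := by
  have h1 := (script_lev x y).edits
  rw [← ED_eq_lev, h] at h1
  generalize e : (0 : ℕ) = k at h1
  cases h1 with
  | refl => rfl
  | step => omega

/-- The string of `n` zeros with a one in position `i`. -/
def unit (n i : ℕ) : List ℕ := (List.replicate n 0).set i 1

theorem near_init (n i : ℕ) :
    Near i (State.init (List.replicate n 0) (List.replicate n 0))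
      (State.init (List.replicate n 0) (unit n i)) := by
  refine ⟨?_, rfl, fun j a ha => ?_⟩
  · simp [State.init, unit]
  · simp only [State.init, unit, List.getD_eq_getElem?_getD]
    rw [List.getElem?_set_ne (Ne.symm ha)]

theorem unit_ne {n i : ℕ} (h : i < n) : List.replicate n 0 ≠ unit n i := by
  intro e
  have := congrArg (fun l : List ℕ => l[i]?) e
  simp [unit, h] at this

/-- The linear lower bound. -/
theorem lower (α : ℝ) (P : Prog) (n b T : ℕ)
    (h : ∀ x y : List ℕ, x.length = n → y.length = n → (∀ a ∈ x ++ y, a < 2) →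
      2 * Nat.card (Fin T → Fin (2 ^ b)) ≤
        3 * Nat.card {ρ : Fin T → Fin (2 ^ b) // ∃ (t : ℕ) (s : State),
          Exec (2 ^ b) (tape ρ) P (State.init x y) t s ∧ t ≤ T ∧
            (ED x y ≤ s.reg 2 ∧ ((s.reg 2 : ℕ) : ℝ) ≤ α * ED x y)}) : n ≤ 3 * T := by
  classical
  set z := List.replicate n 0 with hz
  let G : List ℕ → Finset (Fin T → Fin (2 ^ b)) := fun y => univ.filter fun ρ =>
    ∃ (t : ℕ) (s : State), Exec (2 ^ b) (tape ρ) P (State.init z y) t s ∧ t ≤ T ∧
      (ED z y ≤ s.reg 2 ∧ ((s.reg 2 : ℕ) : ℝ) ≤ α * ED z y)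
  set M := Fintype.card (Fin T → Fin (2 ^ b)) with hM
  have hG : ∀ y : List ℕ, y.length = n → (∀ a ∈ y, a < 2) → 2 * M ≤ 3 * (G y).card := by
    intro y hy hy'
    have := h z y (by simp [hz]) hy (fun a ha => by
      rcases List.mem_append.1 ha with ha | ha
      · rw [List.eq_of_mem_replicate ha]; omega
      · exact hy' a ha)
    rwa [Nat.card_eq_fintype_card, Nat.card_eq_fintype_card, Fintype.card_subtype] at this
  have h0 := hG z (by simp [hz]) (fun a ha => by rw [List.eq_of_mem_replicate ha]; omega)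
  have h1 : ∀ i ∈ range n, M ≤ 3 * ((G z).filter fun ρ => ρ ∈ G (unit n i)).card := by
    intro i _
    have h2 := hG (unit n i) (by simp [unit]) (fun a ha => by
      rcases List.mem_or_eq_of_mem_set ha with ha | ha
      · rw [List.eq_of_mem_replicate ha]; omega
      · omega)
    have h3 := card_union_add_card_inter (G z) (G (unit n i))
    have h4 : (G z ∪ G (unit n i)).card ≤ M := card_le_univ _
    rw [filter_mem_eq_inter]
    omega
  have h2 : ∀ ρ ∈ G z, ((range n).filter fun i => ρ ∈ G (unit n i)).card ≤ T := by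
    intro ρ hρ
    obtain ⟨t, s, he, ht, -, hs⟩ := (mem_filter.1 hρ).2
    obtain ⟨R, hR, H⟩ := exec_loc he
    refine (card_le_card fun i hi => ?_).trans (hR.trans ht)
    by_contra hc
    obtain ⟨hi, hi'⟩ := mem_filter.1 hi
    obtain ⟨t', s', he', -, hs', -⟩ := (mem_filter.1 hi').2
    have e := (H i hc _ _ _ (near_init n i) he').1
    have e0 : ED z z = 0 := by rw [ED_eq_lev, lev_self]
    have e1 : s.reg 2 = 0 := by
      rw [e0, Nat.cast_zero, mul_zero] at hs
      exact_mod_cast le_antisymm hs (Nat.cast_nonneg _)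
    exact unit_ne (mem_range.1 hi) (eq_of_ED (by rw [← e, e1] at hs'; exact Nat.le_zero.1 hs'))
  have h3 : ∑ i ∈ range n, ((G z).filter fun ρ => ρ ∈ G (unit n i)).card =
      ∑ ρ ∈ G z, ((range n).filter fun i => ρ ∈ G (unit n i)).card := by
    simp only [card_filter]
    exact sum_comm
  have h4 : n * M ≤ 3 * ((G z).card * T) := by
    calc n * M = ∑ _i ∈ range n, M := by simp
      _ ≤ ∑ i ∈ range n, 3 * ((G z).filter fun ρ => ρ ∈ G (unit n i)).card := sum_le_sum h1
      _ = 3 * ∑ ρ ∈ G z, ((range n).filter fun i => ρ ∈ G (unit n i)).card := by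
        rw [← mul_sum, h3]
      _ ≤ 3 * ((G z).card * T) := by
        have := sum_le_sum h2
        rw [sum_const, smul_eq_mul] at this
        omega
  have h5 : (G z).card ≤ M := card_le_univ _
  have h6 : 0 < M := Fintype.card_pos_iff.2 ⟨fun _ => ⟨0, Nat.two_pow_pos b⟩⟩
  have h7 : n * M ≤ 3 * T * M := by nlinarith [Nat.mul_le_mul_right T h5]
  exact Nat.le_of_mul_le_mul_right h7 h6

end Vale.Agent.P315Z.Lower
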