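import Vale.Agent.P315Z.Pred
import Vale.Agent.P315Z.Lift
import Vale.Agent.P315Z.Lane
import Vale.Agent.P315Z.Ako2

/-! P315Z: the inequalities for one node and one epoch. -/

set_option autoImplicit false

namespace Vale.Agent.P315Z

open Finset Vale.Agent.P315.H731

variable {P : Par} {c : ℕ → ℕ → ℕ} {z : ℕ → ℕ} {d : ℕ}

theorem Sys.refOk {S : ℕ → ℕ} (X : Sys P S c) (hP : P.Ok) (h : PathOk P c z d)
    (hA : AkoOk P c X.A) (t : ℕ) : RefOk P c z (X.D t) (X.D (t + 1)) := by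
  refine ⟨fun e he => X.dist_le_D h.c1 t he,
    fun j i hn => X.dist_le_D h.c1 (t + 1) (cs_dom h hn), fun j i hn => ?_, fun i hn => ?_,
    fun j i hn => X.D_anti (cs_mem_sibs hn) (Nat.le_succ t),
    fun j i hn hj => X.D_succ_le_phiD t hj⟩
  · refine (X.D_anti (cs_mem_sibs hn) (Nat.zero_le t)).trans ?_
    rw [X.eqD0]
    exact d0_cs hP h hA hn
  · refine (X.D_anti (cs_mem_sibs hn) (Nat.zero_le t)).trans ?_
    rw [X.eqD0]
    unfold d0body
    rw [if_pos (show (cs P c z 0 i).j = 0 from rfl)]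
    exact leafc_cs h.c1 i

/-- The delay bound, for any node; `σ r` are dresses of the children. -/
theorem Sys.node_delay {S : ℕ → ℕ} (X : Sys P S c) (h : PathOk P c z d) {j i : ℕ}
    (hn : Node P j i) (hj : j ≠ 0) {t T0 : ℕ} (ht : t + 1 ≤ T0) (n τ : ℕ) (σ : ℕ → ℕ)
    (hσ : ∀ r < P.B, σ r ≤ (cs P c z (j - 1) (i * P.B + r)).ka + P.h2) :
    ∑ u ∈ range n, (X.U (T0 + u) (cs P c z j i) τ : ℝ) ≤
      ∑ u ∈ range n, ∑ r ∈ range P.B, (X.U (T0 + u) (cs P c z (j - 1) (i * P.B + r)) (σ r) : ℝ) +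
      n * (jj P c z j i : ℝ) +
      ((X.D (t + 1) (cs P c z j i) : ℝ) - Nat.dist (cs P c z j i).p (cs P c z j i).q) := by
  have h1 : ∀ T, (X.D (T + 1) (cs P c z j i) : ℝ) ≤
      ∑ r ∈ range P.B, (X.U T (cs P c z (j - 1) (i * P.B + r)) (σ r) : ℝ) + jj P c z j i := by
    intro T
    have h2 := (X.D_succ_le_phi T (e := cs P c z j i) hj).trans (phi_le_cs hn hj _)
    have h3 : ∑ r ∈ range P.B, ubest P (X.U T) (cs P c z (j - 1) (i * P.B + r)) ≤
        ∑ r ∈ range P.B, X.U T (cs P c z (j - 1) (i * P.B + r)) (σ r) :=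
      sum_le_sum fun r hr => ubest_le _ (hσ r (mem_range.1 hr))
    exact_mod_cast h2.trans (Nat.add_le_add_right h3 _)
  have h2 : ∑ u ∈ range n, (X.U (T0 + u) (cs P c z j i) τ : ℝ) ≤
      ∑ u ∈ range n, (X.D (T0 + u) (cs P c z j i) : ℝ) :=
    sum_le_sum fun u _ => by exact_mod_cast X.U_le_D _ _ _
  have h3 : ∑ u ∈ range n, (X.D (T0 + u) (cs P c z j i) : ℝ) + X.D (T0 + n) (cs P c z j i) =
      ∑ u ∈ range n, (X.D (T0 + u + 1) (cs P c z j i) : ℝ) + X.D T0 (cs P c z j i) := by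
    rw [← sum_range_succ (fun u => (X.D (T0 + u) (cs P c z j i) : ℝ)), sum_range_succ']
    rfl
  have h4 : ∑ u ∈ range n, (X.D (T0 + u + 1) (cs P c z j i) : ℝ) ≤
      ∑ u ∈ range n, (∑ r ∈ range P.B,
        (X.U (T0 + u) (cs P c z (j - 1) (i * P.B + r)) (σ r) : ℝ) + jj P c z j i) :=
    sum_le_sum fun u _ => h1 _
  rw [sum_add_distrib, sum_const, card_range, nsmul_eq_mul] at h4
  have h5 : (X.D T0 (cs P c z j i) : ℝ) ≤ X.D (t + 1) (cs P c z j i) := by
    exact_mod_cast X.D_anti (cs_mem_sibs hn) ht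
  have h6 : (Nat.dist (cs P c z j i).p (cs P c z j i).q : ℝ) ≤ X.D (T0 + n) (cs P c z j i) := by
    exact_mod_cast X.dist_le_D h.c1 _ (cs_dom h hn)
  linarith

theorem node_bM_ne {β j β' j' : ℕ} (h : β' ≠ β ∨ j' ≠ j) : bM β' j' ≠ bM β j := by
  unfold bM
  intro h1
  have h2 : Nat.pair β' j' = Nat.pair β j := by omega
  rw [Nat.pair_eq_pair] at h2
  rcases h with h | h
  · exact h h2.1
  · exact h h2.2

theorem node_bA_ne (j' β j : ℕ) : bA j' ≠ bM β j := by
  unfold bA bM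
  omega

theorem node_bR_ne (β' β j : ℕ) : bR β' ≠ bM β j := by
  unfold bR bM
  omega

theorem node_m_pos (P : Par) : 0 < P.m := Nat.two_pow_pos _

/-- Reference values do not depend on the blocks of the epoch. -/
theorem Fam.ref_inv (F : Fam P c) (S v : ℕ → ℕ) {β : ℕ} (hβ : 1 ≤ β) (j : ℕ) :
    ref P (setBlk P.NS S (bM β j) v) β = ref P S β ∧
    (F.sys (setBlk P.NS S (bM β j) v)).A = (F.sys S).A ∧
    (F.sys (setBlk P.NS S (bM β j) v)).D (ref P S β) = (F.sys S).D (ref P S β) ∧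
    (F.sys (setBlk P.NS S (bM β j) v)).D (ref P S β + 1) = (F.sys S).D (ref P S β + 1) := by
  have h1 : ref P (setBlk P.NS S (bM β j) v) β = ref P S β := by
    unfold ref
    rw [blk_setBlk_ne S v (node_bR_ne β β j)]
  have h2 : P.ep (ref P S β) ≤ β - 1 := by
    have h3 := (ref_bounds (P := P) S hβ).2
    have h4 := (ref_bounds (P := P) S hβ).1
    unfold Par.ep
    have h5 : (ref P S β - 1) / P.m < β := by
      rw [Nat.div_lt_iff_lt_mul (node_m_pos P)]
      omega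
    omega
  have h3 := fun e : Cell => F.depM (setBlk P.NS S (bM β j) v) S (β - 1) e.j
    (fun j' => blk_setBlk_ne S v (node_bA_ne j' β j))
    (fun β' _ => blk_setBlk_ne S v (node_bR_ne β' β j))
    (fun β' hβ' j' _ => blk_setBlk_ne S v (node_bM_ne (Or.inl (by omega))))
    (ref P S β) h2 e le_rfl
  refine ⟨h1, ?_, funext fun e => (h3 e).1, funext fun e => (h3 e).2.1⟩
  funext j'
  exact F.depA _ _ j' (fun j'' _ => blk_setBlk_ne S v (node_bA_ne j'' β j)) j' le_rfl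

/-- The values of the lower levels do not depend on the block of the level. -/
theorem Fam.low_inv (F : Fam P c) (S v : ℕ → ℕ) (β : ℕ) {j : ℕ} (hj : j ≠ 0) {T : ℕ}
    (hT : P.ep T ≤ β) {e : Cell} (he : e.j = j - 1) :
    (F.sys (setBlk P.NS S (bM β j) v)).D T e = (F.sys S).D T e ∧
    (F.sys (setBlk P.NS S (bM β j) v)).H T e = (F.sys S).H T e ∧
    (F.sys (setBlk P.NS S (bM β j) v)).U T e = (F.sys S).U T e := by
  have h3 := F.depM (setBlk P.NS S (bM β j) v) S β (j - 1)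
    (fun j' => blk_setBlk_ne S v (node_bA_ne j' β j))
    (fun β' _ => blk_setBlk_ne S v (node_bR_ne β' β j))
    (fun β' _ j' hj' => blk_setBlk_ne S v (node_bM_ne (Or.inr (by omega))))
    T hT e he.le
  exact ⟨h3.1, h3.2.2.1, h3.2.2.2⟩

theorem node_tube_j {R : Cell → ℕ} {e c' : Cell} {r : ℕ} (h : c' ∈ tube P R e r) :
    c'.j = e.j - 1 := (mem_kids.1 (mem_tube.1 h).1).1

theorem node_yv_congr (R : Cell → ℕ) {D D' : Cell → ℕ} {H H' : Cell → ℕ → ℕ} {e : Cell}
    (h : ∀ c' : Cell, c'.j = e.j - 1 → D c' = D' c' ∧ H c' = H' c') (r : ℕ) :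
    yv P R D H e r = yv P R D' H' e r := by
  unfold yv
  congr 1
  refine List.map_congr_left fun c' hc' => ?_
  have h0 := node_tube_j hc'
  have h1 := h (box P c' (ta P R e r)) h0
  rw [h1.1, h1.2]

theorem node_SFail_congr (sd : ℕ → ℕ) (R : Cell → ℕ) {D D' : Cell → ℕ} {H H' : Cell → ℕ → ℕ}
    {e : Cell} (τ : ℕ) (h : ∀ c' : Cell, c'.j = e.j - 1 → D c' = D' c' ∧ H c' = H' c') :
    SFail P sd R D H e τ ↔ SFail P sd R D' H' e τ := by
  unfold SFail
  refine exists_congr fun e' => and_congr_right fun he' => ?_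
  have h1 : e'.j = e.j := (same_of_mem_sibs (mem_fam.1 he').1).1
  have h2 : yv P R D H e' = yv P R D' H' e' :=
    funext fun r => node_yv_congr R (fun c' hc' => h c' (by rw [hc', h1])) r
  unfold est zv
  rw [h2]

theorem node_ecost_congr {R : Cell → ℕ} {e : Cell} {τ : ℕ} (ha : adm P R e τ = true)
    {f f' : Cell → ℕ → ℕ} (h : ∀ c' : Cell, c'.j = e.j - 1 → f c' = f' c') :
    ecost P R e f = ecost P R e f' := by
  funext r u v
  unfold ecost
  split_ifs with h1 h2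
  · rw [h _ (node_tube_j (tc_mem ((adm_iff.1 ha).2.2.2.2.2 r h1) v))]
  · rw [h _ (node_tube_j (tc_mem ((adm_iff.1 ha).2.2.2.2.2 r h1) v))]
  · rfl

theorem node_E_pos (P : Par) : 0 < P.E := Nat.two_pow_pos _

theorem node_NS_pos (P : Par) : 0 < P.NS := Nat.two_pow_pos _

theorem node_ep_le {β t T : ℕ} (ht : t < P.m) (hT : T ≤ β * P.m + 1 + t) : P.ep T ≤ β := by
  rw [← ep_eq P (β := β) ht]
  unfold Par.ep
  exact Nat.div_le_div_right (by omega)

theorem node_lane_eq {R : Cell → ℕ} {D D' : ℕ → Cell → ℕ} {H U H' U' : ℕ → Cell → ℕ → ℕ}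
    {e : Cell} {τ β t : ℕ} (ha : adm P R e τ = true) (hβ : 1 ≤ β) (ht : t < P.m)
    (hlow : ∀ T, P.ep T ≤ β → ∀ c' : Cell, c'.j = e.j - 1 →
      D' T c' = D T c' ∧ H' T c' = H T c' ∧ U' T c' = U T c') (sd : ℕ → ℕ) :
    lane P sd (β * P.m + 1 + t) R D' H' U' e =
      pcost (P.B + 1) (ecost P R e (U (β * P.m + 1 + t))) (fun r =>
        ((picks P (β * P.m + 1 + t) R D H U e).getD (sd 0 % 2 ^ (4 * P.l1)) []).getD r 0) := by
  have hmβ : P.m ≤ β * P.m := Nat.le_mul_of_pos_left _ hβ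
  have h1 : picks P (β * P.m + 1 + t) R D' H' U' e = picks P (β * P.m + 1 + t) R D H U e := by
    refine picks_congr ha rfl (fun _ _ _ _ => rfl) (fun T' _ hT' r _ c' hc' => ?_)
      (fun T' _ hT' r _ c' hc' => ?_) (by omega)
    · have h0 := node_tube_j hc'
      exact ⟨(hlow T' (node_ep_le ht hT') c' h0).1,
        congrFun (hlow T' (node_ep_le ht hT') (box P c' (ta P R e r)) h0).2.1 _⟩
    · exact congrFun (hlow T' (node_ep_le ht hT'.le) c' (node_tube_j hc')).2.2 _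
  have h2 : ecost P R e (U' (β * P.m + 1 + t)) = ecost P R e (U (β * P.m + 1 + t)) :=
    node_ecost_congr ha fun c' hc' => (hlow _ (node_ep_le ht le_rfl) c' hc').2.2
  unfold lane lanePath
  rw [h1, h2]

open Classical in
/-- The lifted bound after the block of the level is replaced. -/
theorem Fam.lift_blk (F : Fam P c) (hP : P.Ok) (S v : ℕ → ℕ) {β : ℕ} (hβ : 1 ≤ β) {e : Cell}
    (he : e ∈ sibs P e) {τ : ℕ} (ha : adm P ((F.sys S).D (ref P S β)) e τ = true) :
    ∑ t ∈ range P.m, ((F.sys (setBlk P.NS S (bM β e.j) v)).U (β * P.m + 1 + t) e τ : ℝ) ≤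
      ∑ t ∈ range P.m, (pcost (P.B + 1) (ecost P ((F.sys S).D (ref P S β)) e
        ((F.sys S).U (β * P.m + 1 + t))) (fun r => ((picks P (β * P.m + 1 + t)
          ((F.sys S).D (ref P S β)) (F.sys S).D (F.sys S).H (F.sys S).U e).getD
            (v 0 % 2 ^ (4 * P.l1)) []).getD r 0) : ℝ) +
      1 / (P.gd : ℝ) * (F.sys S).D (ref P S β) e +
      (F.sys S).D (ref P S β) e * ∑ t ∈ range P.m,
        (if SFail P (fun i => v (i % P.NS)) ((F.sys S).D (ref P S β))
          ((F.sys S).D (β * P.m + 1 + t)) ((F.sys S).H (β * P.m + 1 + t)) (box P e τ) τ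
          then (1 : ℝ) else 0) := by
  have hj : e.j ≠ 0 := (adm_iff.1 ha).1
  obtain ⟨i1, i2, i3, i4⟩ := F.ref_inv S v hβ e.j
  have hlow := fun (T : ℕ) (hT : P.ep T ≤ β) (c' : Cell) (hc' : c'.j = e.j - 1) =>
    F.low_inv S v β hj hT hc'
  have h2 := (F.sys (setBlk P.NS S (bM β e.j) v)).lift hP hβ he (τ := τ)
    (by rw [i1, i3]; exact ha)
  rw [i1, i3, blk_setBlk_self] at h2
  refine h2.trans (le_of_eq ?_)
  refine congrArg₂ (· + ·) (congrArg₂ (· + ·) (sum_congr rfl fun t ht => ?_) rfl)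
    (congrArg₂ (· * ·) rfl (sum_congr rfl fun t ht => ?_))
  · rw [node_lane_eq ha hβ (mem_range.1 ht) hlow, Nat.zero_mod]
  · have ht' := mem_range.1 ht
    exact if_congr (node_SFail_congr _ _ τ fun c' hc' =>
      ⟨(hlow _ (node_ep_le ht' le_rfl) c' hc').1,
        (hlow _ (node_ep_le ht' le_rfl) c' hc').2.1⟩) rfl rfl

/-- The bound for a fine node, on average over the block of its level. -/
theorem Fam.node_fine (F : Fam P c) (hP : P.Ok) (h : PathOk P c z d) (S : ℕ → ℕ)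
    (hA : AkoOk P c (F.sys S).A) {β : ℕ} (hβ : 1 ≤ β) {j i : ℕ} (hn : Node P j i)
    (hF : Fine P c z ((F.sys S).D (ref P S β)) ((F.sys S).D (ref P S β + 1)) j i) :
    av (fun u : Fin P.NS → Fin P.E => ∑ t ∈ range P.m,
      ((F.sys (setBlk P.NS S (bM β j) (bv u))).U (β * P.m + 1 + t) (cs P c z j i)
        (dress P c z ((F.sys S).D (ref P S β)) ((F.sys S).D (ref P S β + 1)) j i) : ℝ)) ≤
      ∑ t ∈ range P.m, ∑ r ∈ range P.B,
        ((F.sys S).U (β * P.m + 1 + t) (cs P c z (j - 1) (i * P.B + r))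
          (dress P c z ((F.sys S).D (ref P S β)) ((F.sys S).D (ref P S β + 1)) (j - 1)
            (i * P.B + r)) : ℝ) +
      P.m * (jj P c z j i : ℝ) + 5 / (P.gd : ℝ) * (F.sys S).D (ref P S β) (cs P c z j i) := by
  classical
  have : Nonempty (Fin P.E) := ⟨⟨0, node_E_pos P⟩⟩
  have hj : j ≠ 0 := hF.1.j0
  have hR := (F.sys S).refOk hP h hA (ref P S β)
  have ha := fine_adm hP h hR hn hF
  set X := F.sys S with hX
  set R := X.D (ref P S β) with hRdef
  set D1 := X.D (ref P S β + 1) with hD1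
  set e := cs P c z j i with he
  set τ := dress P c z R D1 j i with hτ
  have hej : e.j = j := rfl
  have hm := node_m_pos P
  have hmβ : P.m ≤ β * P.m := Nat.le_mul_of_pos_left _ hβ
  set g : ℕ → ℕ → ℝ := fun t v => (pcost (P.B + 1) (ecost P R e (X.U (β * P.m + 1 + t)))
    (fun r => ((picks P (β * P.m + 1 + t) R X.D X.H X.U e).getD v []).getD r 0) : ℝ) with hg
  have h1 : ∀ u : Fin P.NS → Fin P.E, ∑ t ∈ range P.m,
      ((F.sys (setBlk P.NS S (bM β j) (bv u))).U (β * P.m + 1 + t) e τ : ℝ) ≤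
      ∑ t ∈ range P.m, g t (bv u 0 % 2 ^ (4 * P.l1)) + 1 / (P.gd : ℝ) * R e +
      R e * ∑ t ∈ range P.m, (if SFail P (fun i => bv u (i % P.NS)) R (X.D (β * P.m + 1 + t))
        (X.H (β * P.m + 1 + t)) (box P e τ) τ then (1 : ℝ) else 0) := by
    intro u
    exact F.lift_blk hP S (bv u) hβ (e := e) (cs_mem_sibs hn) ha
  refine (av_mono h1).trans ?_
  rw [av_add, av_add, av_const, av_sum, av_const_mul, av_sum]
  have hdvd : 2 ^ (4 * P.l1) ∣ P.E := by
    unfold Par.E Par.lE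
    exact pow_dvd_pow 2 (by omega)
  have h2 : ∑ t ∈ range P.m, av (fun u : Fin P.NS → Fin P.E => g t (bv u 0 % 2 ^ (4 * P.l1))) =
      ∑ t ∈ range P.m, (∑ v ∈ range (2 ^ (4 * P.l1)), g t v) / 2 ^ (4 * P.l1) := by
    refine sum_congr rfl fun t _ => ?_
    rw [av_bv_mod (node_E_pos P) hdvd (node_NS_pos P) (g t)]
    push_cast
    rfl
  have hline := good_line hP h hR hn hF.1
  have h3 := X.lane_regret hP hβ ha (fun r => cs P c z (j - 1) (i * P.B + r)) hline.1
  have h4 : ∑ r ∈ range P.B, Nat.dist (if r = 0 then e.p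
      else (cs P c z (j - 1) (i * P.B + (r - 1))).q) (cs P c z (j - 1) (i * P.B + r)).p +
      Nat.dist (cs P c z (j - 1) (i * P.B + (P.B - 1))).q e.q ≤ jj P c z j i := by
    have h5 := jumps_le (P := P) (c := c) (z := z) (i := i) hj
    unfold cy at h5
    rw [if_neg (cmp_B_pos P).ne'] at h5
    exact h5
  have h5 : ∑ t ∈ range P.m, ((∑ r ∈ range P.B,
      X.U (β * P.m + 1 + t) (cs P c z (j - 1) (i * P.B + r)) (ta P R e r) +
      (∑ r ∈ range P.B, Nat.dist (if r = 0 then e.p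
        else (cs P c z (j - 1) (i * P.B + (r - 1))).q) (cs P c z (j - 1) (i * P.B + r)).p +
      Nat.dist (cs P c z (j - 1) (i * P.B + (P.B - 1))).q e.q) : ℕ) : ℝ) ≤
      ∑ t ∈ range P.m, (∑ r ∈ range P.B,
        (X.U (β * P.m + 1 + t) (cs P c z (j - 1) (i * P.B + r))
          (dress P c z R D1 (j - 1) (i * P.B + r)) : ℝ) + jj P c z j i) := by
    refine sum_le_sum fun t _ => ?_
    have h6 : ∑ r ∈ range P.B,
        X.U (β * P.m + 1 + t) (cs P c z (j - 1) (i * P.B + r)) (ta P R e r) =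
        ∑ r ∈ range P.B, X.U (β * P.m + 1 + t) (cs P c z (j - 1) (i * P.B + r))
          (dress P c z R D1 (j - 1) (i * P.B + r)) :=
      sum_congr rfl fun r hr => by rw [dress_child hn hF.1 (mem_range.1 hr)]
    rw [h6]
    exact_mod_cast Nat.add_le_add_left h4 _
  rw [sum_add_distrib, sum_const, card_range, nsmul_eq_mul] at h5
  have h6 : ∑ t ∈ range P.m, av (fun u : Fin P.NS → Fin P.E =>
      if SFail P (fun i => bv u (i % P.NS)) R (X.D (β * P.m + 1 + t))
        (X.H (β * P.m + 1 + t)) (box P e τ) τ then (1 : ℝ) else 0) ≤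
      ∑ _t ∈ range P.m, 1 / ((P.m : ℝ) * P.gd) := by
    refine sum_le_sum fun t _ => samp hP R _ _ _ τ fun e' ha' r hr => ?_
    have h7 := (ref_bounds (P := P) S hβ).2
    exact X.yv_le hP (by omega) (by omega) ha' hr
  rw [sum_const, card_range, nsmul_eq_mul] at h6
  have hm' : (0 : ℝ) < P.m := by exact_mod_cast hm
  have hgd : (0 : ℝ) < P.gd := by exact_mod_cast Nat.two_pow_pos P.lg
  have h7 : (P.m : ℝ) * (1 / ((P.m : ℝ) * P.gd)) = 1 / P.gd := by field_simp
  rw [h7] at h6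
  have h8 := mul_le_mul_of_nonneg_left h6 (Nat.cast_nonneg (α := ℝ) (R e))
  have h9 : 5 / (P.gd : ℝ) * R e =
      3 / (P.gd : ℝ) * R e + 1 / (P.gd : ℝ) * R e + R e * (1 / (P.gd : ℝ)) := by ring
  rw [h2, h9]
  have h10 := h3.trans (add_le_add_left h5 _)
  linarith

/-- The sum of the dressed values of the comparator cells of level `j` in epoch `β`. -/
noncomputable def Fam.us (F : Fam P c) (z : ℕ → ℕ) (β j : ℕ) (S : ℕ → ℕ) : ℝ :=
  lsum P (fun j i => ∑ t ∈ range P.m, ((F.sys S).U (β * P.m + 1 + t) (cs P c z j i)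
    (dress P c z ((F.sys S).D (ref P S β)) ((F.sys S).D (ref P S β + 1)) j i) : ℝ)) j

open Classical in
/-- The indicator of the success of the start algorithm. -/
noncomputable def Fam.ind (F : Fam P c) (S : ℕ → ℕ) : ℝ :=
  if AkoOk P c (F.sys S).A then 1 else 0

/-- One level. -/
theorem Fam.level (F : Fam P c) (hP : P.Ok) (h : PathOk P c z d) {β : ℕ} (hβ : 1 ≤ β)
    (hβ' : β ≤ P.ne) {j : ℕ} (hj : j ≠ 0) (hk : j ≤ P.k) :
    av (fun u : Fin P.N → Fin P.E => F.ind (bv u) * F.us z β j (bv u)) ≤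
      av (fun u : Fin P.N → Fin P.E => F.ind (bv u) * (F.us z β (j - 1) (bv u) +
        P.m * lsum P (fun j i => (jj P c z j i : ℝ)) j +
        lsum P (loss P c z ((F.sys (bv u)).D (ref P (bv u) β))
          ((F.sys (bv u)).D (ref P (bv u) β + 1))) j)) := by
  classical
  have : Nonempty (Fin P.E) := ⟨⟨0, node_E_pos P⟩⟩
  have hb : (bM β j + 1) * P.NS ≤ P.N := by
    unfold Par.N Par.nb bM
    refine Nat.mul_le_mul_right _ ?_
    have h1 := Nat.pair_lt_max_add_one_sq β j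
    have h2 : (max β j + 1) ^ 2 ≤ (P.ne + P.k + 2) ^ 2 := Nat.pow_le_pow_left (by omega) 2
    omega
  rw [av_block (node_E_pos P) (node_NS_pos P) hb (fun S => F.ind S * F.us z β j S)]
  refine av_mono fun u0 => ?_
  generalize bv u0 = S
  have hind : ∀ v, F.ind (setBlk P.NS S (bM β j) v) = F.ind S := fun v => by
    unfold Fam.ind
    rw [(F.ref_inv S v hβ j).2.1]
  simp only [hind]
  rw [av_const_mul]
  by_cases hA : AkoOk P c (F.sys S).A
  swap
  · have h0 : F.ind S = 0 := if_neg hA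
    rw [h0, zero_mul, zero_mul]
  have h0 : F.ind S = 1 := if_pos hA
  rw [h0, one_mul, one_mul]
  have hR := (F.sys S).refOk hP h hA (ref P S β)
  have h1 : ∀ v, F.us z β j (setBlk P.NS S (bM β j) v) = ∑ i ∈ range (P.B ^ (P.k - j)),
      ∑ t ∈ range P.m, ((F.sys (setBlk P.NS S (bM β j) v)).U (β * P.m + 1 + t) (cs P c z j i)
        (dress P c z ((F.sys S).D (ref P S β)) ((F.sys S).D (ref P S β + 1)) j i) : ℝ) := by
    intro v
    obtain ⟨i1, i2, i3, i4⟩ := F.ref_inv S v hβ j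
    unfold Fam.us lsum
    rw [i1, i3, i4]
  simp only [h1]
  rw [av_sum]
  unfold Fam.us
  rw [lsum_child _ hj hk]
  unfold lsum
  rw [mul_sum, ← sum_add_distrib, ← sum_add_distrib]
  refine sum_le_sum fun i hi => ?_
  have hn : Node P j i := ⟨hk, mem_range.1 hi⟩
  beta_reduce
  rw [sum_comm (s := range P.B)]
  unfold loss
  split_ifs with hF
  · exact F.node_fine hP h S hA hβ hn hF
  · refine av_le fun u => ?_
    obtain ⟨i1, i2, i3, i4⟩ := F.ref_inv S (bv u) hβ j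
    have h2 := (F.sys (setBlk P.NS S (bM β j) (bv u))).node_delay h hn hj (t := ref P S β)
      (T0 := β * P.m + 1) (Nat.succ_le_succ (ref_bounds (P := P) S hβ).2) P.m
      (dress P c z ((F.sys S).D (ref P S β)) ((F.sys S).D (ref P S β + 1)) j i)
      (fun r => dress P c z ((F.sys S).D (ref P S β)) ((F.sys S).D (ref P S β + 1)) (j - 1)
        (i * P.B + r)) (fun r hr => dress_le hP h hR (hn.child hj hr))
    rw [i4] at h2
    refine h2.trans (le_of_eq ?_)
    congr 2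
    refine sum_congr rfl fun t ht => sum_congr rfl fun r _ => ?_
    rw [(F.low_inv S (bv u) β hj (node_ep_le (mem_range.1 ht) le_rfl)
      (e := cs P c z (j - 1) (i * P.B + r)) rfl).2.2]

end Vale.Agent.P315Z
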