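import Vale.Agent.P315Z.Keys
import Vale.Agent.P315.H527.ParPT

/-! P315Z: the choice of the parameters. -/

set_option autoImplicit false

namespace Vale.Agent.P315Z

open Vale.Agent.P315 Vale.Agent.P315.RAM

/-- `log n` -/
def lg1 (n : ℕ) : ℕ := Nat.clog 2 (n + 2)
/-- `log log n` -/
def lg2 (n : ℕ) : ℕ := Nat.clog 2 (lg1 n)
/-- `log log log n` -/
def lg3 (n : ℕ) : ℕ := Nat.clog 2 (lg2 n)

/-- The parameters for the lengths `lx`, `ly`. -/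
def par (lx ly : ℕ) : Par where
  lx := lx
  ly := ly
  lb := lg3 (max lx ly) * lg3 (max lx ly)
  k := lg1 (max lx ly) / (lg3 (max lx ly) * lg3 (max lx ly)) + 1
  lg := 7 * lg3 (max lx ly) + 6
  lc := 17 * lg3 (max lx ly) + 12
  lK := 24 * lg3 (max lx ly) + 27
  lS := 51 * lg3 (max lx ly) + 61
  lm := Nat.log 2 (lg1 (max lx ly) / (lg3 (max lx ly) * lg3 (max lx ly)) + 1) -
    6 * lg3 (max lx ly)
  ne := 2 * (lg3 (max lx ly) * lg3 (max lx ly) * 2 ^ lg3 (max lx ly) + (lg2 (max lx ly) + 9)) + 4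
  hA := 2 ^ lg3 (max lx ly) - 1
  dl := lg2 (max lx ly) + 9
  le := lg3 (max lx ly)
  lA := 5 * lg2 (max lx ly) + 30

/-- Number of bits of the numbers of the feed. -/
def mb (lx ly : ℕ) : ℕ := lg1 (max lx ly) + (par lx ly).lE

theorem num_cube {u : ℕ} (h : 10 ≤ u) : u * u * u ≤ 2 ^ u := by
  induction u, h using Nat.le_induction with
  | base => norm_num
  | succ u hu ih =>
    have h1 : 10 * u ≤ u * u := Nat.mul_le_mul_right _ hu
    have h2 : 10 * (u * u) ≤ u * u * u := by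
      rw [mul_comm 10]
      exact Nat.mul_le_mul_left _ hu
    have e : (u + 1) * (u + 1) * (u + 1) = u * u * u + 3 * (u * u) + 3 * u + 1 := by ring
    rw [e, pow_succ]
    omega

theorem num_clog {m : ℕ} (h : 2 ≤ m) : 2 ^ Nat.clog 2 m ≤ 2 * (m - 1) := by
  have h3 := Nat.pow_pred_clog_lt_self (by norm_num : 1 < 2) (show 1 < m by omega)
  have h0 : Nat.clog 2 m ≠ 0 := (Nat.clog_pos (by norm_num) (by omega)).ne'
  obtain ⟨t, ht⟩ := Nat.exists_eq_succ_of_ne_zero h0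
  rw [ht] at h3 ⊢
  rw [Nat.pred_succ] at h3
  rw [Nat.succ_eq_add_one, pow_succ]
  omega

theorem num_pow_le {a b : ℕ} (h : a ≤ b) : 2 ^ a ≤ 2 ^ b := Nat.pow_le_pow_right (by norm_num) h

theorem num_le_of_pow {a b : ℕ} (h : 2 ^ a ≤ 2 ^ b) : a ≤ b :=
  (Nat.pow_le_pow_iff_right (by norm_num : 1 < 2)).1 h

/-- The iterated logarithms are large. -/
structure Big (c n u L G : ℕ) : Prop where
  c0 : 1000 ≤ c
  cu : c ≤ u
  uA : 1000 * u ≤ u * u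
  AW : 1000 * (u * u) ≤ 2 ^ u
  WAW : 1000 * 2 ^ u ≤ u * u * 2 ^ u
  AWZ : 1000 * (u * u * 2 ^ u) ≤ 2 ^ u * 2 ^ u
  LW : L ≤ 2 ^ u
  WL : 2 ^ u ≤ 2 * L
  GX : G ≤ 2 ^ L
  XG : 2 ^ L ≤ 2 * G
  cZ : c * (2 ^ u * 2 ^ u) ≤ G
  ZG : 1000 * (2 ^ u * 2 ^ u) ≤ G
  nG : n + 2 ≤ 2 ^ G
  Gn : 2 ^ G ≤ 2 * (n + 1)

theorem big_ex {c : ℕ} (hc : 1000 ≤ c) : ∃ n0, ∀ n, n0 ≤ n → Big c n (lg3 n) (lg2 n) (lg1 n) := by
  refine ⟨2 ^ 2 ^ 2 ^ c, fun n hn => ?_⟩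
  have a1 : n + 2 ≤ 2 ^ lg1 n := Nat.le_pow_clog (by norm_num) _
  have a2 : lg1 n ≤ 2 ^ lg2 n := Nat.le_pow_clog (by norm_num) _
  have a3 : lg2 n ≤ 2 ^ lg3 n := Nat.le_pow_clog (by norm_num) _
  have b1 : 2 ^ 2 ^ c ≤ lg1 n := num_le_of_pow (by omega)
  have b2 : 2 ^ c ≤ lg2 n := num_le_of_pow (b1.trans a2)
  have b3 : c ≤ lg3 n := num_le_of_pow (b2.trans a3)
  have c1 : c < 2 ^ c := Nat.lt_two_pow_self
  have c2 : 2 ^ c < 2 ^ 2 ^ c := Nat.lt_two_pow_self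
  have d1 : 2 ^ lg1 n ≤ 2 * (n + 2 - 1) := num_clog (by omega)
  have d2 : 2 ^ lg2 n ≤ 2 * (lg1 n - 1) := num_clog (by omega)
  have d3 : 2 ^ lg3 n ≤ 2 * (lg2 n - 1) := num_clog (by omega)
  generalize lg3 n = u at *
  generalize lg2 n = L at *
  generalize lg1 n = G at *
  have e1 : 1000 * u ≤ u * u := Nat.mul_le_mul_right _ (by omega)
  have e2 : 1000 * (u * u) ≤ 2 ^ u := by
    refine le_trans ?_ (num_cube (by omega))
    rw [mul_comm 1000]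
    exact Nat.mul_le_mul_left _ (by omega)
  have e3 : 2 ^ u * 2 ^ u ≤ 4 * (L * L) := by
    have : 2 ^ u * 2 ^ u ≤ 2 * L * (2 * L) := Nat.mul_le_mul (by omega) (by omega)
    linarith
  have e4 : c * (2 ^ u * 2 ^ u) ≤ G := by
    have f1 := num_cube (u := L) (by omega)
    have f2 : L * L * (8 * c) ≤ L * L * L := Nat.mul_le_mul_left _ (by omega)
    have f3 : c * (2 ^ u * 2 ^ u) ≤ c * (4 * (L * L)) := Nat.mul_le_mul_left _ e3
    have f4 : L * L * (8 * c) = 2 * (c * (4 * (L * L))) := by ring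
    omega
  refine ⟨hc, b3, e1, e2, Nat.mul_le_mul_right _ (by omega), ?_, a3, by omega, a2, by omega, e4,
    (Nat.mul_le_mul_right _ hc).trans e4, a1, by omega⟩
  rw [← mul_assoc]
  exact Nat.mul_le_mul_right _ e2

/-- The form of the parameters. -/
structure Shape (P : Par) (n u L G : ℕ) : Prop where
  lx : P.lx ≤ n
  ly : P.ly ≤ n
  lb : P.lb = u * u
  k : P.k = G / (u * u) + 1
  lg : P.lg = 7 * u + 6
  lc : P.lc = 17 * u + 12
  lK : P.lK = 24 * u + 27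
  lS : P.lS = 51 * u + 61
  lm : P.lm = Nat.log 2 P.k - 6 * u
  ne : P.ne = 2 * (u * u * 2 ^ u + (L + 9)) + 4
  hA : P.hA = 2 ^ u - 1
  dl : P.dl = L + 9
  le : P.le = u
  lA : P.lA = 5 * L + 30

theorem par_shape (lx ly : ℕ) :
    Shape (par lx ly) (max lx ly) (lg3 (max lx ly)) (lg2 (max lx ly)) (lg1 (max lx ly)) :=
  ⟨le_max_left _ _, le_max_right _ _, rfl, rfl, rfl, rfl, rfl, rfl, rfl, rfl, rfl, rfl, rfl, rfl⟩

section bounds

variable {P : Par} {c n u L G : ℕ}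

theorem Shape.ha (h : Shape P n u L G) : P.ha = 2 ^ u := by
  unfold Par.ha
  have := Nat.two_pow_pos u
  rw [h.hA]
  omega

theorem Shape.lbha (h : Shape P n u L G) : P.lb * P.ha = u * u * 2 ^ u := by
  rw [h.lb, h.ha]

theorem Shape.lbk (h : Shape P n u L G) (b : Big c n u L G) :
    G < P.lb * P.k ∧ P.lb * P.k ≤ G + u * u := by
  have := b.c0; have := b.cu; have := b.uA
  rw [h.lb, h.k]
  refine ⟨Nat.lt_mul_div_succ _ (by omega), ?_⟩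
  rw [mul_add, mul_one]
  exact Nat.add_le_add_right (Nat.mul_div_le _ _) _

theorem Shape.kG (h : Shape P n u L G) (b : Big c n u L G) : 1 ≤ P.k ∧ P.k ≤ G := by
  have := b.c0; have := b.cu; have := b.uA; have := b.AW; have := b.WAW; have := b.AWZ
  have := b.ZG
  rw [h.k]
  exact ⟨Nat.le_add_left _ _, Nat.div_lt_self (by omega) (by omega)⟩

theorem Shape.lm_le (h : Shape P n u L G) (b : Big c n u L G) : P.lm ≤ L := by
  have h1 := h.kG b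
  have h2 := Nat.pow_log_le_self 2 (show P.k ≠ 0 by omega)
  have h3 := num_le_of_pow (h2.trans (h1.2.trans b.GX))
  rw [h.lm]
  omega

theorem Shape.k_big (h : Shape P n u L G) (b : Big c n u L G) {e : ℕ} (he : e + u + 1 ≤ L) :
    2 ^ e ≤ P.k := by
  have h1 := (h.lbk b).1
  have h2 := b.XG
  have h3 := b.AW
  have h4 : P.lb * P.k ≤ 2 ^ u * P.k := Nat.mul_le_mul_right _ (by rw [h.lb]; omega)
  have h5 := num_pow_le he
  rw [pow_succ, pow_add, mul_comm (2 ^ e)] at h5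
  have h6 : 2 ^ u * 2 ^ e ≤ 2 ^ u * P.k := by omega
  exact Nat.le_of_mul_le_mul_left h6 (Nat.two_pow_pos u)

theorem Shape.m_eq (h : Shape P n u L G) (b : Big c n u L G) :
    P.m * 2 ^ (6 * u) ≤ P.k ∧ P.k ≤ 2 * (P.m * 2 ^ (6 * u)) := by
  have := b.c0; have := b.cu; have := b.uA; have := b.AW; have := b.WL
  have h1 := h.kG b
  have h2 := Nat.pow_log_le_self 2 (show P.k ≠ 0 by omega)
  have h3 := Nat.lt_pow_succ_log_self (by norm_num : 1 < 2) P.k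
  have h4 : 2 ^ (6 * u) ≤ P.k := h.k_big b (by omega)
  have h5 : 6 * u ≤ Nat.log 2 P.k := Nat.le_log_of_pow_le (by norm_num) h4
  have e : P.m * 2 ^ (6 * u) = 2 ^ Nat.log 2 P.k := by
    unfold Par.m
    rw [h.lm, ← pow_add, Nat.sub_add_cancel h5]
  rw [Nat.succ_eq_add_one, pow_succ] at h3
  rw [e]
  omega

/-- The exponents of medium size. -/
theorem Shape.med (h : Shape P n u L G) (b : Big c n u L G) :
    P.la1 ≤ 2 * (u * u * 2 ^ u) ∧ P.lG ≤ 2 * (u * u * 2 ^ u) ∧ P.lnn ≤ 3 * (u * u * 2 ^ u) ∧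
      P.LA ≤ 2 * (u * u * 2 ^ u) ∧ P.lN ≤ 30 * (u * u * 2 ^ u) ∧ P.lE ≤ 30 * (u * u * 2 ^ u) ∧
      P.ne ≤ 3 * (u * u * 2 ^ u) := by
  have := b.c0; have := b.cu; have := b.uA; have := b.AW; have := b.WAW; have := b.LW
  have := h.lbha; have := h.lm_le b; have := h.lb; have := h.lS; have := h.ne; have := h.dl
  have := h.le; have := h.lA
  unfold Par.lN Par.lE Par.nH Par.nA Par.l1 Par.lnn Par.lG Par.la1 Par.la0 Par.LA
  omega

theorem Shape.lcnt_le (h : Shape P n u L G) (b : Big c n u L G) :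
    P.lcnt ≤ 256 * (2 ^ L * 2 ^ L) := by
  have := b.c0; have := b.cu; have := b.uA; have := b.AW; have := b.WAW; have := b.LW
  have := b.AWZ; have := b.ZG; have := b.GX
  have := h.lbk b; have := h.kG b; have := h.dl; have := h.med b
  have h1 : (P.k + 1) * P.LA ≤ 2 * 2 ^ L * 2 ^ L := Nat.mul_le_mul (by omega) (by omega)
  have h2 : 2 ^ L ≤ 2 ^ L * 2 ^ L := Nat.le_mul_of_pos_right _ (Nat.two_pow_pos L)
  rw [mul_assoc] at h1
  unfold Par.lcnt Par.am Par.km Par.a0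
  omega

theorem num_sq (u : ℕ) : 2 ^ u * 2 ^ u = 2 ^ (2 * u) := by
  rw [two_mul, pow_add]

theorem Shape.ok (h : Shape P n u L G) (b : Big c n u L G) : P.Ok := by
  have := b.c0; have := b.cu; have := b.uA; have := b.AW; have := b.WAW; have := b.LW
  have := b.AWZ; have := b.ZG; have := b.GX; have := b.WL; have := b.nG
  have hlbk := h.lbk b
  have hk := h.kG b
  have hmed := h.med b
  have hm := h.m_eq b
  have hB : 2 ^ G ≤ P.B ^ P.k := by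
    unfold Par.B
    rw [← pow_mul]
    exact num_pow_le hlbk.1.le
  have hleta : 2 * P.leta + P.le = 2 * (u * u) + 111 * u + 132 := by
    unfold Par.leta Par.h3
    rw [h.lb, h.lK, h.lg, h.le]
    ring
  have hbig : 256 * (2 ^ (2 * P.leta + P.le) * 2 ^ (6 * u)) ≤ P.m := by
    have h1 : 2 ^ (2 * P.leta + P.le + 6 * u + 6 * u + 9) ≤ P.k := h.k_big b (by omega)
    rw [pow_add, pow_add, pow_add] at h1
    refine Nat.le_of_mul_le_mul_right (c := 2 ^ (6 * u)) ?_ (Nat.two_pow_pos _)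
    rw [mul_assoc]
    omega
  have hsix : 2 ^ (2 * P.leta + P.le) ≤ 2 ^ (2 * P.leta + P.le) * 2 ^ (6 * u) :=
    Nat.le_mul_of_pos_right _ (Nat.two_pow_pos _)
  refine ⟨by rw [h.lb]; omega, hk.1, by rw [h.le]; omega, by have := h.lx; omega,
    by have := h.ly; omega, by rw [h.lc, h.lg, h.lK]; omega, ?_, ?_, ?_, ?_, ?_, ?_, by omega, ?_⟩
  · unfold Par.gd Par.capd
    calc 2 ^ P.lg * 2 ^ P.lg * (4 * P.lnn + 2) ≤ 2 ^ P.lg * 2 ^ P.lg * (2 ^ u * 2 ^ u) :=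
          Nat.mul_le_mul_left _ (by omega)
      _ ≤ 2 ^ P.lc := by
          rw [← pow_add, ← pow_add, ← pow_add]
          exact num_pow_le (by rw [h.lg, h.lc]; omega)
  · unfold Par.K
    have h1 := h.lm_le b
    have h2 := h.lg
    calc 128 * (2 ^ P.lK * 2 ^ P.lK) * (P.lm + 2 * P.lG + P.lg + 5)
        ≤ 2 ^ 7 * (2 ^ P.lK * 2 ^ P.lK) * (2 ^ u * 2 ^ u) := Nat.mul_le_mul_left _ (by omega)
      _ ≤ 2 ^ P.lS := by
          rw [← pow_add, ← pow_add, ← pow_add, ← pow_add]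
          exact num_pow_le (by rw [h.lK, h.lS]; omega)
  · rw [h.dl, pow_add]
    omega
  · have h1 := h.lcnt_le b
    have h2 : P.LA ≤ 2 ^ L := by omega
    calc 16 * P.LA * 2 ^ (2 * P.dl) * P.lcnt
        ≤ 2 ^ 4 * 2 ^ L * 2 ^ (2 * P.dl) * (2 ^ 8 * (2 ^ L * 2 ^ L)) :=
          Nat.mul_le_mul (Nat.mul_le_mul_right _ (Nat.mul_le_mul_left _ h2)) h1
      _ ≤ 2 ^ P.lA := by
          rw [← pow_add, ← pow_add, ← pow_add, ← pow_add, ← pow_add]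
          exact num_pow_le (by rw [h.dl, h.lA]; omega)
  · unfold Par.gd
    have e : P.m * 2 ^ P.lg = 32 * (2 * (P.m * 2 ^ (6 * u))) * 2 ^ u := by
      rw [h.lg, show 7 * u + 6 = 6 * u + u + 6 by ring, pow_add, pow_add]
      ring
    rw [e, h.le]
    exact Nat.mul_le_mul_right _ (by omega)
  · calc 40 * (P.k + 1) * 2 ^ (2 * P.leta + P.le)
        ≤ 256 * (P.m * 2 ^ (6 * u)) * 2 ^ (2 * P.leta + P.le) :=
          Nat.mul_le_mul_right _ (by omega)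
      _ = P.m * (256 * (2 ^ (2 * P.leta + P.le) * 2 ^ (6 * u))) := by ring
      _ ≤ P.m * P.m := Nat.mul_le_mul_left _ hbig
  · unfold Par.la0
    rw [h.lbha, h.dl, h.ne]

theorem Shape.lQ_le (h : Shape P n u L G) (b : Big c n u L G) :
    P.lQ ≤ G + 120 * (u * P.k) + 6 * (2 ^ u * 2 ^ u) := by
  have := b.c0; have := b.cu; have := b.uA; have := b.AW; have := b.WAW; have := b.LW
  have := b.AWZ
  have hlbk := h.lbk b
  have hmed := h.med b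
  have hm := h.m_eq b
  have h1 : Nat.clog 2 P.LA ≤ 2 * u := by
    refine (Nat.clog_le_iff_le_pow (by norm_num)).2 ?_
    rw [← num_sq]
    omega
  have h2 : Nat.clog 2 (P.h + 1) ≤ u := by
    refine (Nat.clog_le_iff_le_pow (by norm_num)).2 ?_
    unfold Par.h
    rw [h.lb]
    omega
  have h3 : Nat.clog 2 (P.h2 + 5) ≤ u := by
    refine (Nat.clog_le_iff_le_pow (by norm_num)).2 ?_
    unfold Par.h2
    rw [h.lb, h.lK]
    omega
  have h4 : P.lL * P.k ≤ 110 * (u * P.k) := by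
    rw [← mul_assoc]
    refine Nat.mul_le_mul_right _ ?_
    unfold Par.lL
    rw [h.lS, h.lK]
    omega
  have h5 : (P.k / P.ha + 1) * (P.lA + Nat.clog 2 P.LA + 4) ≤ 6 * P.k + 6 * 2 ^ u := by
    have a1 : P.k / P.ha * P.ha ≤ P.k := Nat.div_mul_le_self _ _
    have a2 : (P.k / P.ha + 1) * (P.lA + Nat.clog 2 P.LA + 4) ≤ (P.k / P.ha + 1) * (6 * P.ha) := by
      refine Nat.mul_le_mul_left _ ?_
      rw [h.lA, h.ha]
      omega
    have a3 : (P.k / P.ha + 1) * (6 * P.ha) = 6 * (P.k / P.ha * P.ha) + 6 * P.ha := by ring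
    have a4 := h.ha
    omega
  have h6 : P.lY ≤ 2 ^ u * 2 ^ u := by
    unfold Par.lY Par.lT
    omega
  have h7 : P.lY * P.Tend ≤ P.k + 2 ^ u * 2 ^ u := by
    unfold Par.Tend
    rw [mul_add, mul_one, ← mul_assoc]
    refine Nat.add_le_add (le_trans ?_ hm.1) h6
    rw [mul_comm P.m]
    refine Nat.mul_le_mul_right _ ?_
    calc P.lY * P.ne ≤ 2 ^ u * 2 ^ u * (2 ^ u * 2 ^ u) := Nat.mul_le_mul h6 (by omega)
      _ ≤ 2 ^ (6 * u) := by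
        rw [← pow_add, ← pow_add]
        exact num_pow_le (by omega)
  have h8 : P.k ≤ u * P.k := Nat.le_mul_of_pos_left _ (by omega)
  have h9 := h.lbha
  unfold Par.lQ Par.lM Par.lT
  rw [add_mul P.lb]
  omega

theorem Shape.uk (h : Shape P n u L G) (b : Big c n u L G) : c * (u * P.k) ≤ 2 * G := by
  have := b.AW; have := b.WAW; have := b.AWZ; have := b.ZG
  have h1 := (h.lbk b).2
  have h2 : c * (u * P.k) ≤ u * (u * P.k) := Nat.mul_le_mul_right _ b.cu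
  rw [h.lb, mul_assoc] at h1
  omega

theorem esize_par (P : Par) : Vale.Agent.Lib.PolyTime.esize P =
    Vale.Agent.Lib.PolyTime.esize ((⟨P.NS⟩ : Vale.Agent.Lib.PolyTime.Un), P.lx, P.ly,
      ([⟨P.lb⟩, ⟨P.k⟩, ⟨P.lg⟩, ⟨P.lc⟩, ⟨P.lK⟩, ⟨P.lS⟩, ⟨P.lm⟩, ⟨P.ne⟩, ⟨P.hA⟩, ⟨P.dl⟩, ⟨P.le⟩,
        ⟨P.lA⟩] : List Vale.Agent.Lib.PolyTime.Un)) := rfl

theorem Shape.esize_le (h : Shape P n u L G) (b : Big c n u L G) :
    Vale.Agent.Lib.PolyTime.esize P ≤ 2 * P.NS + 40 * 2 ^ L := by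
  have := b.c0; have := b.cu; have := b.uA; have := b.AW; have := b.WAW; have := b.LW
  have := b.AWZ; have := b.ZG; have := b.GX; have := b.nG
  have := h.lx; have := h.ly; have := h.lb; have := h.lg; have := h.lc; have := h.lK
  have := h.lS; have := h.hA; have := h.dl; have := h.le; have := h.lA
  have := h.kG b; have := h.lm_le b; have := (h.med b).2.2.2.2.2.2
  have h1 : Vale.Agent.Lib.PolyTime.esize P.lx ≤ G :=
    Vale.Agent.Lib.PolyTime.esize_nat_le (by omega)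
  have h2 : Vale.Agent.Lib.PolyTime.esize P.ly ≤ G :=
    Vale.Agent.Lib.PolyTime.esize_nat_le (by omega)
  rw [esize_par]
  simp only [Vale.Agent.Lib.PolyTime.esize_pair, Vale.Agent.Lib.PolyTime.esize_list_cons,
    Vale.Agent.Lib.PolyTime.esize_list_nil, Vale.Agent.Lib.PolyTime.esize_un]
  omega

/-- The sizes are at most fixed powers of `Y = 2 ^ (W * W)`. -/
theorem Shape.sizes (h : Shape P n u L G) (b : Big c n u L G) {Y : ℕ}
    (hY : Y = 2 ^ (2 ^ u * 2 ^ u)) :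
    100 ≤ Y ∧ 41 * (G + P.lE) + 50 ≤ Y ∧ (2 + P.N) * Y ≤ Y ^ 4 ∧ P.szS ≤ Y ^ 6 := by
  have := b.c0; have := b.cu; have := b.uA; have := b.AW; have := b.WAW; have := b.LW
  have := b.AWZ; have := b.ZG; have := b.GX
  have hk := h.kG b
  have hmed := h.med b
  have hm := h.m_eq b
  have x1 : 16384 * (2 ^ L * 2 ^ L) ≤ Y := by
    rw [hY, show 16384 = 2 ^ 14 by norm_num, ← pow_add, ← pow_add]
    exact num_pow_le (by omega)
  have x2 : 2 ^ L ≤ 2 ^ L * 2 ^ L := Nat.le_mul_of_pos_right _ (Nat.two_pow_pos L)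
  have x3 : P.NS ≤ Y := by
    rw [hY]
    exact num_pow_le (by omega)
  have x4 : P.nb ≤ Y := by
    have a1 : (P.ne + P.k + 2) ^ 2 ≤ (3 * 2 ^ L) ^ 2 := Nat.pow_le_pow_left (by omega) 2
    have a2 : (3 * 2 ^ L) ^ 2 = 9 * (2 ^ L * 2 ^ L) := by ring
    unfold Par.nb
    omega
  have x5 : P.N ≤ Y ^ 2 := by
    rw [pow_two]
    exact Nat.mul_le_mul x4 x3
  have x6 : P.Tend ≤ 2 ^ L * 2 ^ L + 1 := by
    have a1 : P.m ≤ P.m * 2 ^ (6 * u) := Nat.le_mul_of_pos_right _ (Nat.two_pow_pos _)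
    exact Nat.add_le_add_right (Nat.mul_le_mul (by omega) (by omega)) 1
  have x7 := h.lcnt_le b
  have x8 : P.KB ≤ Y := by
    unfold Par.KB Par.h2
    rw [h.lb, h.lK]
    omega
  have x9 : P.VB ≤ Y ^ 2 := by
    rw [pow_two]
    exact Nat.mul_le_mul x3 (by omega)
  have x10 : 2 ^ P.lT ≤ Y ^ 2 := by
    rw [hY, ← pow_mul]
    refine num_pow_le ?_
    unfold Par.lT
    omega
  have x11 := h.esize_le b
  have y0 : 100 ≤ Y := by omega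
  have y : ∀ t, 100 * Y ^ t ≤ Y ^ (t + 1) := fun t => by
    rw [pow_succ, mul_comm]
    exact Nat.mul_le_mul_left _ y0
  have y1 : 100 * Y ≤ Y ^ 2 := by simpa using y 1
  have y2 : 100 * Y ^ 2 ≤ Y ^ 3 := y 2
  have y3 : 100 * Y ^ 3 ≤ Y ^ 4 := y 3
  have y4 : 100 * Y ^ 4 ≤ Y ^ 5 := y 4
  have y5 : 100 * Y ^ 5 ≤ Y ^ 6 := y 5
  refine ⟨y0, by omega, ?_, ?_⟩
  · rw [show Y ^ 4 = Y ^ 3 * Y by ring]
    exact Nat.mul_le_mul_right _ (by omega)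
  · have z1 : P.N * (2 * P.lE + 1) ≤ Y ^ 2 * Y := Nat.mul_le_mul x5 (by omega)
    have z2 : 200 * (6 + 3 * (P.Tend + P.k)) * (2 ^ P.lT + 1) * (P.KB + P.VB + 2) ≤
        Y * (2 * Y ^ 2) * (2 * Y ^ 2) :=
      Nat.mul_le_mul (Nat.mul_le_mul (by omega) (by omega)) (by omega)
    have z3 : Y * (2 * Y ^ 2) * (2 * Y ^ 2) = 4 * Y ^ 5 := by ring
    have z4 : Y ^ 2 * Y = Y ^ 3 := by ring
    unfold Par.szS
    omega

theorem Shape.state (h : Shape P n u L G) (b : Big c n u L G) {Y : ℕ}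
    (hY : Y = 2 ^ (2 ^ u * 2 ^ u)) :
    (2 + P.N) * (2 * (G + P.lE) + 1) + P.szS + 2 * (G + P.lE) + 10 ≤ Y ^ 7 := by
  obtain ⟨y0, y1, y2, y3⟩ := h.sizes b hY
  have a1 : (2 + P.N) * (2 * (G + P.lE) + 1) ≤ (2 + P.N) * Y := Nat.mul_le_mul_left _ (by omega)
  have a2 : Y ^ 4 ≤ Y ^ 6 := Nat.pow_le_pow_right (by omega) (by norm_num)
  have a3 : Y ≤ Y ^ 6 := Nat.le_self_pow (by norm_num) _
  have a4 : 100 * Y ^ 6 ≤ Y ^ 7 := by
    rw [show Y ^ 7 = Y * Y ^ 6 by ring]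
    exact Nat.mul_le_mul_right _ y0
  omega

theorem Shape.cost (h : Shape P n u L G) (b : Big c n u L G) (k₁ k₂ : ℕ) :
    mainCost k₁ k₂ (P.lx + P.ly) (G + P.lE) (2 + P.N) (2 ^ P.lQ) P.szS 1 50 ≤
      1000 * (n + 1) + 4 * 2 ^ (P.lQ + 2 ^ u * 2 ^ u * (k₁ + 7 * k₂ + 4)) := by
  obtain ⟨Y, hY⟩ : ∃ Y, Y = 2 ^ (2 ^ u * 2 ^ u) := ⟨_, rfl⟩
  obtain ⟨y0, y1, y2, _⟩ := h.sizes b hY
  have y4 := h.state b hY
  have := h.lx; have := h.ly
  obtain ⟨T, hT⟩ : ∃ T, T = Y ^ (k₁ + 7 * k₂ + 4) := ⟨_, rfl⟩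
  have hp : ∀ t, t ≤ k₁ + 7 * k₂ + 4 → Y ^ t ≤ T := fun t ht => by
    rw [hT]
    exact Nat.pow_le_pow_right (by omega) ht
  have a1 : (4 * (G + P.lE) + 10) ^ k₁ ≤ T :=
    (Nat.pow_le_pow_left (by omega) _).trans (hp _ (by omega))
  have a2 : (2 + P.N) * (41 * (G + P.lE) + 50) ≤ T :=
    ((Nat.mul_le_mul_left _ y1).trans y2).trans (hp _ (by omega))
  have a3 : ((2 + P.N) * (2 * (G + P.lE) + 1) + P.szS + 2 * (G + P.lE) + 10) ^ k₂ ≤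
      Y ^ (7 * k₂) := by
    rw [pow_mul]
    exact Nat.pow_le_pow_left y4 _
  have a4 : (P.szS + 2 * (G + P.lE) + 10) ^ k₂ ≤ Y ^ (7 * k₂) := by
    rw [pow_mul]
    exact Nat.pow_le_pow_left (by omega) _
  have a5 : 100 * Y ^ (7 * k₂) ≤ T := by
    refine le_trans ?_ (hp (7 * k₂ + 1) (by omega))
    rw [pow_succ, mul_comm]
    exact Nat.mul_le_mul_left _ y0
  have a6 : 1 ≤ Y ^ (7 * k₂) := Nat.one_le_pow _ _ (by omega)
  have a7 : 2 ^ P.lQ * (50 + (1 + 1) * (P.szS + 2 * (G + P.lE) + 10) ^ k₂) ≤ 2 ^ P.lQ * T :=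
    Nat.mul_le_mul_left _ (by omega)
  have a8 : T ≤ 2 ^ P.lQ * T := Nat.le_mul_of_pos_left _ (Nat.two_pow_pos _)
  have e : 2 ^ (P.lQ + 2 ^ u * 2 ^ u * (k₁ + 7 * k₂ + 4)) = 2 ^ P.lQ * T := by
    rw [pow_add, pow_mul, ← hY, hT]
  rw [e]
  unfold mainCost
  omega

end bounds

theorem par_ok : ∃ n0, ∀ lx ly, n0 ≤ max lx ly → (par lx ly).Ok := by
  obtain ⟨n0, h⟩ := big_ex (le_refl 1000)
  exact ⟨n0, fun lx ly hn => (par_shape lx ly).ok (h _ hn)⟩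

theorem par_le {ε : ℝ} (hε : 0 < ε) :
    ∃ n0, ∀ lx ly, n0 ≤ max lx ly → 64 ≤ ε * 2 ^ (par lx ly).le := by
  obtain ⟨c, hc⟩ := exists_nat_ge (64 / ε)
  obtain ⟨n0, h⟩ := big_ex (le_max_left 1000 c)
  refine ⟨n0, fun lx ly hn => ?_⟩
  have h1 := (h _ hn).cu
  have h2 : lg3 (max lx ly) < 2 ^ lg3 (max lx ly) := Nat.lt_two_pow_self
  have h3 : c ≤ 2 ^ (par lx ly).le := by
    rw [(par_shape lx ly).le]
    omega
  have h4 : (c : ℝ) ≤ 2 ^ (par lx ly).le := by exact_mod_cast h3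
  rw [div_le_iff₀' hε] at hc
  exact hc.trans (mul_le_mul_of_nonneg_left h4 hε.le)

theorem Shape.fits {P : Par} {c n u L G : ℕ} (h : Shape P n u L G) (b : Big c n u L G) :
    P.lx < 2 ^ (G + P.lE) ∧ P.ly < 2 ^ (G + P.lE) ∧ 0 < G + P.lE ∧ P.E ≤ 2 ^ (G + P.lE) ∧
    10 * (P.lx + P.ly + 10) ≤ (n + 2) ^ 6 ∧ 4 * (G + P.lE) + 10 ≤ (n + 2) ^ 6 ∧
    (2 + P.N) * (2 * (G + P.lE) + 1) + P.szS + 2 * (G + P.lE) + 10 ≤ (n + 2) ^ 6 ∧
    P.E ≤ (n + 2) ^ 6 ∧ 2 ^ P.lQ ≤ (n + 2) ^ 6 ∧ (P.lx + 1) * (P.ly + 1) ≤ (n + 2) ^ 6 ∧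
    2 * P.B ^ P.k ≤ (n + 2) ^ 6 := by
  have := b.c0; have := b.cu; have := b.uA; have := b.AW; have := b.WAW; have := b.AWZ
  have := b.ZG; have := b.nG; have := h.lx; have := h.ly
  have hmed := h.med b
  have a1 : 2 ^ G ≤ 2 ^ (G + P.lE) := num_pow_le (by omega)
  have a2 : 2 ^ (3 * G) ≤ (n + 2) ^ 6 := by
    rw [mul_comm, pow_mul, show 6 = 2 * 3 by norm_num, pow_mul]
    refine Nat.pow_le_pow_left (b.Gn.trans ?_) 3
    rw [pow_two]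
    exact Nat.mul_le_mul (by omega) (by omega)
  have a3 : ∀ t, t ≤ 3 * G → 2 ^ t ≤ (n + 2) ^ 6 := fun t ht => (num_pow_le ht).trans a2
  have a4 := h.state b rfl
  rw [← pow_mul] at a4
  have a5 := a4.trans (a3 _ (by omega))
  have a6 := a3 (G + 7) (by omega)
  rw [pow_add] at a6
  have a7 := h.lQ_le b
  have a8 := h.uk b
  have a9 : 1000 * (u * P.k) ≤ c * (u * P.k) := Nat.mul_le_mul_right _ b.c0
  have a10 := a3 (G + G) (by omega)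
  rw [pow_add] at a10
  have a11 := (h.lbk b).2
  have a12 : 2 * (2 * (G + P.lE) + 1) ≤ (2 + P.N) * (2 * (G + P.lE) + 1) :=
    Nat.mul_le_mul_right _ (by omega)
  refine ⟨by omega, by omega, by omega, num_pow_le (by omega), by omega, by omega, a5,
    a3 _ (by omega), a3 _ (by omega), le_trans (Nat.mul_le_mul (by omega) (by omega)) a10, ?_⟩
  unfold Par.B
  rw [← pow_mul, ← pow_succ']
  exact a3 _ (by omega)

theorem par_fits : ∃ n0 c1, ∀ lx ly, n0 ≤ max lx ly →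
    lx < 2 ^ mb lx ly ∧ ly < 2 ^ mb lx ly ∧ 0 < mb lx ly ∧ (par lx ly).E ≤ 2 ^ mb lx ly ∧
    10 * (lx + ly + 10) ≤ (max lx ly + 2) ^ c1 ∧ 4 * mb lx ly + 10 ≤ (max lx ly + 2) ^ c1 ∧
    (2 + (par lx ly).N) * (2 * mb lx ly + 1) + (par lx ly).szS + 2 * mb lx ly + 10 ≤
      (max lx ly + 2) ^ c1 ∧
    (par lx ly).E ≤ (max lx ly + 2) ^ c1 ∧ 2 ^ (par lx ly).lQ ≤ (max lx ly + 2) ^ c1 ∧
    (lx + 1) * (ly + 1) ≤ (max lx ly + 2) ^ c1 ∧
    2 * (par lx ly).B ^ (par lx ly).k ≤ (max lx ly + 2) ^ c1 := by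
  obtain ⟨n0, h⟩ := big_ex (le_refl 1000)
  exact ⟨n0, 6, fun lx ly hn => (par_shape lx ly).fits (h _ hn)⟩

theorem Shape.cost_real {P : Par} {c n u L G : ℕ} (h : Shape P n u L G) (b : Big c n u L G)
    (k₁ k₂ D : ℕ) {δ : ℝ} (hδ : 0 < δ) (hD : 1 ≤ D * δ) (h1 : 480 * D ≤ c)
    (h2 : 2 * (D * (k₁ + 7 * k₂ + 10)) ≤ c) :
    (mainCost k₁ k₂ (P.lx + P.ly) (G + P.lE) (2 + P.N) (2 ^ P.lQ) P.szS 1 50 : ℝ) ≤
      (1000 + 4 * 2 ^ (1 + δ)) * ((n : ℝ) + 1) ^ (1 + δ) := by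
  have a1 := h.cost b k₁ k₂
  obtain ⟨Ex, hEx⟩ : ∃ Ex, Ex = P.lQ + 2 ^ u * 2 ^ u * (k₁ + 7 * k₂ + 4) := ⟨_, rfl⟩
  rw [← hEx] at a1
  have a2 : D * Ex ≤ D * G + G := by
    have c1 := h.lQ_le b
    have c2 := h.uk b
    have c3 := b.cZ
    have c4 : 480 * D * (u * P.k) ≤ c * (u * P.k) := Nat.mul_le_mul_right _ h1
    have c5 : 2 * (D * (k₁ + 7 * k₂ + 10)) * (2 ^ u * 2 ^ u) ≤ c * (2 ^ u * 2 ^ u) :=
      Nat.mul_le_mul_right _ h2
    have c6 : D * Ex ≤ D * (G + 120 * (u * P.k) + 6 * (2 ^ u * 2 ^ u) +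
        2 ^ u * 2 ^ u * (k₁ + 7 * k₂ + 4)) := Nat.mul_le_mul_left _ (by omega)
    have c7 : 4 * (D * (G + 120 * (u * P.k) + 6 * (2 ^ u * 2 ^ u) +
        2 ^ u * 2 ^ u * (k₁ + 7 * k₂ + 4))) = 4 * (D * G) + 480 * D * (u * P.k) +
          2 * (2 * (D * (k₁ + 7 * k₂ + 10)) * (2 ^ u * 2 ^ u)) := by ring
    omega
  have a3 : (Ex : ℝ) ≤ G * (1 + δ) := by
    have c1 : (D : ℝ) * Ex ≤ D * G + G := by exact_mod_cast a2
    have c2 : (0 : ℝ) < D := by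
      by_contra c3
      have c4 := mul_le_mul_of_nonneg_right (not_lt.1 c3) hδ.le
      linarith
    have c3 := mul_le_mul_of_nonneg_right hD (Nat.cast_nonneg (α := ℝ) G)
    refine le_of_mul_le_mul_left ?_ c2
    linarith
  have hn : (1 : ℝ) ≤ (n : ℝ) + 1 := by
    have : (0 : ℝ) ≤ n := Nat.cast_nonneg n
    linarith
  have a4 : (2 : ℝ) ^ Ex ≤ 2 ^ (1 + δ) * ((n : ℝ) + 1) ^ (1 + δ) := by
    have c1 : (2 : ℝ) ^ G ≤ 2 * ((n : ℝ) + 1) := by exact_mod_cast b.Gn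
    calc (2 : ℝ) ^ Ex = (2 : ℝ) ^ (Ex : ℝ) := (Real.rpow_natCast _ _).symm
      _ ≤ (2 : ℝ) ^ ((G : ℝ) * (1 + δ)) := Real.rpow_le_rpow_of_exponent_le (by norm_num) a3
      _ = ((2 : ℝ) ^ G) ^ (1 + δ) := Real.rpow_natCast_mul (by norm_num) _ _
      _ ≤ (2 * ((n : ℝ) + 1)) ^ (1 + δ) := Real.rpow_le_rpow (by positivity) c1 (by linarith)
      _ = 2 ^ (1 + δ) * ((n : ℝ) + 1) ^ (1 + δ) := Real.mul_rpow (by norm_num) (by linarith)
  have a5 : (n : ℝ) + 1 ≤ ((n : ℝ) + 1) ^ (1 + δ) :=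
    Real.self_le_rpow_of_one_le hn (by linarith)
  have a6 : (mainCost k₁ k₂ (P.lx + P.ly) (G + P.lE) (2 + P.N) (2 ^ P.lQ) P.szS 1 50 : ℝ) ≤
      1000 * ((n : ℝ) + 1) + 4 * 2 ^ Ex := by exact_mod_cast a1
  linarith

theorem par_cost (k₁ k₂ : ℕ) {δ : ℝ} (hδ : 0 < δ) : ∃ C : ℝ, ∀ lx ly : ℕ,
    (mainCost k₁ k₂ (lx + ly) (mb lx ly) (2 + (par lx ly).N) (2 ^ (par lx ly).lQ)
      (par lx ly).szS 1 50 : ℝ) ≤ C * (((max lx ly : ℕ) : ℝ) + 1) ^ (1 + δ) := by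
  obtain ⟨D, hD⟩ := exists_nat_ge (1 / δ)
  rw [div_le_iff₀ hδ] at hD
  obtain ⟨n0, h⟩ := big_ex (c := 1000 + 480 * D + 2 * (D * (k₁ + 7 * k₂ + 10))) (by omega)
  obtain ⟨f, hf⟩ : ∃ f : ℕ → ℕ → ℕ, f = fun lx ly => mainCost k₁ k₂ (lx + ly) (mb lx ly)
    (2 + (par lx ly).N) (2 ^ (par lx ly).lQ) (par lx ly).szS 1 50 := ⟨_, rfl⟩
  obtain ⟨C1, hC1⟩ : ∃ C1 : ℕ, ∀ lx < n0, ∀ ly < n0, f lx ly ≤ C1 := by
    refine ⟨∑ lx ∈ Finset.range n0, ∑ ly ∈ Finset.range n0, f lx ly, fun lx hx ly hy => ?_⟩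
    exact (Finset.single_le_sum (f := fun ly => f lx ly) (fun _ _ => Nat.zero_le _)
      (Finset.mem_range.2 hy)).trans (Finset.single_le_sum
        (f := fun lx => ∑ ly ∈ Finset.range n0, f lx ly) (fun _ _ => Nat.zero_le _)
        (Finset.mem_range.2 hx))
  refine ⟨(1000 + 4 * 2 ^ (1 + δ)) + C1, fun lx ly => ?_⟩
  have hn : (1 : ℝ) ≤ ((max lx ly : ℕ) : ℝ) + 1 := by
    have : (0 : ℝ) ≤ ((max lx ly : ℕ) : ℝ) := Nat.cast_nonneg _
    linarith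
  have h1 : (1 : ℝ) ≤ (((max lx ly : ℕ) : ℝ) + 1) ^ (1 + δ) := Real.one_le_rpow hn (by linarith)
  have h2 : (0 : ℝ) ≤ C1 := Nat.cast_nonneg _
  have h3 : (0 : ℝ) ≤ 1000 + 4 * 2 ^ (1 + δ) := by positivity
  have h4 := mul_le_mul_of_nonneg_left h1 h2
  have h5 := mul_nonneg h3 (zero_le_one.trans h1)
  rw [add_mul]
  by_cases hb : n0 ≤ max lx ly
  · have h6 := (par_shape lx ly).cost_real (h _ hb) k₁ k₂ D hδ hD (by omega) (by omega)
    exact le_trans h6 (by linarith)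
  · have h6 := hC1 lx (by omega) ly (by omega)
    rw [hf] at h6
    have h7 := (Nat.cast_le (α := ℝ)).2 h6
    exact le_trans h7 (by linarith)

end Vale.Agent.P315Z
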