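import Vale.Agent.P315Z.Cmp

/-! P315Z: the predicted line of a good node follows the comparator path. -/

set_option autoImplicit false

namespace Vale.Agent.P315Z

open Finset

/-- Deviation of the initial sums from the chord (Cauchy-Schwarz). -/
theorem chord_dev {n r : ℕ} (hr : r ≤ n) {w a : ℕ → ℝ} (hw : ∀ u < n, |a u| ≤ w u) :
    (∑ u ∈ range r, a u - (∑ u ∈ range n, a u) * (∑ u ∈ range r, w u) / ∑ u ∈ range n, w u) ^ 2 ≤
      (∑ u ∈ range n, w u) *
        (∑ u ∈ range n, a u ^ 2 / w u - (∑ u ∈ range n, a u) ^ 2 / ∑ u ∈ range n, w u) := by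
  have hw0 : ∀ u < n, 0 ≤ w u := fun u hu => (abs_nonneg _).trans (hw u hu)
  have ha0 : ∀ u < n, w u = 0 → a u = 0 := fun u hu h => abs_nonpos_iff.1 (h ▸ hw u hu)
  set A := ∑ u ∈ range n, a u with hA
  set W := ∑ u ∈ range n, w u with hW
  have e1 : ∑ u ∈ range r, a u - A * (∑ u ∈ range r, w u) / W =
      ∑ u ∈ range r, (a u - A / W * w u) := by
    rw [sum_sub_distrib, ← mul_sum]; ring
  have e2 : ∑ u ∈ range n, (a u - A / W * w u) ^ 2 / w u =
      ∑ u ∈ range n, a u ^ 2 / w u - A ^ 2 / W := by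
    have e3 : ∀ u ∈ range n, (a u - A / W * w u) ^ 2 / w u =
        a u ^ 2 / w u - 2 * (A / W) * a u + (A / W) ^ 2 * w u := by
      intro u hu
      by_cases h : w u = 0
      · simp [h, ha0 u (mem_range.1 hu) h]
      · field_simp
        ring
    rw [sum_congr rfl e3, sum_add_distrib, sum_sub_distrib, ← mul_sum, ← mul_sum, ← hA, ← hW]
    by_cases h : W = 0
    · simp [h]
    · field_simp
      ring
  have hsub : range r ⊆ range n := range_subset_range.2 hr
  rw [e1, ← e2]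
  refine (sum_sq_le_sum_mul_sum_of_sq_le_mul (range r) (f := w)
    (g := fun u => (a u - A / W * w u) ^ 2 / w u)
    (fun u hu => hw0 u (mem_range.1 (hsub hu)))
    (fun u hu => div_nonneg (sq_nonneg _) (hw0 u (mem_range.1 (hsub hu)))) fun u hu => ?_).trans ?_
  · by_cases h : w u = 0
    · simp [h, ha0 u (mem_range.1 (hsub hu)) h]
    · exact le_of_eq (by field_simp)
  · refine mul_le_mul (sum_le_sum_of_subset_of_nonneg hsub fun u hu _ => hw0 u (mem_range.1 hu))
      (sum_le_sum_of_subset_of_nonneg hsub fun u hu _ =>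
        div_nonneg (sq_nonneg _) (hw0 u (mem_range.1 hu)))
      (sum_nonneg fun u hu => div_nonneg (sq_nonneg _) (hw0 u (mem_range.1 (hsub hu))))
      (sum_nonneg fun u hu => hw0 u (mem_range.1 hu))

theorem cast_dist (a b : ℕ) : ((Nat.dist a b : ℕ) : ℝ) = |(a : ℝ) - b| := by
  rcases le_total a b with h | h
  · rw [Nat.dist_eq_sub_of_le h, Nat.cast_sub h, abs_sub_comm,
      abs_of_nonneg (sub_nonneg.2 (Nat.cast_le.2 h))]
  · rw [Nat.dist_eq_sub_of_le_right h, Nat.cast_sub h,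
      abs_of_nonneg (sub_nonneg.2 (Nat.cast_le.2 h))]

/-- The value of the line functional on the comparator path. -/
theorem line_bound {η w S Sr ψ δ Δ a x : ℝ} (h0 : 0 < η) (h1 : η ≤ 1 / 64) (hw : 0 < w)
    (hSr : 0 ≤ Sr) (hSr' : Sr ≤ S) (hS : 0 < S) (hS' : S ≤ (1 + η) * w) (hψ : |ψ - S| ≤ 2 * η * w)
    (hψ0 : 0 ≤ ψ) (hψ1 : ψ ≤ (1 + η) * w) (hδ : |δ| ≤ w) (hΔ : |Δ - δ| ≤ η * w)
    (ha : |a - Sr| ≤ η * w) (hx : |x - Δ * Sr / S| ≤ η * S + η * w) :
    |ψ * x - δ * a| ≤ 8 * η * w ^ 2 := by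
  have e : ψ * x - δ * a =
      (Δ - δ) * Sr + (ψ - S) * Δ * (Sr / S) + ψ * (x - Δ * Sr / S) - δ * (a - Sr) := by
    field_simp
    ring
  have hηw : 0 < η * w := mul_pos h0 hw
  have hw2 : (1 + η) * w ≤ 65 / 64 * w := mul_le_mul_of_nonneg_right (by linarith) hw.le
  have hΔ' : |Δ| ≤ 65 / 64 * w := by
    have := abs_add_le (Δ - δ) δ
    rw [sub_add_cancel] at this
    nlinarith
  have hl0 : 0 ≤ Sr / S := div_nonneg hSr hS.le
  have hl1 : Sr / S ≤ 1 := (div_le_one hS).2 hSr'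
  have b1 : |(Δ - δ) * Sr| ≤ η * w * (65 / 64 * w) := by
    rw [abs_mul, abs_of_nonneg hSr]
    exact mul_le_mul hΔ (by linarith) hSr hηw.le
  have b2 : |(ψ - S) * Δ * (Sr / S)| ≤ 2 * η * w * (65 / 64 * w) * 1 := by
    rw [abs_mul, abs_mul, abs_of_nonneg hl0]
    exact mul_le_mul (mul_le_mul hψ hΔ' (abs_nonneg _) (by linarith)) hl1 hl0 (by positivity)
  have b3 : |ψ * (x - Δ * Sr / S)| ≤ 65 / 64 * w * (η * (65 / 64 * w) + η * w) := by
    rw [abs_mul, abs_of_nonneg hψ0]
    refine mul_le_mul (by linarith) (hx.trans ?_) (abs_nonneg _) (by positivity)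
    have := mul_le_mul_of_nonneg_left (hS'.trans hw2) h0.le
    linarith
  have b4 : |δ * (a - Sr)| ≤ w * (η * w) := by
    rw [abs_mul]
    exact mul_le_mul hδ ha (abs_nonneg _) hw.le
  have b5 : 0 ≤ η * w ^ 2 := by positivity
  rw [e]
  have t1 := abs_sub ((Δ - δ) * Sr + (ψ - S) * Δ * (Sr / S) + ψ * (x - Δ * Sr / S)) (δ * (a - Sr))
  have t2 := abs_add_le ((Δ - δ) * Sr + (ψ - S) * Δ * (Sr / S)) (ψ * (x - Δ * Sr / S))
  have t3 := abs_add_le ((Δ - δ) * Sr) ((ψ - S) * Δ * (Sr / S))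
  nlinarith

/-- Two points with small values of the line functional are close. -/
theorem line_sep {η w G ψ δ p s s' a a' : ℝ} (h0 : 0 < η) (h1 : η ≤ 1 / 64) (hw : 0 < w)
    (hG : 1 ≤ G) (hψ : (1 - η) * w ≤ ψ) (hδ : G * |δ| ≤ (G - 1) * ψ) (ha : |a - a'| ≤ |s - s'|)
    (hs : |ψ * (s - p) - δ * a| ≤ 8 * η * w ^ 2) (hs' : |ψ * (s' - p) - δ * a'| ≤ 8 * η * w ^ 2) :
    |s - s'| ≤ 20 * (η * w * G) := by
  have hψ0 : 63 / 64 * w ≤ ψ := by nlinarith
  have hψ1 : 0 < ψ := by linarith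
  have e : ψ * (s - s') = (ψ * (s - p) - δ * a) - (ψ * (s' - p) - δ * a') + δ * (a - a') := by ring
  have b1 : ψ * |s - s'| ≤ 16 * η * w ^ 2 + |δ| * |s - s'| := by
    have t1 := abs_add_le ((ψ * (s - p) - δ * a) - (ψ * (s' - p) - δ * a')) (δ * (a - a'))
    have t2 := abs_sub (ψ * (s - p) - δ * a) (ψ * (s' - p) - δ * a')
    rw [← e, abs_mul, abs_of_pos hψ1, abs_mul] at t1
    have t3 := mul_le_mul_of_nonneg_left ha (abs_nonneg δ)
    linarith
  have b2 : ψ * |s - s'| ≤ G * (16 * η * w ^ 2) := by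
    have t1 := mul_le_mul_of_nonneg_left b1 (by linarith : 0 ≤ G)
    have t2 := mul_le_mul_of_nonneg_right hδ (abs_nonneg (s - s'))
    nlinarith
  have b3 : 63 / 64 * w * |s - s'| ≤ G * (16 * η * w ^ 2) :=
    (mul_le_mul_of_nonneg_right hψ0 (abs_nonneg _)).trans b2
  have b4 : 0 ≤ η * w * G := by positivity
  have b5 : w * |s - s'| ≤ w * (20 * (η * w * G)) := by nlinarith
  exact le_of_mul_le_mul_left b5 hw

variable {P : Par} {c : ℕ → ℕ → ℕ} {z : ℕ → ℕ} {d : ℕ} {R D1 : Cell → ℕ}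

theorem abs_dz_le (h : PathOk P c z d) (hR : RefOk P c z R D1) {j i : ℕ} (hn : Node P j i) :
    |dz P z j i| ≤ wh P c z R j i := by
  have h1 := cs_p (P := P) (c := c) (z := z) j i
  have h2 := cs_q (P := P) (c := c) (z := z) j i
  have h3 := hR.dist_le _ (cs_dom h hn)
  have h4 : Nat.dist (z ((i + 1) * P.B ^ j)) (z (i * P.B ^ j)) ≤ wh P c z R j i := by
    unfold wh
    unfold Nat.dist at h3 ⊢
    omega
  unfold dz
  rw [← cast_dist]
  exact_mod_cast h4

theorem dz_prefix (j i r : ℕ) : ∑ u ∈ range r, dz P z (j - 1) (i * P.B + u) =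
    (z ((i * P.B + r) * P.B ^ (j - 1)) : ℝ) - z (i * P.B * P.B ^ (j - 1)) := by
  induction r with
  | zero => simp
  | succ r ih =>
    rw [sum_range_succ, ih]
    unfold dz
    rw [add_assoc (i * P.B) r 1]
    ring

theorem node_lo {j : ℕ} (hj : j ≠ 0) (i : ℕ) : i * P.B * P.B ^ (j - 1) = i * P.B ^ j := by
  simpa using node_mul (P := P) hj i 0

theorem node_hi {j : ℕ} (hj : j ≠ 0) (i : ℕ) :
    (i * P.B + P.B) * P.B ^ (j - 1) = (i + 1) * P.B ^ j := by
  rw [← node_lo hj (i + 1)]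
  ring

theorem dz_child {j : ℕ} (hj : j ≠ 0) (i : ℕ) :
    dz P z j i = ∑ r ∈ range P.B, dz P z (j - 1) (i * P.B + r) := by
  rw [dz_prefix, node_lo hj, node_hi hj]
  rfl

theorem chord_inc (h : PathOk P c z d) (hR : RefOk P c z R D1) {j i : ℕ} (hn : Node P j i)
    (hj : j ≠ 0) {r : ℕ} (hr : r ≤ P.B) :
    (∑ u ∈ range r, dz P z (j - 1) (i * P.B + u) - dz P z j i *
      ((∑ u ∈ range r, wh P c z R (j - 1) (i * P.B + u) : ℕ) : ℝ) / ssum P c z R j i) ^ 2 ≤
      ssum P c z R j i * inc P c z R j i := by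
  have := chord_dev hr (w := fun u => (wh P c z R (j - 1) (i * P.B + u) : ℝ))
    (a := fun u => dz P z (j - 1) (i * P.B + u)) fun u hu => abs_dz_le h hR (hn.child hj hu)
  unfold inc ssum
  rw [dz_child hj]
  push_cast
  exact this

theorem inc_nonneg (h : PathOk P c z d) (hR : RefOk P c z R D1) {j i : ℕ} (hn : Node P j i)
    (hj : j ≠ 0) : 0 ≤ inc P c z R j i := by
  have h1 := (sq_nonneg _).trans (chord_inc h hR hn hj (Nat.zero_le _))
  rcases Nat.eq_zero_or_pos (ssum P c z R j i) with h0 | h0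
  · unfold inc
    rw [h0, Nat.cast_zero, div_zero, sub_zero]
    exact sum_nonneg fun r _ => div_nonneg (sq_nonneg _) (Nat.cast_nonneg _)
  · exact nonneg_of_mul_nonneg_right h1 (by exact_mod_cast h0)

theorem two_wh_le (hP : P.Ok) (hR : RefOk P c z R D1) {j i : ℕ} (hn : Node P j i) :
    2 * wh P c z R j i ≤ 2 ^ kap P c z j i := by
  have h1 := hR.start j i hn
  have h2 := mu_le_kap (P := P) (c := c) (z := z) hn.1 i
  have h3 := gg_le (P := P) (c := c) (z := z) j i
  have h4 : 8 * 2 ^ P.la0 ≤ 2 ^ P.lG := by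
    have := hP.le1
    calc 8 * 2 ^ P.la0 = 2 ^ (P.la0 + 3) := by ring
      _ ≤ _ := Nat.pow_le_pow_right two_pos (by unfold Par.lG Par.la1; omega)
  have h5 : 2 ≤ 2 ^ P.la0 := by
    have h6 : 1 ≤ P.lb * P.ha := Nat.mul_pos hP.lb1 (Nat.succ_pos _)
    calc 2 = 2 ^ 1 := rfl
      _ ≤ _ := Nat.pow_le_pow_right two_pos (by unfold Par.la0; omega)
  have h6 : 2 ^ P.la1 = 4 * 2 ^ P.la0 := by unfold Par.la1; ring
  have h7 := (Nat.mul_le_mul_right (gg P c z j i) h4).trans h3
  have h8 := Nat.mul_le_mul_right (gg P c z j i) h5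
  rw [h6, mul_assoc] at h2
  rw [mul_assoc] at h7
  rw [mul_add] at h1
  unfold wh
  omega

theorem dist_le_phi {val : Cell → ℕ} {e : Cell} {r : ℕ}
    (h : ∀ r' < r, ∀ c' ∈ kids P e r', Nat.dist c'.p c'.q ≤ val c') (s : ℕ) :
    Nat.dist e.p s ≤ phi P val e r s := by
  induction r generalizing s with
  | zero => rw [phi_zero]
  | succ r ih =>
    obtain ⟨c', h1, h2⟩ := phi_succ_ex (P := P) val e r s
    have h3 := ih (fun r' hr => h r' (by omega)) c'.p
    have h4 := h r (Nat.lt_succ_self r) c' h1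
    rw [h2]
    unfold Nat.dist at *
    omega

/-- The rounding error at the boundary point number `r`. -/
def cg (P : Par) (c : ℕ → ℕ → ℕ) (z : ℕ → ℕ) (j i r : ℕ) : ℕ :=
  if r = 0 then gg P c z j i else gg P c z (j - 1) (i * P.B + (r - 1))

theorem cg_le {j i r : ℕ} (hn : Node P j i) (hj : j ≠ 0) (hr : r ≤ P.B) :
    cg P c z j i r ≤ gg P c z j i := by
  unfold cg
  split_ifs with h
  · exact le_rfl
  · exact gg_child hn hj (by omega)

theorem cy_bd {j : ℕ} (hj : j ≠ 0) (i r : ℕ) :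
    cy P c z j i r ≤ z ((i * P.B + r) * P.B ^ (j - 1)) ∧
      z ((i * P.B + r) * P.B ^ (j - 1)) ≤ cy P c z j i r + cg P c z j i r := by
  unfold cy cg
  split_ifs with h
  · subst h
    rw [add_zero, node_lo hj]
    exact cs_p j i
  · have := cs_q (P := P) (c := c) (z := z) (j - 1) (i * P.B + (r - 1))
    rwa [show i * P.B + (r - 1) + 1 = i * P.B + r by omega] at this

theorem phi_cy_mono {j i : ℕ} (hn : Node P j i) (hj : j ≠ 0) (R : Cell → ℕ) {r r' : ℕ}
    (hr : r ≤ r') (hr' : r' ≤ P.B) :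
    phi P R (cs P c z j i) r' (cy P c z j i r') + cg P c z j i r' +
        ∑ u ∈ range r, wh P c z R (j - 1) (i * P.B + u) ≤
      phi P R (cs P c z j i) r (cy P c z j i r) + cg P c z j i r +
        ∑ u ∈ range r', wh P c z R (j - 1) (i * P.B + u) := by
  induction r', hr using Nat.le_induction with
  | base => exact le_rfl
  | succ r' hr ih =>
    have h1 := ih (by omega)
    have h2 := phi_succ_le R (cs_mem_kids (c := c) (z := z) hn hj (r := r') (by omega))
      (cy P c z j i (r' + 1))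
    have h3 := phi_lip (P := P) R (cs P c z j i) r' (cs P c z (j - 1) (i * P.B + r')).p
      (cy P c z j i r')
    have h4 := cy_bd (P := P) (c := c) (z := z) hj i r'
    have h5 := cs_p (P := P) (c := c) (z := z) (j - 1) (i * P.B + r')
    have e1 : cy P c z j i (r' + 1) = (cs P c z (j - 1) (i * P.B + r')).q := by simp [cy]
    have e2 : cg P c z j i (r' + 1) = gg P c z (j - 1) (i * P.B + r') := by simp [cg]
    rw [e1, Nat.dist_self] at h2
    rw [sum_range_succ, e1, e2]
    unfold Nat.dist at h3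
    unfold wh at h1 ⊢
    omega

/-- The errors of a good node are at most `u ≤ η w`. -/
theorem good_err (hR : RefOk P c z R D1) {j i : ℕ} (hn : Node P j i) (hG : Good P c z R D1 j i) :
    ∃ u : ℕ, 2 ^ P.leta * u ≤ R (cs P c z j i) ∧ gg P c z j i ≤ u ∧
      ssum P c z R j i ≤ R (cs P c z j i) + u ∧
      phi P R (cs P c z j i) P.B (cs P c z j i).q ≤ R (cs P c z j i) + u ∧
      R (cs P c z j i) ≤ phi P R (cs P c z j i) P.B (cs P c z j i).q + u ∧
      phi P R (cs P c z j i) P.B (cs P c z j i).q ≤ ssum P c z R j i + 2 * u ∧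
      ssum P c z R j i ≤ phi P R (cs P c z j i) P.B (cs P c z j i).q + u ∧
      ∀ r ≤ P.B, Nat.dist (phi P R (cs P c z j i) r (cy P c z j i r))
        (∑ u ∈ range r, wh P c z R (j - 1) (i * P.B + u)) ≤ u := by
  have hj := hG.j0
  have a1 := hR.mono j i hn
  have a2 := hR.dp j i hn hj
  have a3 := phi_lip (P := P) R (cs P c z j i) P.B (cs P c z j i).q (cy P c z j i P.B)
  have a4 := cy_bd (P := P) (c := c) (z := z) hj i P.B
  rw [node_hi hj] at a4
  have a5 := cs_q (P := P) (c := c) (z := z) j i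
  have a6 := cg_le (c := c) (z := z) hn hj (le_refl P.B)
  have a7 := phi_cy_mono (c := c) (z := z) hn hj R (Nat.zero_le P.B) le_rfl
  have e0 : phi P R (cs P c z j i) 0 (cy P c z j i 0) = 0 := by simp [phi_zero, cy]
  have e1 : cg P c z j i 0 = gg P c z j i := by simp [cg]
  rw [e0, e1, sum_range_zero] at a7
  unfold Nat.dist at a3
  refine ⟨max (ssum P c z R j i + 2 * gg P c z j i - D1 (cs P c z j i))
    (max (R (cs P c z j i) - D1 (cs P c z j i)) (gg P c z j i)), ?_, by omega, ?_, ?_, ?_, ?_, ?_,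
    fun r hr => ?_⟩
  · rw [mul_max, mul_max]
    exact max_le hG.gap (max_le hG.drop hG.grid)
  · omega
  · unfold ssum; omega
  · omega
  · unfold ssum; omega
  · omega
  · have b1 := phi_cy_mono (c := c) (z := z) hn hj R (Nat.zero_le r) hr
    have b2 := phi_cy_mono (c := c) (z := z) hn hj R hr le_rfl
    have b3 := cg_le (c := c) (z := z) hn hj hr
    rw [e0, e1, sum_range_zero] at b1
    unfold ssum Nat.dist
    omega

theorem st_min (R : Cell → ℕ) {e : Cell} {r y : ℕ} (h0 : r ≠ 0) (hB : r < P.B)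
    (hy : y ∈ (kids P e (r - 1)).map fun c => c.q) :
    Nat.dist (phi P R e P.B e.q * st P R e r + e.p * phi P R e r (st P R e r))
        (phi P R e P.B e.q * e.p + e.q * phi P R e r (st P R e r)) ≤
      Nat.dist (phi P R e P.B e.q * y + e.p * phi P R e r y)
        (phi P R e P.B e.q * e.p + e.q * phi P R e r y) := by
  unfold st
  rw [if_neg h0, if_neg (by omega)]
  exact argL_le 0 (fun s => Nat.dist (phi P R e P.B e.q * s + e.p * phi P R e r s)
    (phi P R e P.B e.q * e.p + e.q * phi P R e r s)) hy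

theorem leta_eq (P : Par) : 2 ^ P.leta = 2 ^ (P.h3 + 6) * P.gd := by
  unfold Par.leta Par.gd; ring

/-- The predicted positions are close to the comparator path. -/
theorem good_st (h : PathOk P c z d) (hR : RefOk P c z R D1) {j i : ℕ}
    (hn : Node P j i) (hG : Good P c z R D1 j i) {r : ℕ} (hr : r ≤ P.B) :
    2 ^ (P.h3 + 6) * Nat.dist (st P R (cs P c z j i) r) (cy P c z j i r) ≤
      20 * R (cs P c z j i) := by
  have hj := hG.j0
  obtain ⟨u, u1, u2, u3, u4, u5, u6, u7, u8⟩ := good_err hR hn hG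
  have hgd : 1 ≤ P.gd := Nat.one_le_two_pow
  have u0 : 2 ^ (P.h3 + 6) * u ≤ R (cs P c z j i) := by
    refine le_trans (Nat.mul_le_mul_right _ ?_) u1
    rw [leta_eq]
    exact Nat.le_mul_of_pos_right _ hgd
  by_cases h0 : r = 0
  · subst h0
    simp [st_zero, cy]
  have c1 := cy_bd (P := P) (c := c) (z := z) hj i r
  have c2 := cg_le (c := c) (z := z) hn hj hr
  have c3 := cs_p (P := P) (c := c) (z := z) j i
  have c4 := cs_q (P := P) (c := c) (z := z) j i
  by_cases hB : r = P.B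
  · subst hB
    rw [node_hi hj] at c1
    rw [st_last]
    refine le_trans (Nat.mul_le_mul_left _ (?_ : _ ≤ u)) (by omega)
    unfold Nat.dist
    omega
  have hmem : cy P c z j i r ∈ (kids P (cs P c z j i) (r - 1)).map fun c => c.q := by
    refine List.mem_map.2 ⟨_, cs_mem_kids (c := c) (z := z) hn hj (r := r - 1) (by omega), ?_⟩
    simp [cy, h0]
  have hmin := st_min R h0 (by omega) hmem
  have hl1 := phi_lip (P := P) R (cs P c z j i) r (st P R (cs P c z j i) r) (cy P c z j i r)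
  have hl2 := phi_lip (P := P) R (cs P c z j i) r (cy P c z j i r) (st P R (cs P c z j i) r)
  have hch := chord_inc h hR hn hj hr
  rw [dz_prefix, node_lo hj] at hch
  have hinc := hG.inc
  have hsl := hG.slope
  have hdl := hR.dist_le _ (cs_dom h hn)
  have hw0 := hG.w0
  have u9 := u8 r hr
  have hSr : ∑ u ∈ range r, wh P c z R (j - 1) (i * P.B + u) ≤ ssum P c z R j i :=
    sum_le_sum_of_subset (range_subset_range.2 hr)
  have hdz : dz P z j i = (z ((i + 1) * P.B ^ j) : ℝ) - z (i * P.B ^ j) := rfl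
  have hE := leta_eq P
  have hE64 : 64 ≤ 2 ^ P.leta := by
    calc 64 = 2 ^ 6 := rfl
      _ ≤ _ := Nat.pow_le_pow_right two_pos (by unfold Par.leta; omega)
  rw [two_mul P.leta, pow_add] at hinc
  have hEr : (2 : ℝ) ^ P.leta = ((2 ^ P.leta : ℕ) : ℝ) := by push_cast; rfl
  rw [hEr] at hinc
  generalize 2 ^ P.leta = E at u1 hE hE64 hinc
  generalize 2 ^ (P.h3 + 6) = N at u0 hE ⊢
  generalize st P R (cs P c z j i) r = s at hmin hl1 hl2 ⊢
  generalize phi P R (cs P c z j i) r s = a at hmin hl1 hl2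
  generalize phi P R (cs P c z j i) r (cy P c z j i r) = a' at hmin hl1 hl2 u9
  generalize cy P c z j i r = y at hmin hl1 hl2 c1 ⊢
  generalize ∑ u ∈ range r, wh P c z R (j - 1) (i * P.B + u) = Sr at hch u9 hSr
  generalize phi P R (cs P c z j i) P.B (cs P c z j i).q = ψ at hmin hsl u4 u5 u6 u7
  generalize R (cs P c z j i) = w at u0 u1 u3 u4 u5 hdl hw0 ⊢
  generalize (cs P c z j i).p = p at hmin hsl hdl c3
  generalize (cs P c z j i).q = q at hmin hsl hdl c4
  generalize ssum P c z R j i = S at hch hinc hSr u3 u6 u7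
  generalize inc P c z R j i = I at hch hinc
  generalize dz P z j i = Δ at hch hdz
  generalize z ((i * P.B + r) * P.B ^ (j - 1)) = zr at hch c1
  generalize z (i * P.B ^ j) = z0 at hch hdz c3
  generalize z ((i + 1) * P.B ^ j) = z1 at hdz c4
  have hE0 : (64 : ℝ) ≤ E := by exact_mod_cast hE64
  have hEp : (0 : ℝ) < E := by linarith
  have hη0 : (0 : ℝ) < 1 / E := by positivity
  have hη1 : (1 : ℝ) / E ≤ 1 / 64 := one_div_le_one_div_of_le (by norm_num) hE0
  have hwr : (0 : ℝ) < w := by exact_mod_cast hw0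
  have hu : (u : ℝ) ≤ 1 / E * w := by
    rw [one_div_mul_eq_div, le_div_iff₀ hEp, mul_comm]
    exact_mod_cast u1
  have hS0 : 0 < S := by
    have := (Nat.mul_le_mul_right u hE64).trans u1
    omega
  have hSp : (0 : ℝ) < S := by exact_mod_cast hS0
  have r3 : (S : ℝ) ≤ w + u := by exact_mod_cast u3
  have r4 : (ψ : ℝ) ≤ w + u := by exact_mod_cast u4
  have r5 : (w : ℝ) ≤ ψ + u := by exact_mod_cast u5
  have r6 : (ψ : ℝ) ≤ S + 2 * u := by exact_mod_cast u6
  have r7 : (S : ℝ) ≤ ψ + u := by exact_mod_cast u7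
  have ru : (0 : ℝ) ≤ u := Nat.cast_nonneg u
  have r8 : |(a' : ℝ) - Sr| ≤ u := by rw [← cast_dist]; exact_mod_cast u9
  have r9 : |(q : ℝ) - p| ≤ w := by rw [abs_sub_comm, ← cast_dist]; exact_mod_cast hdl
  have s1 : (p : ℝ) ≤ z0 := by exact_mod_cast c3.1
  have s2 : (z0 : ℝ) ≤ p + u := by exact_mod_cast (by omega : z0 ≤ p + u)
  have s3 : (q : ℝ) ≤ z1 := by exact_mod_cast c4.1
  have s4 : (z1 : ℝ) ≤ q + u := by exact_mod_cast (by omega : z1 ≤ q + u)
  have s5 : (y : ℝ) ≤ zr := by exact_mod_cast c1.1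
  have s6 : (zr : ℝ) ≤ y + u := by exact_mod_cast (by omega : zr ≤ y + u)
  have t1 : |(zr : ℝ) - z0 - Δ * Sr / S| ≤ 1 / E * S := by
    refine abs_le_of_sq_le_sq (hch.trans ?_) (by positivity)
    have : I ≤ S / (E * E) := by rw [le_div_iff₀ (by positivity), mul_comm]; exact hinc
    calc (S : ℝ) * I ≤ S * (S / (E * E)) := mul_le_mul_of_nonneg_left this hSp.le
      _ = _ := by field_simp
  have t2 : |(ψ : ℝ) * (y - p) - (q - p) * a'| ≤ 8 * (1 / E) * w ^ 2 := by
    refine line_bound (S := S) (Sr := Sr) (Δ := Δ) hη0 hη1 hwr (Nat.cast_nonneg _)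
      (by exact_mod_cast hSr) hSp (by linarith) (abs_le.2 ⟨by linarith, by linarith⟩)
      (Nat.cast_nonneg _) (by linarith) r9 (abs_le.2 ⟨by linarith, by linarith⟩)
      (r8.trans hu) ?_
    have := abs_le.1 t1
    exact abs_le.2 ⟨by linarith, by linarith⟩
  have t3 : |(ψ : ℝ) * (s - p) - (q - p) * a| ≤ 8 * (1 / E) * w ^ 2 := by
    refine le_trans ?_ t2
    have := (Nat.cast_le (α := ℝ)).2 hmin
    rw [cast_dist, cast_dist] at this
    push_cast at this
    rw [show (ψ : ℝ) * (s - p) - (q - p) * a = ψ * s + p * a - (ψ * p + q * a) by ring,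
      show (ψ : ℝ) * (y - p) - (q - p) * a' = ψ * y + p * a' - (ψ * p + q * a') by ring]
    exact this
  have t4 : |(a : ℝ) - a'| ≤ |(s : ℝ) - y| := by
    rw [← cast_dist, ← cast_dist]
    refine Nat.cast_le.2 ?_
    unfold Nat.dist at hl1 hl2 ⊢
    omega
  have t5 : (P.gd : ℝ) * |(q : ℝ) - p| ≤ (P.gd - 1) * ψ := by
    have := (Nat.cast_le (α := ℝ)).2 hsl
    rw [Nat.cast_mul, Nat.cast_mul, Nat.cast_sub hgd, cast_dist, abs_sub_comm] at this
    simpa using this
  have t6 := line_sep hη0 hη1 hwr (by exact_mod_cast hgd) (by linarith) t5 t4 t3 t2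
  rw [← cast_dist] at t6
  have hEN : (E : ℝ) = N * P.gd := by exact_mod_cast hE
  have hgp : (0 : ℝ) < P.gd := by exact_mod_cast hgd
  have hNp : (0 : ℝ) < N := (mul_pos_iff_of_pos_right hgp).1 (hEN ▸ hEp)
  have t7 : (N : ℝ) * (Nat.dist s y : ℕ) ≤ 20 * w := by
    refine (mul_le_mul_of_nonneg_left t6 hNp.le).trans (le_of_eq ?_)
    rw [hEN]
    field_simp
  exact_mod_cast t7

/-- The prediction lemma. -/
theorem good_line (hP : P.Ok) (h : PathOk P c z d) (hR : RefOk P c z R D1) {j i : ℕ}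
    (hn : Node P j i) (hG : Good P c z R D1 j i) :
    (∀ r < P.B, cs P c z (j - 1) (i * P.B + r) ∈ tube P R (cs P c z j i) r) ∧
    (∑ r ∈ range P.B, wt P R (cs P c z j i) r ≤
      P.BK * R (cs P c z j i) + 3 * (P.B * R (cs P c z j i))) ∧
    (∀ r < P.B, Nat.dist (st P R (cs P c z j i) r) (cs P c z j i).p ≤ 2 * R (cs P c z j i)) ∧
    ∀ r < P.B, wt P R (cs P c z j i) r ≤
      P.BK * wh P c z R (j - 1) (i * P.B + r) + 2 * R (cs P c z j i) := by
  have hj := hG.j0
  obtain ⟨u, u1, u2, u3, -, -, -, -, u8⟩ := good_err hR hn hG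
  have hgd : 1 ≤ P.gd := Nat.one_le_two_pow
  have u0 : 2 ^ (P.h3 + 6) * u ≤ R (cs P c z j i) := by
    refine le_trans (Nat.mul_le_mul_right _ ?_) u1
    rw [leta_eq]
    exact Nat.le_mul_of_pos_right _ hgd
  have hK4 : 4 ≤ P.K := by
    have := hP.hK
    calc 4 = 2 ^ 2 := rfl
      _ ≤ _ := Nat.pow_le_pow_right two_pos (by omega)
  have hBK : P.BK = P.B * P.K := by unfold Par.BK Par.h2 Par.B Par.K; ring
  have hN : 2 ^ (P.h3 + 6) = 64 * (P.K * P.BK) := by
    unfold Par.BK Par.h2 Par.h3 Par.K; ring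
  have hN1 : 2 ^ (P.h3 + 6) = 32 * 2 ^ (P.h3 + 1) := by ring
  have hB1 : 1 ≤ P.B := Nat.one_le_two_pow
  have hBK1 : 1 ≤ P.BK := Nat.one_le_two_pow
  have hN2 : 64 * P.BK ≤ 2 ^ (P.h3 + 6) := by
    rw [hN]
    exact Nat.mul_le_mul_left _ (Nat.le_mul_of_pos_left _ (by omega))
  have v0 : 64 * (P.BK * u) ≤ R (cs P c z j i) := by
    rw [← mul_assoc]
    exact (Nat.mul_le_mul_right _ hN2).trans u0
  have v1 : ∀ r ≤ P.B, 64 * (P.BK * Nat.dist (st P R (cs P c z j i) r) (cy P c z j i r)) ≤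
      20 * R (cs P c z j i) := by
    intro r hr
    rw [← mul_assoc]
    exact (Nat.mul_le_mul_right _ hN2).trans (good_st h hR hn hG hr)
  have v2 : ∀ r ≤ P.B, P.BK * phi P R (cs P c z j i) r (st P R (cs P c z j i) r) ≤
        P.BK * ∑ u ∈ range r, wh P c z R (j - 1) (i * P.B + u) +
          (P.BK * u + P.BK * Nat.dist (st P R (cs P c z j i) r) (cy P c z j i r)) ∧
      P.BK * ∑ u ∈ range r, wh P c z R (j - 1) (i * P.B + u) ≤
        P.BK * phi P R (cs P c z j i) r (st P R (cs P c z j i) r) +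
          (P.BK * u + P.BK * Nat.dist (st P R (cs P c z j i) r) (cy P c z j i r)) := by
    intro r hr
    have hl1 := phi_lip (P := P) R (cs P c z j i) r (st P R (cs P c z j i) r) (cy P c z j i r)
    have hl2 := phi_lip (P := P) R (cs P c z j i) r (cy P c z j i r) (st P R (cs P c z j i) r)
    have hl3 := u8 r hr
    rw [Nat.dist_comm] at hl1
    rw [← mul_add, ← mul_add, ← mul_add]
    generalize Nat.dist (st P R (cs P c z j i) r) (cy P c z j i r) = t at hl1 hl2
    unfold Nat.dist at hl3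
    exact ⟨Nat.mul_le_mul_left _ (by omega), Nat.mul_le_mul_left _ (by omega)⟩
  have hwt : ∀ r < P.B, P.BK * wh P c z R (j - 1) (i * P.B + r) ≤ wt P R (cs P c z j i) r ∧
      wt P R (cs P c z j i) r ≤
        P.BK * wh P c z R (j - 1) (i * P.B + r) + 2 * R (cs P c z j i) := by
    intro r hr
    have a1 := v1 r hr.le
    have a2 := v1 (r + 1) hr
    have a3 := v2 r hr.le
    have a4 := v2 (r + 1) hr
    rw [sum_range_succ, mul_add] at a4
    unfold wt
    rw [Nat.mul_sub]
    omega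
  refine ⟨fun r hr => ?_, ?_, fun r hr => ?_, fun r hr => (hwt r hr).2⟩
  · have hc := hn.child hj hr
    have a1 := hwt r hr
    have a2 : P.BK * R (cs P c z (j - 1) (i * P.B + r)) ≤ wt P R (cs P c z j i) r :=
      (Nat.mul_le_mul_left _ (Nat.le_add_right _ _)).trans a1.1
    refine mem_tube.2 ⟨cs_mem_kids hn hj hr, ?_, ?_, ?_, a2,
      (Nat.mul_le_mul_left _ (hR.dist_le _ (cs_dom h hc))).trans a2⟩
    · refine (Nat.clog_le_iff_le_pow (by norm_num)).2 ?_
      have b1 := Nat.mul_le_mul_left P.BK (two_wh_le hP hR hc)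
      have b2 := two_wh_le hP hR hn
      have b3 : 2 ^ kap P c z j i ≤ 2 * (P.B * 2 ^ kap P c z (j - 1) (i * P.B + r)) := by
        calc _ ≤ 2 ^ (kap P c z (j - 1) (i * P.B + r) + P.h) :=
              Nat.pow_le_pow_right two_pos (kap_child hn hj hr).2
          _ = _ := by unfold Par.h Par.B; ring
      have b4 : 4 * (P.B * 2 ^ kap P c z (j - 1) (i * P.B + r)) ≤
          P.BK * 2 ^ kap P c z (j - 1) (i * P.B + r) := by
        rw [hBK, ← mul_assoc, mul_comm 4]
        exact Nat.mul_le_mul_right _ (Nat.mul_le_mul_left _ hK4)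
      have b5 : 2 ^ ((cs P c z (j - 1) (i * P.B + r)).ka + P.h2) =
          P.BK * 2 ^ kap P c z (j - 1) (i * P.B + r) := by
        rw [pow_add, mul_comm]; rfl
      rw [b5]
      rw [mul_left_comm] at b1
      unfold wh at b2
      omega
    · unfold rad
      refine (Nat.le_div_iff_mul_le (Nat.two_pow_pos _)).2 ?_
      have b1 := good_st h hR hn hG hr.le
      have b2 := cy_bd (P := P) (c := c) (z := z) hj i r
      have b3 := cg_le (c := c) (z := z) hn hj hr.le
      have b4 := cs_p (P := P) (c := c) (z := z) (j - 1) (i * P.B + r)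
      have b5 := gg_child (c := c) (z := z) hn hj hr
      have b6 : Nat.dist (cs P c z (j - 1) (i * P.B + r)).p (st P R (cs P c z j i) r) ≤
          u + Nat.dist (st P R (cs P c z j i) r) (cy P c z j i r) := by
        unfold Nat.dist; omega
      have b7 := Nat.mul_le_mul_left (2 ^ (P.h3 + 1)) b6
      rw [hN1, mul_assoc] at b1 u0
      rw [mul_add] at b7
      rw [mul_comm]
      omega
    · unfold rad
      refine (Nat.le_div_iff_mul_le (Nat.two_pow_pos _)).2 ?_
      have b1 := good_st h hR hn hG (r := r + 1) hr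
      have e1 : cy P c z j i (r + 1) = (cs P c z (j - 1) (i * P.B + r)).q := by simp [cy]
      rw [hN1, mul_assoc, e1, Nat.dist_comm] at b1
      rw [mul_comm]
      omega
  · refine (sum_le_sum fun r hr => (hwt r (mem_range.1 hr)).2).trans ?_
    rw [sum_add_distrib, ← mul_sum, sum_const, card_range, smul_eq_mul]
    have b1 : P.BK * ssum P c z R j i ≤ P.BK * R (cs P c z j i) + P.BK * u := by
      rw [← mul_add]; exact Nat.mul_le_mul_left _ u3
    have b2 : R (cs P c z j i) ≤ P.B * R (cs P c z j i) := Nat.le_mul_of_pos_left _ hB1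
    unfold ssum at b1
    rw [mul_left_comm]
    omega
  · have b1 := dist_le_phi (P := P) (val := R) (e := cs P c z j i) (r := r)
      (fun r' hr' c' hc' => hR.dist_le _ ((cs_dom h hn).kids hj (by omega) hc'))
      (st P R (cs P c z j i) r)
    have b2 := phi_lip (P := P) R (cs P c z j i) r (st P R (cs P c z j i) r) (cy P c z j i r)
    have b3 := u8 r hr.le
    have b4 : ∑ u ∈ range r, wh P c z R (j - 1) (i * P.B + u) ≤ ssum P c z R j i :=
      sum_le_sum_of_subset (range_subset_range.2 hr.le)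
    have b5 := v1 r hr.le
    have b6 : u ≤ P.BK * u := Nat.le_mul_of_pos_left _ hBK1
    have b7 : Nat.dist (st P R (cs P c z j i) r) (cy P c z j i r) ≤
        P.BK * Nat.dist (st P R (cs P c z j i) r) (cy P c z j i r) := Nat.le_mul_of_pos_left _ hBK1
    rw [Nat.dist_comm] at b1 b2
    generalize Nat.dist (st P R (cs P c z j i) r) (cy P c z j i r) = t at b2 b5 b7
    generalize Nat.dist (st P R (cs P c z j i) r) (cs P c z j i).p = t' at b1 ⊢
    unfold Nat.dist at b3
    omega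

theorem dress_child {j i r : ℕ} (hn : Node P j i) (hG : Good P c z R D1 j i) (hr : r < P.B) :
    dress P c z R D1 (j - 1) (i * P.B + r) = ta P R (cs P c z j i) r := by
  have hj := hG.j0
  have hk := hn.1
  have e1 : j - 1 + 1 = j := by omega
  have e2 : (i * P.B + r) / P.B = i := by
    rw [add_comm, Nat.add_mul_div_right _ _ (by omega), Nat.div_eq_of_lt hr, zero_add]
  have e3 : (i * P.B + r) % P.B = r := by
    rw [add_comm, Nat.add_mul_mod_self_right, Nat.mod_eq_of_lt hr]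
  unfold dress
  rw [e1, e2, e3, if_pos ⟨by omega, hG⟩]

/-- The two cases of the dress. -/
theorem dress_cases (hP : P.Ok) (h : PathOk P c z d) (hR : RefOk P c z R D1) {j i : ℕ}
    (hn : Node P j i) : dress P c z R D1 j i = Nat.clog 2 (P.BK * R (cs P c z j i)) ∨
      (j < P.k ∧ ∃ W, dress P c z R D1 j i = Nat.clog 2 W ∧
        dress P c z R D1 j i ≤ (cs P c z j i).ka + P.h2 ∧ P.BK * R (cs P c z j i) ≤ W ∧
        W ≤ P.BK * wh P c z R j i + 2 * R (cs P c z (j + 1) (i / P.B))) := by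
  unfold dress
  split_ifs with hc
  · right
    have hB : 0 < P.B := Nat.two_pow_pos _
    obtain ⟨a1, -, -, a4⟩ := good_line hP h hR (hn.parent hc.1) hc.2
    have b1 := a1 _ (Nat.mod_lt i hB)
    have b4 := a4 _ (Nat.mod_lt i hB)
    rw [Nat.add_sub_cancel, Nat.div_add_mod'] at b1 b4
    obtain ⟨-, b2, -, -, b3, -⟩ := mem_tube.1 b1
    exact ⟨hc.1, _, rfl, b2, b3, b4⟩
  · exact Or.inl rfl

theorem dress_le (hP : P.Ok) (h : PathOk P c z d) (hR : RefOk P c z R D1) {j i : ℕ}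
    (hn : Node P j i) : dress P c z R D1 j i ≤ (cs P c z j i).ka + P.h2 := by
  rcases dress_cases hP h hR hn with e | ⟨-, W, -, a, -⟩
  · rw [e]
    refine (Nat.clog_le_iff_le_pow (by norm_num)).2 ?_
    have b2 := two_wh_le hP hR hn
    rw [pow_add, mul_comm (2 ^ _)]
    refine Nat.mul_le_mul_left _ ?_
    unfold wh at b2
    show _ ≤ 2 ^ kap P c z j i
    omega
  · exact a

theorem fine_adm (hP : P.Ok) (h : PathOk P c z d) (hR : RefOk P c z R D1) {j i : ℕ}
    (hn : Node P j i) (hF : Fine P c z R D1 j i) :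
    adm P R (cs P c z j i) (dress P c z R D1 j i) = true := by
  obtain ⟨a1, a2, a3, -⟩ := good_line hP h hR hn hF.1
  refine adm_iff.2 ⟨hF.1.j0, hF.2, ?_, a2, a3, fun r hr => List.ne_nil_of_mem (a1 r hr)⟩
  rcases dress_cases hP h hR hn with e | ⟨-, W, e, -, a, -⟩
  · rw [e]
    exact Nat.le_pow_clog (by norm_num) _
  · rw [e]
    exact a.trans (Nat.le_pow_clog (by norm_num) _)

theorem two_pow_clog_le {x : ℕ} (hx : 0 < x) : 2 ^ Nat.clog 2 x ≤ 2 * x := by
  by_cases h : x = 1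
  · subst h; simp
  · have h1 := Nat.pow_pred_clog_lt_self (b := 2) (by norm_num) (x := x) (by omega)
    have h2 := Nat.clog_pos (b := 2) (n := x) (by norm_num) (by omega)
    obtain ⟨k, hk⟩ := Nat.exists_eq_succ_of_ne_zero h2.ne'
    rw [hk] at h1 ⊢
    rw [Nat.pred_succ] at h1
    rw [pow_succ]
    omega

/-- Light nodes. -/
theorem light_le (hP : P.Ok) (h : PathOk P c z d) (hR : RefOk P c z R D1) {j i : ℕ}
    (hn : Node P j i) (hw : 0 < R (cs P c z j i))
    (hl : 8 * (P.BK * R (cs P c z j i)) < 2 ^ dress P c z R D1 j i) :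
    j < P.k ∧ P.BK * R (cs P c z j i) ≤
      P.BK * gg P c z j i + R (cs P c z (j + 1) (i / P.B)) := by
  have h0 : 0 < P.BK * R (cs P c z j i) := Nat.mul_pos (Nat.two_pow_pos _) hw
  rcases dress_cases hP h hR hn with e | ⟨hj, W, e, -, a, b⟩
  · have := two_pow_clog_le h0
    rw [e] at hl
    omega
  · have := two_pow_clog_le (x := W) (by omega)
    rw [e] at hl
    unfold wh at b
    rw [mul_add, mul_left_comm] at b
    exact ⟨hj, by omega⟩

end Vale.Agent.P315Z
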