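import Vale.Agent.P315Z.Pt0a

/-! P315Z: polynomial time of the generic list functions, the dynamic programme, the estimator,
the learner and the lookups. -/

set_option autoImplicit false

namespace Vale.Agent.P315Z

open Vale.Agent.Lib.PolyTime Vale.Agent.P315.H155

variable {α β γ : Type} [Enc α] [Enc β] [Enc γ]

/-! ### Ranges with the index in unary -/

/-- The numbers below `n` in unary. -/
def urange (n : ℕ) : List Un := (List.range n).map Un.mk

theorem range_eq_urange (n : ℕ) : List.range n = (urange n).map Un.v := by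
  simp [urange, Function.comp_def]

@[fun_prop]
theorem PT_urange {n : α → ℕ} (hn : PT ∅ n) (hb : PBd n) : PT ∅ (fun a => urange (n a)) := by
  have h : PT ∅ (fun a => (List.range (n a)).map fun i => Un.mk (min i (n a))) :=
    PT.map (PT.range hn hb) (PT.mkUn (PT.min PT.snd' (hn.comp PT.fst'))
      (PBd_min_right (hb.comp (A := ∅) PT.fst')))
  refine h.congr fun a => List.map_congr_left fun i hi => ?_
  rw [min_eq_left (List.mem_range.1 hi).le]

theorem PT_map_range {n : α → ℕ} {f : α → ℕ → β} (hn : PT ∅ n) (hb : PBd n)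
    (hf : PT ∅ fun p : α × Un => f p.1 p.2.v) :
    PT ∅ (fun a => (List.range (n a)).map (f a)) :=
  (PT.map (f := fun a u => f a u.v) (PT_urange hn hb) hf).congr fun a => by
    rw [range_eq_urange, List.map_map]; rfl

theorem PT_flatMap_range {n : α → ℕ} {f : α → ℕ → List β} (hn : PT ∅ n) (hb : PBd n)
    (hf : PT ∅ fun p : α × Un => f p.1 p.2.v) :
    PT ∅ (fun a => (List.range (n a)).flatMap (f a)) :=
  (PT.flatMap (f := fun a u => f a u.v) (PT_urange hn hb) hf).congr fun a => by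
    rw [range_eq_urange, List.flatMap_map]

theorem PT_all_range {n : α → ℕ} {f : α → ℕ → Bool} (hn : PT ∅ n) (hb : PBd n)
    (hf : PT ∅ fun p : α × Un => f p.1 p.2.v) :
    PT ∅ (fun a => (List.range (n a)).all (f a)) :=
  (PT.all (f := fun a u => f a u.v) (PT_urange hn hb) hf).congr fun a => by
    rw [range_eq_urange, List.all_map]; rfl

theorem PT_filter_range {n : α → ℕ} {f : α → ℕ → Bool} (hn : PT ∅ n) (hb : PBd n)
    (hf : PT ∅ fun p : α × Un => f p.1 p.2.v) :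
    PT ∅ (fun a => (List.range (n a)).filter (f a)) :=
  (PT.map (f := fun _ u => u.v) (PT.filter (f := fun a u => f a u.v) (PT_urange hn hb) hf)
    PT.snd'.unVal).congr fun a => by
    rw [range_eq_urange, List.filter_map]; rfl

theorem PT_map_filter_range {n : α → ℕ} {f : α → ℕ → Bool} {g : α → ℕ → β} (hn : PT ∅ n)
    (hb : PBd n) (hf : PT ∅ fun p : α × Un => f p.1 p.2.v)
    (hg : PT ∅ fun p : α × Un => g p.1 p.2.v) :
    PT ∅ (fun a => ((List.range (n a)).filter (f a)).map (g a)) :=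
  (PT.map (f := fun a u => g a u.v) (PT.filter (f := fun a u => f a u.v) (PT_urange hn hb) hf)
    hg).congr fun a => by
    rw [range_eq_urange, List.filter_map, List.map_map]; rfl

/-! ### Minima and maxima -/

@[fun_prop]
theorem PT_minL {l : α → List ℕ} (hl : PT ∅ l) : PT ∅ (fun a => minL (l a)) := by
  unfold minL; fun_prop

@[fun_prop]
theorem PT_argL {l : α → List β} {d : α → β} {f : α → β → ℕ} (hl : PT ∅ l) (hd : PT ∅ d)
    (hf : PT ∅ fun p : α × β => f p.1 p.2) : PT ∅ (fun a => argL (l a) (d a) (f a)) := by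
  unfold argL
  refine PT.getD hl (PT_argminN (f := fun a i => f a ((l a).getD i (d a))) hl.length
    (PBd.length hl) ?_) hd
  exact hf.comp (PT.fst'.pair (PT.getD (hl.comp PT.fst') PT.snd' (hd.comp PT.fst')))

theorem pt0_foldl_max_le (l : List ℕ) (d : ℕ) : l.foldl max d ≤ d + l.sum := by
  induction l generalizing d with
  | nil => simp
  | cons x l ih =>
    rw [List.foldl_cons, List.sum_cons]
    have := ih (max d x)
    omega

@[fun_prop]
theorem PT_foldl_max {l : α → List ℕ} {d : α → ℕ} (hl : PT ∅ l) (hd : PT ∅ d) :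
    PT ∅ (fun a => (l a).foldl max (d a)) := by
  refine PT.foldl (f := fun _ s x => max s x) hl hd (PT.max PT.snd'.fst PT.snd'.snd)
    (hd.add hl.sum).pbd fun a i => esize_nat_mono ((pt0_foldl_max_le _ _).trans ?_)
  exact Nat.add_le_add_left ((List.take_sublist i (l a)).sum_le_sum fun _ _ => Nat.zero_le _) _

/-- The longest of polynomially many lists. -/
@[fun_prop]
theorem PBd_foldl_max_length {l : α → List γ} {f : α → γ → List β} {d : α → ℕ} (hl : PT ∅ l)
    (hf : PT ∅ fun p : α × γ => f p.1 p.2) (hd : PBd d) :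
    PBd (fun a => ((l a).map fun r => (f a r).length).foldl max (d a)) := by
  refine (hd.add (PBd.length (PT.flatMap hl hf))).mono fun a => ?_
  rw [List.length_flatMap]
  exact pt0_foldl_max_le _ _

/-- The same with the index in unary. -/
theorem PBd_foldl_max_length_range {n : α → ℕ} {f : α → ℕ → List β} {d : α → ℕ} (hn : PT ∅ n)
    (hb : PBd n) (hf : PT ∅ fun p : α × Un => f p.1 p.2.v) (hd : PBd d) :
    PBd (fun a => ((List.range (n a)).map fun r => (f a r).length).foldl max (d a)) := by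
  refine (hd.add (PBd.length (PT_flatMap_range hn hb hf))).mono fun a => ?_
  rw [List.length_flatMap]
  exact pt0_foldl_max_le _ _

/-! ### Removal of duplicates -/

theorem PT_dedup [DecidableEq β] (heq : PT ∅ fun p : β × β => decide (p.1 = p.2))
    {l : α → List β} (hl : PT ∅ l) : PT ∅ (fun a => (l a).dedup) := by
  have key : ∀ l : List β, l.foldr (fun x s => if x ∈ s then s else x :: s) [] = l.dedup := by
    intro l
    induction l with
    | nil => rfl
    | cons x l ih => rw [List.foldr_cons, ih, List.dedup_cons']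
  refine (PT.foldr (f := fun _ x s => if x ∈ s then s else x :: s) hl (PT.const [])
    (PT.ite (PT.mem' heq PT.snd'.snd PT.snd'.fst) PT.snd'.snd (PT.cons PT.snd'.fst PT.snd'.snd))
    hl.pbd fun a i => ?_).congr fun a => key _
  rw [key]
  exact (esize_le_of_sublist (List.dedup_sublist _)).trans (esize_drop_le _ _)

@[fun_prop]
theorem PT_dedupKey {l : α → List Key} (hl : PT ∅ l) : PT ∅ (fun a => (l a).dedup) :=
  PT_dedup (PT_keyEq PT.fst' PT.snd') hl

@[fun_prop]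
theorem PT_dedupCellNat {l : α → List (Cell × ℕ)} (hl : PT ∅ l) :
    PT ∅ (fun a => (l a).dedup) :=
  PT_dedup (PT_decEqPair (PT_cellEq PT.fst' PT.snd') (PT.eqNat PT.fst' PT.snd')) hl

/-- A list of pairs whose second components are polynomially bounded, with these in unary. -/
theorem PT_toUn {l : α → List (β × ℕ)} {M : α → ℕ} (hl : PT ∅ l) (hM : PBd M)
    (h : ∀ a, ∀ b ∈ l a, b.2 ≤ M a) :
    PT ∅ (fun a => (l a).map fun b => (b.1, Un.mk b.2)) := by
  obtain ⟨M', h1, h2, h3⟩ := PBd_exists_PT hM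
  have h4 : PT ∅ (fun a => (l a).map fun b => (b.1, Un.mk (min b.2 (M' a)))) :=
    PT.map hl (PT.snd'.fst.pair (PT.mkUn (PT.min PT.snd'.snd (h1.comp PT.fst'))
      (PBd_min_right (h2.comp (A := ∅) PT.fst'))))
  refine h4.congr fun a => List.map_congr_left fun b hb => ?_
  rw [min_eq_left ((h a b hb).trans (h3 a))]

/-- If the list with unary second components is computable then so is its version for the list
without duplicates. -/
theorem PT_toUn_dedup [DecidableEq β] (heq : PT ∅ fun p : β × β => decide (p.1 = p.2))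
    {l : α → List (β × ℕ)} (hl : PT ∅ fun a => (l a).map fun b => (b.1, Un.mk b.2)) :
    PT ∅ (fun a => (l a).dedup.map fun b => (b.1, Un.mk b.2)) := by
  have h1 : PT ∅ l := (PT.map (f := fun _ b => (b.1, b.2.v)) hl
    (PT.snd'.fst.pair PT.snd'.snd.unVal)).congr fun a => by simp [Function.comp_def]
  refine PT_toUn (PT_dedup (PT_decEqPair heq (PT.eqNat PT.fst' PT.snd')) h1) hl.pbd
    fun a b hb => ?_
  have h2 : (b.1, Un.mk b.2) ∈ (l a).map fun b => (b.1, Un.mk b.2) :=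
    List.mem_map_of_mem (List.mem_dedup.1 hb)
  have h3 := esize_le_of_mem h2
  rw [esize_pair, esize_un] at h3
  simp only at h3
  omega

/-- `flatMap` over a list of pairs, second component in unary. -/
theorem PT_flatMap_toUn {l : α → List (β × ℕ)} {f : α → β → ℕ → List γ}
    (hl : PT ∅ fun a => (l a).map fun b => (b.1, Un.mk b.2))
    (hf : PT ∅ fun p : α × β × Un => f p.1 p.2.1 p.2.2.v) :
    PT ∅ (fun a => (l a).flatMap fun b => f a b.1 b.2) :=
  (PT.flatMap (f := fun a b => f a b.1 b.2.v) hl hf).congr fun a => by rw [List.flatMap_map]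

/-- `map` over a list of pairs, second component in unary. -/
theorem PT_map_toUn {l : α → List (β × ℕ)} {f : α → β → ℕ → γ}
    (hl : PT ∅ fun a => (l a).map fun b => (b.1, Un.mk b.2))
    (hf : PT ∅ fun p : α × β × Un => f p.1 p.2.1 p.2.2.v) :
    PT ∅ (fun a => (l a).map fun b => f a b.1 b.2) :=
  (PT.map (f := fun a b => f a b.1 b.2.v) hl hf).congr fun a => by rw [List.map_map]; rfl

/-- The keys of a list of boxes. -/
theorem PT_qBox {T : α → ℕ} {l : α → List (Cell × ℕ)} (hT : PT ∅ T) (hTb : PBd T)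
    (hl : PT ∅ fun a => (l a).map fun b => (b.1, Un.mk b.2)) :
    PT ∅ (fun a => qBox (T a) (l a)) := by
  unfold qBox
  refine PT_flatMap_toUn (f := fun a c t => [kD (T a) c, kH (T a) c t]) hl ?_
  have h1 : PT ∅ fun p : α × Cell × Un => T p.1 := hT.comp PT.fst'
  have h2 : PBd fun p : α × Cell × Un => T p.1 := hTb.comp (A := ∅) PT.fst'
  exact PT.cons (PT_kD h1 h2 PT.snd'.fst) (PT.cons (PT_kH h1 h2 PT.snd'.fst PT.snd'.snd.unVal
    (PBd.unVal (A := ∅) PT.snd'.snd)) (PT.const []))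

/-! ### The dynamic programme -/

@[fun_prop]
theorem PT_ev {tab : α → List (ℕ × ℕ)} {s : α → ℕ} (ht : PT ∅ tab) (hs : PT ∅ s) :
    PT ∅ (fun a => ev (tab a) (s a)) := by
  unfold ev; fun_prop

@[fun_prop]
theorem PT_dpStep {tab : α → List (ℕ × ℕ)} {row : α → List (ℕ × ℕ × ℕ)} (ht : PT ∅ tab)
    (hr : PT ∅ row) : PT ∅ (fun a => dpStep (tab a) (row a)) := by
  unfold dpStep; fun_prop

theorem pt0_ev_le {tab : List (ℕ × ℕ)} {M C s : ℕ} (h : ∀ a ∈ tab, a.1 ≤ M ∧ a.2 ≤ C)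
    (hs : s ≤ M) : ev tab s ≤ C + M := by
  unfold ev minL
  refine (minD_le_default _ _).trans ?_
  cases tab with
  | nil => simp
  | cons a tab =>
    have := h a List.mem_cons_self
    simp only [List.map_cons, List.headD_cons, Nat.dist]
    omega

theorem pt0_dp_inv {M L : ℕ} (rows : List (List (ℕ × ℕ × ℕ)))
    (hr : ∀ row ∈ rows, row.length ≤ L ∧ ∀ c ∈ row, c.1 ≤ M ∧ c.2.1 ≤ M ∧ c.2.2 ≤ M)
    (tab : List (ℕ × ℕ)) (C : ℕ) (hl : tab.length ≤ L) (ht : ∀ a ∈ tab, a.1 ≤ M ∧ a.2 ≤ C) :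
    (rows.foldl dpStep tab).length ≤ L ∧
      ∀ a ∈ rows.foldl dpStep tab, a.1 ≤ M ∧ a.2 ≤ C + 2 * M * rows.length := by
  induction rows generalizing tab C with
  | nil => exact ⟨hl, by simpa using ht⟩
  | cons row rows ih =>
    rw [List.foldl_cons, List.length_cons]
    have h1 := hr row List.mem_cons_self
    have h2 := ih (fun r hr' => hr r (List.mem_cons_of_mem _ hr')) (dpStep tab row) (C + 2 * M)
      (by simpa [dpStep] using h1.1) (by
        intro a ha
        obtain ⟨c, hc, rfl⟩ := List.mem_map.1 ha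
        have h3 := h1.2 c hc
        have h4 := pt0_ev_le ht h3.1
        exact ⟨h3.2.1, by simp only; omega⟩)
    refine ⟨h2.1, fun a ha => ⟨(h2.2 a ha).1, (h2.2 a ha).2.trans (le_of_eq (by ring))⟩⟩

@[fun_prop]
theorem PT_dpTab {p : α → ℕ} {rows : α → List (List (ℕ × ℕ × ℕ))} (hp : PT ∅ p)
    (hr : PT ∅ rows) : PT ∅ (fun a => dpTab (p a) (rows a)) := by
  unfold dpTab
  have hs : PBd fun a => esize (p a) + esize (rows a) := hp.pbd.add hr.pbd
  refine PT.foldl (f := fun _ t r => dpStep t r) hr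
    (PT.cons (hp.pair (PT.const 0)) (PT.const [])) (PT_dpStep PT.snd'.fst PT.snd'.snd)
    (b := fun a => ((esize (p a) + esize (rows a)) + 1) *
      (2 * (4 * (esize (p a) + esize (rows a)) + 6) + 1)) (by fun_prop) fun a i => ?_
  set s := esize (p a) + esize (rows a) with hsdef
  have hM : ∀ x : ℕ, esize x ≤ s → x ≤ 2 ^ s := fun x hx =>
    (lt_two_pow_esize x).le.trans (Nat.pow_le_pow_right (by norm_num) hx)
  have h1 := pt0_dp_inv (M := 2 ^ s) (L := s + 1) ((rows a).take i) (by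
    intro row hrow
    have h2 : esize row ≤ esize (rows a) := esize_le_of_mem (List.mem_of_mem_take hrow)
    refine ⟨by have := length_le_esize row; omega, fun c hc => ?_⟩
    have h3 : esize c ≤ esize row := esize_le_of_mem hc
    have h4 := esize_fst_le c
    have h5 := esize_snd_le c
    have h6 := esize_fst_le c.2
    have h7 := esize_snd_le c.2
    exact ⟨hM _ (by omega), hM _ (by omega), hM _ (by omega)⟩) [(p a, 0)] 0 (by simp) (by
    intro x hx
    rw [List.mem_singleton.1 hx]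
    exact ⟨hM _ (by simp only; omega), le_rfl⟩)
  have hlen : ((rows a).take i).length ≤ s := by
    have := length_le_esize ((rows a).take i)
    have := esize_take_le i (rows a)
    omega
  refine (esize_list_le (B := 4 * s + 6) fun x hx => ?_).trans
    (Nat.mul_le_mul_right _ h1.1)
  obtain ⟨h2, h3⟩ := h1.2 x hx
  have h4 : esize x.1 ≤ s + 1 := esize_nat_le (by rw [pow_succ]; have := Nat.two_pow_pos s; omega)
  have h5 : esize x.2 ≤ 2 * s + 2 := by
    refine esize_nat_le ?_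
    have h6 : s < 2 ^ s := Nat.lt_two_pow_self
    have h7 : 2 ^ (2 * s + 2) = 2 * 2 ^ s * (2 * 2 ^ s) := by ring
    have h8 : 2 * 2 ^ s * ((rows a).take i).length < 2 * 2 ^ s * (2 * 2 ^ s) :=
      Nat.mul_lt_mul_of_pos_left (by omega) (by positivity)
    omega
  have h9 : esize x = 2 * esize x.1 + esize x.2 + 1 := esize_pair x.1 x.2
  omega

/-! ### The estimator -/

/-- Both indices of the oracle in unary. -/
theorem PT_strat {n L B : α → ℕ} {sd : α → ℕ → ℕ} {y : α → ℕ → ℕ → ℕ} (hn : PT ∅ n)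
    (hnb : PBd fun a => 2 ^ n a) (hL : PT ∅ L) (hLb : PBd L) (hB : PT ∅ B) (hBb : PBd B)
    (hB0 : ∀ a, 0 < B a) (hsd : PT ∅ fun p : α × ℕ => sd p.1 p.2)
    (hy : PT ∅ fun p : α × Un × Un => y p.1 p.2.1.v p.2.2.v) :
    PT ∅ (fun a => strat (n a) (L a) (B a) (sd a) (y a)) := by
  unfold strat
  have hn' : PBd n := hnb.mono fun a => Nat.lt_two_pow_self.le
  have h2 : PT ∅ fun a => 2 ^ n a := PT.pow (PT.const 2) hn hn'
  refine PT.sum (PT.map (PT.range h2 hnb) (PT.sum (PT_map_range (α := α × ℕ)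
    (f := fun p l => if p.2 * 2 ^ l < 2 ^ n p.1 then 2 ^ l * y p.1 l (sd p.1 p.2 % B p.1) else 0)
    (hL.comp PT.fst') (hLb.comp (A := ∅) PT.fst') ?_)))
  have e1 : PT ∅ fun q : (α × ℕ) × Un => 2 ^ q.2.v :=
    PT.pow (PT.const 2) PT.snd'.unVal (PBd.unVal (A := ∅) PT.snd')
  have e2 : PT ∅ fun q : (α × ℕ) × Un => Un.mk (sd q.1.1 q.1.2 % B q.1.1) :=
    PT.mkUn (PT.mod (hsd.comp PT.fst') (hB.comp PT.fst'.fst))
      (PBd_mod_pos (hBb.comp (A := ∅) PT.fst'.fst) fun q => hB0 _)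
  exact PT.ite (PT.lt (PT.mul PT.fst'.snd e1) (h2.comp PT.fst'.fst))
    (PT.mul e1 (hy.comp (PT.fst'.fst.pair (PT.snd'.pair e2)))) (PT.const 0)

@[fun_prop]
theorem PT_strat_B {n L : α → ℕ} {P : α → Par} {sd : α → ℕ → ℕ} {y : α → ℕ → ℕ → ℕ}
    (hn : PT ∅ n) (hnb : PBd fun a => 2 ^ n a) (hL : PT ∅ L) (hLb : PBd L) (hP : PT ∅ P)
    (hsd : PT ∅ fun p : α × ℕ => sd p.1 p.2)
    (hy : PT ∅ fun p : α × Un × Un => y p.1 p.2.1.v p.2.2.v) :
    PT ∅ (fun a => strat (n a) (L a) (P a).B (sd a) (y a)) :=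
  PT_strat hn hnb hL hLb (PT_B hP) (PBd_B hP) (fun a => pt0_B_pos (P a)) hsd hy

@[fun_prop]
theorem PT_strat_ar {n L j : α → ℕ} {P : α → Par} {sd : α → ℕ → ℕ} {y : α → ℕ → ℕ → ℕ}
    (hn : PT ∅ n) (hnb : PBd fun a => 2 ^ n a) (hL : PT ∅ L) (hLb : PBd L) (hP : PT ∅ P)
    (hj : PT ∅ j) (hsd : PT ∅ fun p : α × ℕ => sd p.1 p.2)
    (hy : PT ∅ fun p : α × Un × Un => y p.1 p.2.1.v p.2.2.v) :
    PT ∅ (fun a => strat (n a) (L a) (ar (P a) (j a)) (sd a) (y a)) :=
  PT_strat hn hnb hL hLb (PT_ar hP hj) (PBd_ar hP) (fun a => pt0_ar_pos (P a) (j a)) hsd hy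

/-! ### Tables, paths, lanes -/

@[fun_prop]
theorem PT_tab3 {rows nn : α → ℕ} {f : α → ℕ → ℕ → ℕ → ℕ} (hr : PT ∅ rows) (hrb : PBd rows)
    (hn : PT ∅ nn) (hnb : PBd nn)
    (hf : PT ∅ fun p : α × Un × ℕ × ℕ => f p.1 p.2.1.v p.2.2.1 p.2.2.2) :
    PT ∅ (fun a => tab3 (rows a) (nn a) (f a)) := by
  unfold tab3
  refine PT_map_range hr hrb (PT.map (PT.range (hn.comp PT.fst') (hnb.comp (A := ∅) PT.fst'))
    (PT.map (PT.range (hn.comp PT.fst'.fst) (hnb.comp (A := ∅) PT.fst'.fst)) ?_))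
  exact hf.comp (PT.fst'.fst.fst.pair (PT.fst'.fst.snd.pair (PT.fst'.snd.pair PT.snd')))

@[fun_prop]
theorem PT_pcost {rows : α → ℕ} {f : α → ℕ → ℕ → ℕ → ℕ} {g : α → ℕ → ℕ} (hr : PT ∅ rows)
    (hrb : PBd rows) (hf : PT ∅ fun p : α × Un × ℕ × ℕ => f p.1 p.2.1.v p.2.2.1 p.2.2.2)
    (hg : PT ∅ fun p : α × ℕ => g p.1 p.2) :
    PT ∅ (fun a => pcost (rows a) (f a) (g a)) := by
  unfold pcost
  refine PT.sum (PT_map_range hr hrb ?_)
  exact hf.comp (PT.fst'.pair (PT.snd'.pair ((hg.comp (PT.fst'.pair PT.snd'.unVal)).pair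
    (hg.comp (PT.fst'.pair (PT.add PT.snd'.unVal (PT.const 1)))))))

@[fun_prop]
theorem PT_lanes {l1 rows nn c0 capd gd Am t : α → ℕ} {W : α → ℕ → ℕ}
    {M U : α → ℕ → ℕ → ℕ → ℕ → ℕ} (hl : PT ∅ l1) (hlb : PBd fun a => 2 ^ (4 * l1 a))
    (hr : PT ∅ rows) (hrb : PBd rows) (hn : PT ∅ nn) (hnb : PBd nn) (hc : PT ∅ c0)
    (hcap : PT ∅ capd) (hg : PT ∅ gd) (hA : PT ∅ Am) (ht : PT ∅ t) (htb : PBd t)
    (hW : PT ∅ fun p : α × Un => W p.1 p.2.v)
    (hM : PT ∅ fun p : α × ℕ × Un × ℕ × ℕ => M p.1 p.2.1 p.2.2.1.v p.2.2.2.1 p.2.2.2.2)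
    (hU : PT ∅ fun p : α × ℕ × Un × ℕ × ℕ => U p.1 p.2.1 p.2.2.1.v p.2.2.2.1 p.2.2.2.2) :
    PT ∅ (fun a => lanes (l1 a) (rows a) (nn a) (c0 a) (capd a) (gd a) (Am a) (W a) (M a) (U a)
      (t a)) := by
  unfold lanes
  have hl' : PBd l1 := hlb.mono fun a => by
    have : 4 * l1 a < 2 ^ (4 * l1 a) := Nat.lt_two_pow_self
    omega
  have h12 : PT ∅ fun a => 2 ^ (12 * l1 a) :=
    PT.pow (PT.const 2) (PT.mul (PT.const 12) hl) ((PBd.const 12).mul hl')
  have h4 : PT ∅ fun a => 2 ^ (4 * l1 a) :=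
    PT.pow (PT.const 2) (PT.mul (PT.const 4) hl) ((PBd.const 4).mul hl')
  refine P315.H763.pt_picksW h12 (hg.mul hg) h4 hlb hA (PT.const 0) (PT.const 0) h4 hlb
    (PT_tab3 hr hrb hn hnb ?_) (PT_tab3 hr hrb hn hnb (hW.comp (PT.fst'.pair PT.snd'.fst)))
  have e1 : PT ∅ fun p : α × Un × ℕ × ℕ => p.1 := PT.fst'
  refine PT.mul (PT.mul (PT.mul (h12.comp e1) (hcap.comp e1)) (hc.comp e1))
    (PT.add (PT.mul (PT.add (hg.comp e1) (PT.const 1))
      (hM.comp (e1.pair ((ht.comp e1).pair PT.snd'))))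
      (PT.sum (PT.map (PT.range (ht.comp e1) (htb.comp e1)) ?_)))
  have e2 : PT ∅ fun q : (α × Un × ℕ × ℕ) × ℕ => (q.1.1, q.2, q.1.2) :=
    PT.fst'.fst.pair (PT.snd'.pair PT.fst'.snd)
  exact PT.add (hM.comp e2) (PT.mul (hg.comp PT.fst'.fst) (hU.comp e2))

@[fun_prop]
theorem PT_leafc {c : α → ℕ → ℕ → ℕ} {i p q : α → ℕ}
    (hc : PT ∅ fun x : α × ℕ × ℕ => c x.1 x.2.1 x.2.2) (hi : PT ∅ i) (hp : PT ∅ p)
    (hq : PT ∅ q) : PT ∅ (fun a => leafc (c a) (i a) (p a) (q a)) := by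
  unfold leafc
  have h : PT ∅ fun a => c a (i a) (p a) := hc.comp (PT.id.pair (hi.pair hp))
  exact PT.min (h.add (PT_dist hp hq)) ((PT.const 1).add (PT_dist (hp.sub (PT.const 1)) hq))

/-! ### Lookups; all numbers in binary -/

theorem PT_look_of {l : α → List (Key × List ℕ)} {k : α → Key} (hl : PT ∅ l)
    (hk : PT ∅ fun p : α × Key × List ℕ => decide (p.2.1 = k p.1)) :
    PT ∅ (fun a => look (l a) (k a)) := by
  unfold look
  exact PT.optGetD (PT_optMap (g := fun _ b => b.2)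
    (PT.find? (f := fun a p => decide (p.1 = k a)) hl hk) PT.snd'.snd) (PT.const [])

theorem PT_lookKey {l : α → List (Key × List ℕ)} {k : α → Key} (hl : PT ∅ l) (hk : PT ∅ k) :
    PT ∅ (fun a => look (l a) (k a)) :=
  PT_look_of hl (PT_keyEq PT.snd'.fst (hk.comp PT.fst'))

theorem PT_look_mk {l : α → List (Key × List ℕ)} {tag T ta : α → ℕ} {c : α → Cell} (hl : PT ∅ l)
    (htag : PT ∅ tag) (hT : PT ∅ T) (hc : PT ∅ c) (hta : PT ∅ ta) :
    PT ∅ (fun a => look (l a) (Key.mk (tag a) (T a) (c a) (ta a))) :=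
  PT_look_of hl (PT_keyEq_mk PT.snd'.fst (htag.comp PT.fst') (hT.comp PT.fst')
    (PT_cellEq (PT_Key_c PT.snd'.fst) (hc.comp PT.fst')) (hta.comp PT.fst'))

@[fun_prop]
theorem PT_look_kB {l : α → List (Key × List ℕ)} {i p : α → ℕ} (hl : PT ∅ l) (hi : PT ∅ i)
    (hp : PT ∅ p) : PT ∅ (fun a => look (l a) (kB (i a) (p a))) :=
  PT_lookKey hl (PT_kB hi hp)

@[fun_prop]
theorem PT_look_kA {l : α → List (Key × List ℕ)} {j i s b : α → ℕ} (hl : PT ∅ l) (hj : PT ∅ j)
    (hi : PT ∅ i) (hs : PT ∅ s) (hb : PT ∅ b) :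
    PT ∅ (fun a => look (l a) (kA (j a) (i a) (s a) (b a))) :=
  PT_look_of hl (PT_keyEq_mk PT.snd'.fst (PT.const 1) (PT.const 0)
    (PT_cellEq_mk (PT_Key_c PT.snd'.fst) (hj.comp PT.fst') (hi.comp PT.fst') (PT.const 0)
      (PT.const 0) (hb.comp PT.fst') (PT.const 0)) (hs.comp PT.fst'))

@[fun_prop]
theorem PT_look_kD {l : α → List (Key × List ℕ)} {T : α → ℕ} {c : α → Cell} (hl : PT ∅ l)
    (hT : PT ∅ T) (hc : PT ∅ c) : PT ∅ (fun a => look (l a) (kD (T a) (c a))) :=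
  PT_look_mk hl (PT.const 2) hT hc (PT.const 0)

@[fun_prop]
theorem PT_look_kH {l : α → List (Key × List ℕ)} {T t : α → ℕ} {c : α → Cell} (hl : PT ∅ l)
    (hT : PT ∅ T) (hc : PT ∅ c) (ht : PT ∅ t) :
    PT ∅ (fun a => look (l a) (kH (T a) (c a) (t a))) :=
  PT_look_mk hl (PT.const 3) hT hc ht

@[fun_prop]
theorem PT_look_kU {l : α → List (Key × List ℕ)} {T t : α → ℕ} {c : α → Cell} (hl : PT ∅ l)
    (hT : PT ∅ T) (hc : PT ∅ c) (ht : PT ∅ t) :
    PT ∅ (fun a => look (l a) (kU (T a) (c a) (t a))) :=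
  PT_look_mk hl (PT.const 4) hT hc ht

@[fun_prop]
theorem PT_oc {l : α → List (Key × List ℕ)} {i p : α → ℕ} (hl : PT ∅ l) (hi : PT ∅ i)
    (hp : PT ∅ p) : PT ∅ (fun a => oc (look (l a)) (i a) (p a)) :=
  PT.headD (PT_look_kB hl hi hp) (PT.const 0)

@[fun_prop]
theorem PT_oA {l : α → List (Key × List ℕ)} {j i s b : α → ℕ} (hl : PT ∅ l) (hj : PT ∅ j)
    (hi : PT ∅ i) (hs : PT ∅ s) (hb : PT ∅ b) :
    PT ∅ (fun a => oA (look (l a)) (j a) (i a) (s a) (b a)) :=
  PT_look_kA hl hj hi hs hb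

@[fun_prop]
theorem PT_oD {l : α → List (Key × List ℕ)} {T : α → ℕ} {c : α → Cell} (hl : PT ∅ l)
    (hT : PT ∅ T) (hc : PT ∅ c) : PT ∅ (fun a => oD (look (l a)) (T a) (c a)) :=
  PT.headD (PT_look_kD hl hT hc) (PT.const 0)

@[fun_prop]
theorem PT_oH {l : α → List (Key × List ℕ)} {T t : α → ℕ} {c : α → Cell} (hl : PT ∅ l)
    (hT : PT ∅ T) (hc : PT ∅ c) (ht : PT ∅ t) :
    PT ∅ (fun a => oH (look (l a)) (T a) (c a) (t a)) :=
  PT.headD (PT_look_kH hl hT hc ht) (PT.const 0)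

@[fun_prop]
theorem PT_oU {l : α → List (Key × List ℕ)} {T t : α → ℕ} {c : α → Cell} (hl : PT ∅ l)
    (hT : PT ∅ T) (hc : PT ∅ c) (ht : PT ∅ t) :
    PT ∅ (fun a => oU (look (l a)) (T a) (c a) (t a)) :=
  PT.headD (PT_look_kU hl hT hc ht) (PT.const 0)

end Vale.Agent.P315Z
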