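import Vale.Agent.P315Z.Num
import Vale.Agent.P315Z.Pt0b

/-! P315Z: polynomial time of the basic functions (fields, constructors, generic list functions),
in the compositional form used by `fun_prop`. -/

set_option autoImplicit false

namespace Vale.Agent.P315Z

open Vale.Agent.Lib.PolyTime

/-- The parameters read off the feed `lx, ly, seeds`. -/
def parF (f : List ℕ) : Par × List ℕ :=
  (if (par (f.getD 0 0) (f.getD 1 0)).NS ≤ f.length then par (f.getD 0 0) (f.getD 1 0)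
    else ⟨0, 0, 0, 0, 0, 0, 0, 0, 0, 0, 0, 0, 0, 0⟩, f.drop 2)

namespace Pt0

open Vale.Agent.P315.H155

variable {α : Type} [Enc α]

@[fun_prop]
theorem PT_lg1 {f : α → ℕ} (hf : PT ∅ f) : PT ∅ (fun a => lg1 (f a)) := by
  unfold lg1; fun_prop

@[fun_prop]
theorem PBd_lg1 {f : α → ℕ} (hf : PT ∅ f) : PBd (fun a => lg1 (f a)) := by
  unfold lg1; fun_prop

@[fun_prop]
theorem PT_lg2 {f : α → ℕ} (hf : PT ∅ f) : PT ∅ (fun a => lg2 (f a)) := by
  unfold lg2; fun_prop

@[fun_prop]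
theorem PBd_lg2 {f : α → ℕ} (hf : PT ∅ f) : PBd (fun a => lg2 (f a)) := by
  unfold lg2; fun_prop

@[fun_prop]
theorem PT_lg3 {f : α → ℕ} (hf : PT ∅ f) : PT ∅ (fun a => lg3 (f a)) := by
  unfold lg3; fun_prop

@[fun_prop]
theorem PBd_lg3 {f : α → ℕ} (hf : PT ∅ f) : PBd (fun a => lg3 (f a)) := by
  unfold lg3; fun_prop

@[fun_prop]
theorem PBd_pow_lg3 {f : α → ℕ} (hf : PT ∅ f) : PBd (fun a => 2 ^ lg3 (f a)) :=
  (((PBd.const 2).mul (PBd_lg2 hf)).add (PBd.const 1)).mono fun a =>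
    P315.H527.pow_clog_le le_rfl (lg2 (f a))

/-- All fields are computable, the exponents and the length of an epoch are small. -/
structure FG (P : α → Par) : Prop where
  lx : PT ∅ fun a => (P a).lx
  ly : PT ∅ fun a => (P a).ly
  lb : PT ∅ fun a => (P a).lb
  blb : PBd fun a => (P a).lb
  k : PT ∅ fun a => (P a).k
  bk : PBd fun a => (P a).k
  lg : PT ∅ fun a => (P a).lg
  blg : PBd fun a => (P a).lg
  lc : PT ∅ fun a => (P a).lc
  blc : PBd fun a => (P a).lc
  lK : PT ∅ fun a => (P a).lK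
  blK : PBd fun a => (P a).lK
  lS : PT ∅ fun a => (P a).lS
  blS : PBd fun a => (P a).lS
  lm : PT ∅ fun a => (P a).lm
  blm : PBd fun a => (P a).lm
  ne : PT ∅ fun a => (P a).ne
  bne : PBd fun a => (P a).ne
  hA : PT ∅ fun a => (P a).hA
  bhA : PBd fun a => (P a).hA
  dl : PT ∅ fun a => (P a).dl
  bdl : PBd fun a => (P a).dl
  le : PT ∅ fun a => (P a).le
  ble : PBd fun a => (P a).le
  lA : PT ∅ fun a => (P a).lA
  blA : PBd fun a => (P a).lA
  bm : PBd fun a => (P a).m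

theorem fg_par {x y : α → ℕ} (hx : PT ∅ x) (hy : PT ∅ y) : FG fun a => par (x a) (y a) where
  lx := hx
  ly := hy
  lb := by simp only [par]; fun_prop
  blb := by simp only [par]; fun_prop
  k := by simp only [par]; fun_prop
  bk := by simp only [par]; fun_prop
  lg := by simp only [par]; fun_prop
  blg := by simp only [par]; fun_prop
  lc := by simp only [par]; fun_prop
  blc := by simp only [par]; fun_prop
  lK := by simp only [par]; fun_prop
  blK := by simp only [par]; fun_prop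
  lS := by simp only [par]; fun_prop
  blS := by simp only [par]; fun_prop
  lm := by simp only [par]; fun_prop
  blm := by simp only [par]; fun_prop
  ne := by simp only [par]; fun_prop
  bne := by simp only [par]; fun_prop
  hA := by simp only [par]; fun_prop
  bhA := by simp only [par]; fun_prop
  dl := by simp only [par]; fun_prop
  bdl := by simp only [par]; fun_prop
  le := by simp only [par]; fun_prop
  ble := by simp only [par]; fun_prop
  lA := by simp only [par]; fun_prop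
  blA := by simp only [par]; fun_prop
  bm := by
    have h : PBd fun a => lg1 (max (x a) (y a)) /
        (lg3 (max (x a) (y a)) * lg3 (max (x a) (y a))) + 1 := by fun_prop
    refine h.mono fun a => ?_
    simp only [Par.m, par]
    exact (Nat.pow_le_pow_right (by norm_num) (Nat.sub_le _ _)).trans
      (Nat.pow_log_le_self 2 (Nat.succ_ne_zero _))

variable {P : α → Par}

theorem FG.lN (h : FG P) : PT ∅ fun a => (P a).lN := by
  obtain ⟨_, _, _, _, _, _, _, _, _, _, _, _, _, _, _, _, _, _, _, _, _, _, _, _, _, _, _⟩ := h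
  simp only [Par.lN, Par.nH, Par.nA, Par.l1, Par.lnn, Par.lG, Par.la1, Par.la0, Par.ha]
  fun_prop

theorem FG.blN (h : FG P) : PBd fun a => (P a).lN := by
  obtain ⟨_, _, _, _, _, _, _, _, _, _, _, _, _, _, _, _, _, _, _, _, _, _, _, _, _, _, _⟩ := h
  simp only [Par.lN, Par.nH, Par.nA, Par.l1, Par.lnn, Par.lG, Par.la1, Par.la0, Par.ha]
  fun_prop

theorem FG.lE (h : FG P) : PT ∅ fun a => (P a).lE := by
  obtain ⟨_, _, _, _, _, _, _, _, _, _, _, _, _, _, _, _, _, _, _, _, _, _, _, _, _, _, _⟩ := h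
  simp only [Par.lE, Par.l1, Par.lnn, Par.lG, Par.la1, Par.la0, Par.ha]
  fun_prop

theorem FG.blE (h : FG P) : PBd fun a => (P a).lE := by
  obtain ⟨_, _, _, _, _, _, _, _, _, _, _, _, _, _, _, _, _, _, _, _, _, _, _, _, _, _, _⟩ := h
  simp only [Par.lE, Par.l1, Par.lnn, Par.lG, Par.la1, Par.la0, Par.ha]
  fun_prop

theorem FG.nb (h : FG P) : PT ∅ fun a => (P a).nb := by
  obtain ⟨_, _, _, _, _, _, _, _, _, _, _, _, _, _, _, _, _, _, _, _, _, _, _, _, _, _, _⟩ := h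
  simp only [Par.nb]
  fun_prop

theorem FG.lL (h : FG P) : PT ∅ fun a => (P a).lL := by
  obtain ⟨_, _, _, _, _, _, _, _, _, _, _, _, _, _, _, _, _, _, _, _, _, _, _, _, _, _, _⟩ := h
  simp only [Par.lL, Par.h, Par.h2]
  fun_prop

theorem FG.blL (h : FG P) : PBd fun a => (P a).lL := by
  obtain ⟨_, _, _, _, _, _, _, _, _, _, _, _, _, _, _, _, _, _, _, _, _, _, _, _, _, _, _⟩ := h
  simp only [Par.lL, Par.h, Par.h2]
  fun_prop

theorem FG.LA (h : FG P) : PT ∅ fun a => (P a).LA := by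
  obtain ⟨_, _, _, _, _, _, _, _, _, _, _, _, _, _, _, _, _, _, _, _, _, _, _, _, _, _, _⟩ := h
  simp only [Par.LA, Par.ha]
  fun_prop

theorem FG.ha (h : FG P) : PT ∅ fun a => (P a).ha := by
  obtain ⟨_, _, _, _, _, _, _, _, _, _, _, _, _, _, _, _, _, _, _, _, _, _, _, _, _, _, _⟩ := h
  simp only [Par.ha]
  fun_prop

theorem FG.bha (h : FG P) : PBd fun a => (P a).ha := by
  obtain ⟨_, _, _, _, _, _, _, _, _, _, _, _, _, _, _, _, _, _, _, _, _, _, _, _, _, _, _⟩ := h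
  simp only [Par.ha]
  fun_prop

theorem FG.NS (h : FG P) : PT ∅ fun a => (P a).NS := PT.pow (PT.const 2) h.lN h.blN

theorem FG.m (h : FG P) : PT ∅ fun a => (P a).m := PT.pow (PT.const 2) h.lm h.blm

theorem FG.Tend (h : FG P) : PT ∅ fun a => (P a).Tend := (h.ne.mul h.m).add (PT.const 1)

theorem FG.bTend (h : FG P) : PBd fun a => (P a).Tend := (h.bne.mul h.bm).add (PBd.const 1)

theorem FG.lT (h : FG P) : PT ∅ fun a => (P a).lT := (PT.const 2).mul h.lN

theorem FG.blT (h : FG P) : PBd fun a => (P a).lT := (PBd.const 2).mul h.blN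

theorem FG.lM (h : FG P) : PT ∅ fun a => (P a).lM :=
  ((((PT.const 2).mul h.lT).add (PT.const 4)).add (h.lb.mul h.ha)).add
    (((h.k.div h.ha).add (PT.const 1)).mul ((h.lA.add (PT_clog2 h.LA)).add (PT.const 4)))

theorem FG.blM (h : FG P) : PBd fun a => (P a).lM :=
  ((((PBd.const 2).mul h.blT).add (PBd.const 4)).add (h.blb.mul h.bha)).add
    (((PBd_div h.bk).add (PBd.const 1)).mul ((h.blA.add (PBd_clog2 h.LA)).add (PBd.const 4)))

theorem FG.lQ (h : FG P) : PT ∅ fun a => (P a).lQ :=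
  (((h.lT.add (PT.const 2)).add h.lM).add ((h.lb.add h.lL).mul h.k)).add
    ((((PT.const 2).mul h.lT).add (PT.const 10)).mul h.Tend)

theorem FG.blQ (h : FG P) : PBd fun a => (P a).lQ :=
  (((h.blT.add (PBd.const 2)).add h.blM).add ((h.blb.add h.blL).mul h.bk)).add
    ((((PBd.const 2).mul h.blT).add (PBd.const 10)).mul h.bTend)

/-- The parameters are computable if the number of seeds of a block is small. -/
theorem FG.pt (h : FG P) (hb : PBd fun a => (P a).NS) : PT ∅ P := by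
  refine PT_of_enc (g := fun a => ((⟨(P a).NS⟩ : Un), (P a).lx, (P a).ly,
    ([⟨(P a).lb⟩, ⟨(P a).k⟩, ⟨(P a).lg⟩, ⟨(P a).lc⟩, ⟨(P a).lK⟩, ⟨(P a).lS⟩, ⟨(P a).lm⟩,
      ⟨(P a).ne⟩, ⟨(P a).hA⟩, ⟨(P a).dl⟩, ⟨(P a).le⟩, ⟨(P a).lA⟩] : List Un))) ?_ fun _ => rfl
  refine (PT.mkUn h.NS hb).pair (h.lx.pair (h.ly.pair ?_))
  exact PT.cons (PT.mkUn h.lb h.blb) (PT.cons (PT.mkUn h.k h.bk)
    (PT.cons (PT.mkUn h.lg h.blg) (PT.cons (PT.mkUn h.lc h.blc)
    (PT.cons (PT.mkUn h.lK h.blK) (PT.cons (PT.mkUn h.lS h.blS)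
    (PT.cons (PT.mkUn h.lm h.blm) (PT.cons (PT.mkUn h.ne h.bne)
    (PT.cons (PT.mkUn h.hA h.bhA) (PT.cons (PT.mkUn h.dl h.bdl)
    (PT.cons (PT.mkUn h.le h.ble) (PT.cons (PT.mkUn h.lA h.blA)
    (PT.const []))))))))))))

/-- Case distinction with a constant. -/
theorem FG.ite (h : FG P) {p : α → Prop} [DecidablePred p] (hp : PT ∅ fun a => decide (p a))
    (Q : Par) : FG fun a => if p a then P a else Q where
  lx := (PT.ite hp h.lx (PT.const Q.lx)).congr fun _ => (apply_ite Par.lx _ _ _).symm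
  ly := (PT.ite hp h.ly (PT.const Q.ly)).congr fun _ => (apply_ite Par.ly _ _ _).symm
  lb := (PT.ite hp h.lb (PT.const Q.lb)).congr fun _ => (apply_ite Par.lb _ _ _).symm
  blb := (PBd_ite (p := p) h.blb (PBd.const Q.lb)).mono fun _ => (apply_ite Par.lb _ _ _).le
  k := (PT.ite hp h.k (PT.const Q.k)).congr fun _ => (apply_ite Par.k _ _ _).symm
  bk := (PBd_ite (p := p) h.bk (PBd.const Q.k)).mono fun _ => (apply_ite Par.k _ _ _).le
  lg := (PT.ite hp h.lg (PT.const Q.lg)).congr fun _ => (apply_ite Par.lg _ _ _).symm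
  blg := (PBd_ite (p := p) h.blg (PBd.const Q.lg)).mono fun _ => (apply_ite Par.lg _ _ _).le
  lc := (PT.ite hp h.lc (PT.const Q.lc)).congr fun _ => (apply_ite Par.lc _ _ _).symm
  blc := (PBd_ite (p := p) h.blc (PBd.const Q.lc)).mono fun _ => (apply_ite Par.lc _ _ _).le
  lK := (PT.ite hp h.lK (PT.const Q.lK)).congr fun _ => (apply_ite Par.lK _ _ _).symm
  blK := (PBd_ite (p := p) h.blK (PBd.const Q.lK)).mono fun _ => (apply_ite Par.lK _ _ _).le
  lS := (PT.ite hp h.lS (PT.const Q.lS)).congr fun _ => (apply_ite Par.lS _ _ _).symm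
  blS := (PBd_ite (p := p) h.blS (PBd.const Q.lS)).mono fun _ => (apply_ite Par.lS _ _ _).le
  lm := (PT.ite hp h.lm (PT.const Q.lm)).congr fun _ => (apply_ite Par.lm _ _ _).symm
  blm := (PBd_ite (p := p) h.blm (PBd.const Q.lm)).mono fun _ => (apply_ite Par.lm _ _ _).le
  ne := (PT.ite hp h.ne (PT.const Q.ne)).congr fun _ => (apply_ite Par.ne _ _ _).symm
  bne := (PBd_ite (p := p) h.bne (PBd.const Q.ne)).mono fun _ => (apply_ite Par.ne _ _ _).le
  hA := (PT.ite hp h.hA (PT.const Q.hA)).congr fun _ => (apply_ite Par.hA _ _ _).symm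
  bhA := (PBd_ite (p := p) h.bhA (PBd.const Q.hA)).mono fun _ => (apply_ite Par.hA _ _ _).le
  dl := (PT.ite hp h.dl (PT.const Q.dl)).congr fun _ => (apply_ite Par.dl _ _ _).symm
  bdl := (PBd_ite (p := p) h.bdl (PBd.const Q.dl)).mono fun _ => (apply_ite Par.dl _ _ _).le
  le := (PT.ite hp h.le (PT.const Q.le)).congr fun _ => (apply_ite Par.le _ _ _).symm
  ble := (PBd_ite (p := p) h.ble (PBd.const Q.le)).mono fun _ => (apply_ite Par.le _ _ _).le
  lA := (PT.ite hp h.lA (PT.const Q.lA)).congr fun _ => (apply_ite Par.lA _ _ _).symm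
  blA := (PBd_ite (p := p) h.blA (PBd.const Q.lA)).mono fun _ => (apply_ite Par.lA _ _ _).le
  bm := (PBd_ite (p := p) h.bm (PBd.const Q.m)).mono fun _ => (apply_ite Par.m _ _ _).le

end Pt0

theorem pt_parF : PT ∅ parF := by
  have h0 : PT ∅ fun f : List ℕ => f.getD 0 0 := PT.getD PT.id (PT.const 0) (PT.const 0)
  have h1 : PT ∅ fun f : List ℕ => f.getD 1 0 := PT.getD PT.id (PT.const 1) (PT.const 0)
  have h := Pt0.fg_par h0 h1
  have hl : PT ∅ fun f : List ℕ => f.length := PT.length PT.id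
  refine PT.pair (f := fun f : List ℕ =>
      if (par (f.getD 0 0) (f.getD 1 0)).NS ≤ f.length then par (f.getD 0 0) (f.getD 1 0)
      else ⟨0, 0, 0, 0, 0, 0, 0, 0, 0, 0, 0, 0, 0, 0⟩)
    ((h.ite (PT.le h.NS hl) _).pt ?_) (PT.drop PT.id (PT.const 2))
  refine ((PBd.length (A := ∅) (PT.id (α := List ℕ))).add
    (PBd.const (Par.NS ⟨0, 0, 0, 0, 0, 0, 0, 0, 0, 0, 0, 0, 0, 0⟩))).mono fun f => ?_
  split_ifs with hc
  · exact hc.trans (Nat.le_add_right _ _)
  · exact Nat.le_add_left _ _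

theorem pt_mb : PT ∅ fun p : ℕ × ℕ => mb p.1 p.2 :=
  (Pt0.PT_lg1 (PT.max PT.fst' PT.snd')).add (Pt0.fg_par PT.fst' PT.snd').lE

theorem pt_N : PT ∅ fun p : ℕ × ℕ => (par p.1 p.2).N :=
  (Pt0.fg_par PT.fst' PT.snd').nb.mul (Pt0.fg_par PT.fst' PT.snd').NS

theorem pt_E : PT ∅ fun p : ℕ × ℕ => (par p.1 p.2).E :=
  PT.pow (PT.const 2) (Pt0.fg_par PT.fst' PT.snd').lE (Pt0.fg_par PT.fst' PT.snd').blE

theorem pt_Q : PT ∅ fun p : ℕ × ℕ => 2 ^ (par p.1 p.2).lQ :=
  PT.pow (PT.const 2) (Pt0.fg_par PT.fst' PT.snd').lQ (Pt0.fg_par PT.fst' PT.snd').blQ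

theorem pt_keyEq : PT ∅ fun p : Key × Key => decide (p.1 = p.2) := PT_keyEq PT.fst' PT.snd'

end Vale.Agent.P315Z
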