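import Vale.Agent.P315Z.Keys
import Vale.Agent.P315.Q.PairPT
import Vale.Agent.P315.H527.ParPT

/-! P315Z: polynomial time of fields, constructors and derived parameters, in the compositional form
used by `fun_prop`. -/

set_option autoImplicit false

namespace Vale.Agent.P315Z

open Vale.Agent.Lib.PolyTime Vale.Agent.P315.H155

variable {α β γ : Type} [Enc α] [Enc β] [Enc γ]

/-- Functions with the same codes. -/
theorem PT_of_enc {f : α → β} {g : α → γ} (hg : PT ∅ g) (h : ∀ a, enc (g a) = enc (f a)) :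
    PT ∅ f := by
  obtain ⟨G, hG, hG'⟩ := hg
  exact ⟨G, hG, fun a => (hG' a).trans (h a)⟩

/-! ### Numbers -/

attribute [fun_prop] PBd_min_left PBd_min_right

@[fun_prop]
theorem PT_dist {f g : α → ℕ} (hf : PT ∅ f) (hg : PT ∅ g) :
    PT ∅ (fun a => Nat.dist (f a) (g a)) := (hf.sub hg).add (hg.sub hf)

@[fun_prop]
theorem PT_clog2 {f : α → ℕ} (hf : PT ∅ f) : PT ∅ (fun a => Nat.clog 2 (f a)) :=
  P315.H527.PT_clog 2 hf

@[fun_prop]
theorem PBd_clog2 {f : α → ℕ} (hf : PT ∅ f) : PBd (fun a => Nat.clog 2 (f a)) :=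
  P315.H527.PBd_clog 2 hf

@[fun_prop]
theorem PT_log2 {f : α → ℕ} (hf : PT ∅ f) : PT ∅ (fun a => Nat.log 2 (f a)) :=
  P315.H527.PT_log le_rfl hf

@[fun_prop]
theorem PBd_log2 {f : α → ℕ} (hf : PT ∅ f) : PBd (fun a => Nat.log 2 (f a)) :=
  P315.H527.PBd_log 2 hf

@[fun_prop]
theorem PBd_ite {p : α → Prop} [DecidablePred p] {f g : α → ℕ} (hf : PBd f) (hg : PBd g) :
    PBd (fun a => if p a then f a else g a) :=
  (hf.add hg).mono fun a => by split_ifs <;> omega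

theorem PBd_mod_pos {f g : α → ℕ} (hg : PBd g) (h : ∀ a, 0 < g a) : PBd (fun a => f a % g a) :=
  hg.mono fun a => (Nat.mod_lt _ (h a)).le

@[fun_prop]
theorem PBd_natPair {f g : α → ℕ} (hf : PBd f) (hg : PBd g) :
    PBd (fun a => Nat.pair (f a) (g a)) :=
  ((((hf.add hg).add (PBd.const 1))).pow 2).mono fun a => by
    have := Nat.pair_lt_max_add_one_sq (f a) (g a)
    exact this.le.trans (Nat.pow_le_pow_left (by omega) 2)

@[fun_prop]
theorem PT_decide_true {f : α → Bool} (hf : PT ∅ f) : PT ∅ (fun a => decide (f a = true)) :=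
  hf.congr fun a => by simp

@[fun_prop]
theorem PT_neNat {f g : α → ℕ} (hf : PT ∅ f) (hg : PT ∅ g) :
    PT ∅ (fun a => decide (f a ≠ g a)) :=
  (PT.eqNat hf hg).not.congr fun a => by simp

/-- A polynomially bounded function has a computable polynomial bound. -/
theorem PBd_exists_PT {b : α → ℕ} (hb : PBd b) :
    ∃ b' : α → ℕ, PT ∅ b' ∧ PBd b' ∧ ∀ a, b a ≤ b' a := by
  obtain ⟨c, hc⟩ := hb
  refine ⟨fun a => pb c (esize a), ?_, ⟨c, fun _ => le_rfl⟩, hc⟩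
  exact PT.powConst (PT.add (PT.size PT.id) (PT.const 2)) c

/-! ### Cells -/

theorem PT_cellTup {f : α → Cell} (hf : PT ∅ f) : PT ∅ (fun a =>
    ((⟨(f a).j⟩ : Un), (f a).i, (⟨(f a).ka⟩ : Un), (f a).x, (f a).p, (f a).q)) :=
  PT_of_enc hf fun _ => rfl

@[fun_prop]
theorem PT_Cell_j {f : α → Cell} (hf : PT ∅ f) : PT ∅ (fun a => (f a).j) :=
  (PT_cellTup hf).fst.unVal

@[fun_prop]
theorem PT_Cell_i {f : α → Cell} (hf : PT ∅ f) : PT ∅ (fun a => (f a).i) :=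
  (PT_cellTup hf).snd.fst

@[fun_prop]
theorem PT_Cell_ka {f : α → Cell} (hf : PT ∅ f) : PT ∅ (fun a => (f a).ka) :=
  (PT_cellTup hf).snd.snd.fst.unVal

@[fun_prop]
theorem PT_Cell_x {f : α → Cell} (hf : PT ∅ f) : PT ∅ (fun a => (f a).x) :=
  (PT_cellTup hf).snd.snd.snd.fst

@[fun_prop]
theorem PT_Cell_p {f : α → Cell} (hf : PT ∅ f) : PT ∅ (fun a => (f a).p) :=
  (PT_cellTup hf).snd.snd.snd.snd.fst

@[fun_prop]
theorem PT_Cell_q {f : α → Cell} (hf : PT ∅ f) : PT ∅ (fun a => (f a).q) :=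
  (PT_cellTup hf).snd.snd.snd.snd.snd

@[fun_prop]
theorem PBd_Cell_j {f : α → Cell} (hf : PT ∅ f) : PBd (fun a => (f a).j) :=
  PBd.unVal (PT_cellTup hf).fst

@[fun_prop]
theorem PBd_Cell_ka {f : α → Cell} (hf : PT ∅ f) : PBd (fun a => (f a).ka) :=
  PBd.unVal (PT_cellTup hf).snd.snd.fst

@[fun_prop]
theorem PT_Cell_mk {j i ka x p q : α → ℕ} (hj : PT ∅ j) (hjb : PBd j) (hi : PT ∅ i)
    (hka : PT ∅ ka) (hkab : PBd ka) (hx : PT ∅ x) (hp : PT ∅ p) (hq : PT ∅ q) :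
    PT ∅ (fun a => Cell.mk (j a) (i a) (ka a) (x a) (p a) (q a)) :=
  PT_of_enc ((PT.mkUn hj hjb).pair (hi.pair ((PT.mkUn hka hkab).pair (hx.pair (hp.pair hq)))))
    fun _ => rfl

/-- Comparison of a cell with six binary numbers. -/
theorem PT_cellEq_mk {c : α → Cell} {j i ka x p q : α → ℕ} (hc : PT ∅ c) (hj : PT ∅ j)
    (hi : PT ∅ i) (hka : PT ∅ ka) (hx : PT ∅ x) (hp : PT ∅ p) (hq : PT ∅ q) :
    PT ∅ (fun a => decide (c a = Cell.mk (j a) (i a) (ka a) (x a) (p a) (q a))) := by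
  have h : PT ∅ (fun a => decide ((c a).j = j a) && decide ((c a).i = i a) &&
      decide ((c a).ka = ka a) && decide ((c a).x = x a) && decide ((c a).p = p a) &&
      decide ((c a).q = q a)) := by fun_prop
  refine h.congr fun a => ?_
  rcases c a with ⟨j', i', ka', x', p', q'⟩
  rw [Bool.eq_iff_iff]
  simp [and_assoc]

@[fun_prop]
theorem PT_cellEq {c d : α → Cell} (hc : PT ∅ c) (hd : PT ∅ d) :
    PT ∅ (fun a => decide (c a = d a)) :=
  PT_cellEq_mk hc (PT_Cell_j hd) (PT_Cell_i hd) (PT_Cell_ka hd) (PT_Cell_x hd) (PT_Cell_p hd)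
    (PT_Cell_q hd)

/-! ### Keys -/

theorem PT_keyTup {f : α → Key} (hf : PT ∅ f) : PT ∅ (fun a =>
    ((f a).tag, (⟨(f a).T⟩ : Un), (f a).c, (⟨(f a).ta⟩ : Un))) :=
  PT_of_enc hf fun _ => rfl

@[fun_prop]
theorem PT_Key_tag {f : α → Key} (hf : PT ∅ f) : PT ∅ (fun a => (f a).tag) :=
  (PT_keyTup hf).fst

@[fun_prop]
theorem PT_Key_T {f : α → Key} (hf : PT ∅ f) : PT ∅ (fun a => (f a).T) :=
  (PT_keyTup hf).snd.fst.unVal

@[fun_prop]
theorem PT_Key_c {f : α → Key} (hf : PT ∅ f) : PT ∅ (fun a => (f a).c) :=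
  (PT_keyTup hf).snd.snd.fst

@[fun_prop]
theorem PT_Key_ta {f : α → Key} (hf : PT ∅ f) : PT ∅ (fun a => (f a).ta) :=
  (PT_keyTup hf).snd.snd.snd.unVal

@[fun_prop]
theorem PBd_Key_T {f : α → Key} (hf : PT ∅ f) : PBd (fun a => (f a).T) :=
  PBd.unVal (PT_keyTup hf).snd.fst

@[fun_prop]
theorem PBd_Key_ta {f : α → Key} (hf : PT ∅ f) : PBd (fun a => (f a).ta) :=
  PBd.unVal (PT_keyTup hf).snd.snd.snd

@[fun_prop]
theorem PT_Key_mk {tag T ta : α → ℕ} {c : α → Cell} (htag : PT ∅ tag) (hT : PT ∅ T) (hTb : PBd T)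
    (hc : PT ∅ c) (hta : PT ∅ ta) (htab : PBd ta) :
    PT ∅ (fun a => Key.mk (tag a) (T a) (c a) (ta a)) :=
  PT_of_enc (htag.pair ((PT.mkUn hT hTb).pair (hc.pair (PT.mkUn hta htab)))) fun _ => rfl

/-- Comparison of a key with fields; the test of the cell is a hypothesis. -/
theorem PT_keyEq_mk {k : α → Key} {tag T ta : α → ℕ} {c : α → Cell} (hk : PT ∅ k)
    (htag : PT ∅ tag) (hT : PT ∅ T) (hc : PT ∅ fun a => decide ((k a).c = c a))
    (hta : PT ∅ ta) :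
    PT ∅ (fun a => decide (k a = Key.mk (tag a) (T a) (c a) (ta a))) := by
  have h : PT ∅ (fun a => decide ((k a).tag = tag a) && decide ((k a).T = T a) &&
      decide ((k a).c = c a) && decide ((k a).ta = ta a)) :=
    (((PT.eqNat (PT_Key_tag hk) htag).and (PT.eqNat (PT_Key_T hk) hT)).and hc).and
      (PT.eqNat (PT_Key_ta hk) hta)
  refine h.congr fun a => ?_
  rcases k a with ⟨tag', T', c', ta'⟩
  rw [Bool.eq_iff_iff]
  simp [and_assoc]

@[fun_prop]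
theorem PT_keyEq {k l : α → Key} (hk : PT ∅ k) (hl : PT ∅ l) :
    PT ∅ (fun a => decide (k a = l a)) :=
  PT_keyEq_mk hk (PT_Key_tag hl) (PT_Key_T hl) (PT_cellEq (PT_Key_c hk) (PT_Key_c hl))
    (PT_Key_ta hl)

@[fun_prop]
theorem PT_kB {i p : α → ℕ} (hi : PT ∅ i) (hp : PT ∅ p) : PT ∅ (fun a => kB (i a) (p a)) := by
  unfold kB; fun_prop

@[fun_prop]
theorem PT_kA {j i s b : α → ℕ} (hj : PT ∅ j) (hjb : PBd j) (hi : PT ∅ i) (hs : PT ∅ s)
    (hsb : PBd s) (hb : PT ∅ b) : PT ∅ (fun a => kA (j a) (i a) (s a) (b a)) := by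
  unfold kA; fun_prop

@[fun_prop]
theorem PT_kD {T : α → ℕ} {c : α → Cell} (hT : PT ∅ T) (hTb : PBd T) (hc : PT ∅ c) :
    PT ∅ (fun a => kD (T a) (c a)) := by
  unfold kD; fun_prop

@[fun_prop]
theorem PT_kH {T t : α → ℕ} {c : α → Cell} (hT : PT ∅ T) (hTb : PBd T) (hc : PT ∅ c)
    (ht : PT ∅ t) (htb : PBd t) : PT ∅ (fun a => kH (T a) (c a) (t a)) := by
  unfold kH; fun_prop

@[fun_prop]
theorem PT_kU {T t : α → ℕ} {c : α → Cell} (hT : PT ∅ T) (hTb : PBd T) (hc : PT ∅ c)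
    (ht : PT ∅ t) (htb : PBd t) : PT ∅ (fun a => kU (T a) (c a) (t a)) := by
  unfold kU; fun_prop

/-! ### Parameters -/

theorem PT_parTup {f : α → Par} (hf : PT ∅ f) : PT ∅ (fun a => ((⟨(f a).NS⟩ : Un), (f a).lx,
    (f a).ly, ([⟨(f a).lb⟩, ⟨(f a).k⟩, ⟨(f a).lg⟩, ⟨(f a).lc⟩, ⟨(f a).lK⟩, ⟨(f a).lS⟩, ⟨(f a).lm⟩,
      ⟨(f a).ne⟩, ⟨(f a).hA⟩, ⟨(f a).dl⟩, ⟨(f a).le⟩, ⟨(f a).lA⟩] : List Un))) :=
  PT_of_enc hf fun _ => rfl

theorem PT_parUn {f : α → Par} (hf : PT ∅ f) (n : ℕ) : PT ∅ (fun a =>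
    ([⟨(f a).lb⟩, ⟨(f a).k⟩, ⟨(f a).lg⟩, ⟨(f a).lc⟩, ⟨(f a).lK⟩, ⟨(f a).lS⟩, ⟨(f a).lm⟩,
      ⟨(f a).ne⟩, ⟨(f a).hA⟩, ⟨(f a).dl⟩, ⟨(f a).le⟩, ⟨(f a).lA⟩] : List Un).getD n ⟨0⟩) :=
  PT.getD (PT_parTup hf).snd.snd.snd (PT.const n) (PT.const (Un.mk 0))

@[fun_prop]
theorem PT_lx {f : α → Par} (hf : PT ∅ f) : PT ∅ (fun a => (f a).lx) := (PT_parTup hf).snd.fst

@[fun_prop]
theorem PT_ly {f : α → Par} (hf : PT ∅ f) : PT ∅ (fun a => (f a).ly) :=
  (PT_parTup hf).snd.snd.fst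

@[fun_prop]
theorem PT_NS {f : α → Par} (hf : PT ∅ f) : PT ∅ (fun a => (f a).NS) := (PT_parTup hf).fst.unVal

@[fun_prop]
theorem PBd_NS {f : α → Par} (hf : PT ∅ f) : PBd (fun a => (f a).NS) :=
  PBd.unVal (PT_parTup hf).fst

@[fun_prop]
theorem PT_lb {f : α → Par} (hf : PT ∅ f) : PT ∅ (fun a => (f a).lb) := (PT_parUn hf 0).unVal

@[fun_prop]
theorem PBd_lb {f : α → Par} (hf : PT ∅ f) : PBd (fun a => (f a).lb) :=
  PBd.unVal (PT_parUn hf 0)

@[fun_prop]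
theorem PT_k {f : α → Par} (hf : PT ∅ f) : PT ∅ (fun a => (f a).k) := (PT_parUn hf 1).unVal

@[fun_prop]
theorem PBd_k {f : α → Par} (hf : PT ∅ f) : PBd (fun a => (f a).k) :=
  PBd.unVal (PT_parUn hf 1)

@[fun_prop]
theorem PT_lg {f : α → Par} (hf : PT ∅ f) : PT ∅ (fun a => (f a).lg) := (PT_parUn hf 2).unVal

@[fun_prop]
theorem PBd_lg {f : α → Par} (hf : PT ∅ f) : PBd (fun a => (f a).lg) :=
  PBd.unVal (PT_parUn hf 2)

@[fun_prop]
theorem PT_lc {f : α → Par} (hf : PT ∅ f) : PT ∅ (fun a => (f a).lc) := (PT_parUn hf 3).unVal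

@[fun_prop]
theorem PBd_lc {f : α → Par} (hf : PT ∅ f) : PBd (fun a => (f a).lc) :=
  PBd.unVal (PT_parUn hf 3)

@[fun_prop]
theorem PT_lK {f : α → Par} (hf : PT ∅ f) : PT ∅ (fun a => (f a).lK) := (PT_parUn hf 4).unVal

@[fun_prop]
theorem PBd_lK {f : α → Par} (hf : PT ∅ f) : PBd (fun a => (f a).lK) :=
  PBd.unVal (PT_parUn hf 4)

@[fun_prop]
theorem PT_lS {f : α → Par} (hf : PT ∅ f) : PT ∅ (fun a => (f a).lS) := (PT_parUn hf 5).unVal

@[fun_prop]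
theorem PBd_lS {f : α → Par} (hf : PT ∅ f) : PBd (fun a => (f a).lS) :=
  PBd.unVal (PT_parUn hf 5)

@[fun_prop]
theorem PT_lm {f : α → Par} (hf : PT ∅ f) : PT ∅ (fun a => (f a).lm) := (PT_parUn hf 6).unVal

@[fun_prop]
theorem PBd_lm {f : α → Par} (hf : PT ∅ f) : PBd (fun a => (f a).lm) :=
  PBd.unVal (PT_parUn hf 6)

@[fun_prop]
theorem PT_ne {f : α → Par} (hf : PT ∅ f) : PT ∅ (fun a => (f a).ne) := (PT_parUn hf 7).unVal

@[fun_prop]
theorem PBd_ne {f : α → Par} (hf : PT ∅ f) : PBd (fun a => (f a).ne) :=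
  PBd.unVal (PT_parUn hf 7)

@[fun_prop]
theorem PT_hA {f : α → Par} (hf : PT ∅ f) : PT ∅ (fun a => (f a).hA) := (PT_parUn hf 8).unVal

@[fun_prop]
theorem PBd_hA {f : α → Par} (hf : PT ∅ f) : PBd (fun a => (f a).hA) :=
  PBd.unVal (PT_parUn hf 8)

@[fun_prop]
theorem PT_dl {f : α → Par} (hf : PT ∅ f) : PT ∅ (fun a => (f a).dl) := (PT_parUn hf 9).unVal

@[fun_prop]
theorem PBd_dl {f : α → Par} (hf : PT ∅ f) : PBd (fun a => (f a).dl) :=
  PBd.unVal (PT_parUn hf 9)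

@[fun_prop]
theorem PT_le {f : α → Par} (hf : PT ∅ f) : PT ∅ (fun a => (f a).le) := (PT_parUn hf 10).unVal

@[fun_prop]
theorem PBd_le {f : α → Par} (hf : PT ∅ f) : PBd (fun a => (f a).le) :=
  PBd.unVal (PT_parUn hf 10)

@[fun_prop]
theorem PT_lA {f : α → Par} (hf : PT ∅ f) : PT ∅ (fun a => (f a).lA) := (PT_parUn hf 11).unVal

@[fun_prop]
theorem PBd_lA {f : α → Par} (hf : PT ∅ f) : PBd (fun a => (f a).lA) :=
  PBd.unVal (PT_parUn hf 11)

/-! ### Derived exponents -/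

@[fun_prop]
theorem PT_h {f : α → Par} (hf : PT ∅ f) : PT ∅ (fun a => (f a).h) := by
  unfold Par.h; fun_prop

@[fun_prop]
theorem PBd_h {f : α → Par} (hf : PT ∅ f) : PBd (fun a => (f a).h) := by
  unfold Par.h; fun_prop

@[fun_prop]
theorem PT_h2 {f : α → Par} (hf : PT ∅ f) : PT ∅ (fun a => (f a).h2) := by
  unfold Par.h2; fun_prop

@[fun_prop]
theorem PBd_h2 {f : α → Par} (hf : PT ∅ f) : PBd (fun a => (f a).h2) := by
  unfold Par.h2; fun_prop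

@[fun_prop]
theorem PT_h3 {f : α → Par} (hf : PT ∅ f) : PT ∅ (fun a => (f a).h3) := by
  unfold Par.h3; fun_prop

@[fun_prop]
theorem PBd_h3 {f : α → Par} (hf : PT ∅ f) : PBd (fun a => (f a).h3) := by
  unfold Par.h3; fun_prop

@[fun_prop]
theorem PT_ha {f : α → Par} (hf : PT ∅ f) : PT ∅ (fun a => (f a).ha) := by
  unfold Par.ha; fun_prop

@[fun_prop]
theorem PBd_ha {f : α → Par} (hf : PT ∅ f) : PBd (fun a => (f a).ha) := by
  unfold Par.ha; fun_prop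

@[fun_prop]
theorem PT_la0 {f : α → Par} (hf : PT ∅ f) : PT ∅ (fun a => (f a).la0) := by
  unfold Par.la0; fun_prop

@[fun_prop]
theorem PBd_la0 {f : α → Par} (hf : PT ∅ f) : PBd (fun a => (f a).la0) := by
  unfold Par.la0; fun_prop

@[fun_prop]
theorem PT_la1 {f : α → Par} (hf : PT ∅ f) : PT ∅ (fun a => (f a).la1) := by
  unfold Par.la1; fun_prop

@[fun_prop]
theorem PBd_la1 {f : α → Par} (hf : PT ∅ f) : PBd (fun a => (f a).la1) := by
  unfold Par.la1; fun_prop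

@[fun_prop]
theorem PT_lG {f : α → Par} (hf : PT ∅ f) : PT ∅ (fun a => (f a).lG) := by
  unfold Par.lG; fun_prop

@[fun_prop]
theorem PBd_lG {f : α → Par} (hf : PT ∅ f) : PBd (fun a => (f a).lG) := by
  unfold Par.lG; fun_prop

@[fun_prop]
theorem PT_lnn {f : α → Par} (hf : PT ∅ f) : PT ∅ (fun a => (f a).lnn) := by
  unfold Par.lnn; fun_prop

@[fun_prop]
theorem PBd_lnn {f : α → Par} (hf : PT ∅ f) : PBd (fun a => (f a).lnn) := by
  unfold Par.lnn; fun_prop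

@[fun_prop]
theorem PT_l1 {f : α → Par} (hf : PT ∅ f) : PT ∅ (fun a => (f a).l1) := by
  unfold Par.l1; fun_prop

@[fun_prop]
theorem PBd_l1 {f : α → Par} (hf : PT ∅ f) : PBd (fun a => (f a).l1) := by
  unfold Par.l1; fun_prop

@[fun_prop]
theorem PT_rs {f : α → Par} (hf : PT ∅ f) : PT ∅ (fun a => (f a).rs) := by
  unfold Par.rs; fun_prop

@[fun_prop]
theorem PBd_rs {f : α → Par} (hf : PT ∅ f) : PBd (fun a => (f a).rs) := by
  unfold Par.rs; fun_prop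

@[fun_prop]
theorem PT_LA {f : α → Par} (hf : PT ∅ f) : PT ∅ (fun a => (f a).LA) := by
  unfold Par.LA; fun_prop

@[fun_prop]
theorem PBd_LA {f : α → Par} (hf : PT ∅ f) : PBd (fun a => (f a).LA) := by
  unfold Par.LA; fun_prop

@[fun_prop]
theorem PT_a0 {f : α → Par} (hf : PT ∅ f) : PT ∅ (fun a => (f a).a0) := by
  unfold Par.a0; fun_prop

@[fun_prop]
theorem PBd_a0 {f : α → Par} (hf : PT ∅ f) : PBd (fun a => (f a).a0) := by
  unfold Par.a0; fun_prop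

@[fun_prop]
theorem PT_am {f : α → Par} (hf : PT ∅ f) : PT ∅ (fun a => (f a).am) := by
  unfold Par.am; fun_prop

@[fun_prop]
theorem PBd_am {f : α → Par} (hf : PT ∅ f) : PBd (fun a => (f a).am) := by
  unfold Par.am; fun_prop

@[fun_prop]
theorem PT_km {f : α → Par} (hf : PT ∅ f) : PT ∅ (fun a => (f a).km) := by
  unfold Par.km; fun_prop

@[fun_prop]
theorem PBd_km {f : α → Par} (hf : PT ∅ f) : PBd (fun a => (f a).km) := by
  unfold Par.km; fun_prop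

@[fun_prop]
theorem PT_nH {f : α → Par} (hf : PT ∅ f) : PT ∅ (fun a => (f a).nH) := by
  unfold Par.nH; fun_prop

@[fun_prop]
theorem PBd_nH {f : α → Par} (hf : PT ∅ f) : PBd (fun a => (f a).nH) := by
  unfold Par.nH; fun_prop

@[fun_prop]
theorem PT_nA {f : α → Par} (hf : PT ∅ f) : PT ∅ (fun a => (f a).nA) := by
  unfold Par.nA; fun_prop

@[fun_prop]
theorem PBd_nA {f : α → Par} (hf : PT ∅ f) : PBd (fun a => (f a).nA) := by
  unfold Par.nA; fun_prop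

@[fun_prop]
theorem PT_lN {f : α → Par} (hf : PT ∅ f) : PT ∅ (fun a => (f a).lN) := by
  unfold Par.lN; fun_prop

@[fun_prop]
theorem PBd_lN {f : α → Par} (hf : PT ∅ f) : PBd (fun a => (f a).lN) := by
  unfold Par.lN; fun_prop

@[fun_prop]
theorem PT_lE {f : α → Par} (hf : PT ∅ f) : PT ∅ (fun a => (f a).lE) := by
  unfold Par.lE; fun_prop

@[fun_prop]
theorem PBd_lE {f : α → Par} (hf : PT ∅ f) : PBd (fun a => (f a).lE) := by
  unfold Par.lE; fun_prop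

@[fun_prop]
theorem PT_nb {f : α → Par} (hf : PT ∅ f) : PT ∅ (fun a => (f a).nb) := by
  unfold Par.nb; fun_prop

@[fun_prop]
theorem PBd_nb {f : α → Par} (hf : PT ∅ f) : PBd (fun a => (f a).nb) := by
  unfold Par.nb; fun_prop

@[fun_prop]
theorem PT_leta {f : α → Par} (hf : PT ∅ f) : PT ∅ (fun a => (f a).leta) := by
  unfold Par.leta; fun_prop

@[fun_prop]
theorem PBd_leta {f : α → Par} (hf : PT ∅ f) : PBd (fun a => (f a).leta) := by
  unfold Par.leta; fun_prop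

@[fun_prop]
theorem PT_lcnt {f : α → Par} (hf : PT ∅ f) : PT ∅ (fun a => (f a).lcnt) := by
  unfold Par.lcnt; fun_prop

@[fun_prop]
theorem PBd_lcnt {f : α → Par} (hf : PT ∅ f) : PBd (fun a => (f a).lcnt) := by
  unfold Par.lcnt; fun_prop

@[fun_prop]
theorem PT_lT {f : α → Par} (hf : PT ∅ f) : PT ∅ (fun a => (f a).lT) := by
  unfold Par.lT; fun_prop

@[fun_prop]
theorem PBd_lT {f : α → Par} (hf : PT ∅ f) : PBd (fun a => (f a).lT) := by
  unfold Par.lT; fun_prop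

/-! ### Powers of two -/

@[fun_prop]
theorem PT_B {f : α → Par} (hf : PT ∅ f) : PT ∅ (fun a => (f a).B) := by
  unfold Par.B; fun_prop

@[fun_prop]
theorem PT_K {f : α → Par} (hf : PT ∅ f) : PT ∅ (fun a => (f a).K) := by
  unfold Par.K; fun_prop

@[fun_prop]
theorem PT_BK {f : α → Par} (hf : PT ∅ f) : PT ∅ (fun a => (f a).BK) := by
  unfold Par.BK; fun_prop

@[fun_prop]
theorem PT_m {f : α → Par} (hf : PT ∅ f) : PT ∅ (fun a => (f a).m) := by
  unfold Par.m; fun_prop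

@[fun_prop]
theorem PT_gd {f : α → Par} (hf : PT ∅ f) : PT ∅ (fun a => (f a).gd) := by
  unfold Par.gd; fun_prop

@[fun_prop]
theorem PT_capd {f : α → Par} (hf : PT ∅ f) : PT ∅ (fun a => (f a).capd) := by
  unfold Par.capd; fun_prop

@[fun_prop]
theorem PT_E {f : α → Par} (hf : PT ∅ f) : PT ∅ (fun a => (f a).E) := by
  unfold Par.E; fun_prop

@[fun_prop]
theorem PT_s0 {f : α → Par} (hf : PT ∅ f) : PT ∅ (fun a => (f a).s0) := by
  unfold Par.s0; fun_prop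

@[fun_prop]
theorem PT_s1 {f : α → Par} (hf : PT ∅ f) : PT ∅ (fun a => (f a).s1) := by
  unfold Par.s1; fun_prop

/-- Powers of two below the number of seeds of a block. -/
theorem PBd_two_pow {f : α → Par} (hf : PT ∅ f) {e : α → ℕ} (h : ∀ a, e a ≤ (f a).lN) :
    PBd (fun a => 2 ^ e a) :=
  (PBd_NS hf).mono fun a => Nat.pow_le_pow_right (by norm_num) (h a)

theorem pt0_lb_le_lN (P : Par) : P.lb ≤ P.lN := by unfold Par.lN Par.nH; omega
theorem pt0_lm_le_lN (P : Par) : P.lm ≤ P.lN := by unfold Par.lN Par.l1; omega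
theorem pt0_nH_le_lN (P : Par) : P.nH ≤ P.lN := by unfold Par.lN; omega
theorem pt0_nA_le_lN (P : Par) : P.nA ≤ P.lN := by unfold Par.lN; omega
theorem pt0_l1_le_lN (P : Par) : 4 * P.l1 ≤ P.lN := by unfold Par.lN; omega
theorem pt0_lG_le_lN (P : Par) : P.lG ≤ P.lN := by unfold Par.lN Par.l1 Par.lnn; omega
theorem pt0_h_le_lN (P : Par) : P.h ≤ P.lN := by unfold Par.lN Par.l1 Par.h; omega
theorem pt0_lbha_le_lN (P : Par) : P.lb * P.ha ≤ P.lN := by unfold Par.lN Par.nA; omega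
theorem pt0_rs_le_lN (P : Par) : P.rs ≤ P.lN := by
  unfold Par.lN Par.l1 Par.lnn Par.lG Par.la1 Par.la0 Par.rs; omega
theorem pt0_B_pos (P : Par) : 0 < P.B := by unfold Par.B; positivity
theorem pt0_m_pos (P : Par) : 0 < P.m := by unfold Par.m; positivity
theorem pt0_NS_pos (P : Par) : 0 < P.NS := by unfold Par.NS; positivity
theorem pt0_ar_pos (P : Par) (j : ℕ) : 0 < ar P j := by unfold ar; positivity

@[fun_prop]
theorem PBd_B {f : α → Par} (hf : PT ∅ f) : PBd (fun a => (f a).B) :=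
  PBd_two_pow hf fun a => (pt0_lb_le_lN (f a))

@[fun_prop]
theorem PBd_m {f : α → Par} (hf : PT ∅ f) : PBd (fun a => (f a).m) :=
  PBd_two_pow hf fun a => (pt0_lm_le_lN (f a))

@[fun_prop]
theorem PBd_pow_nH {f : α → Par} (hf : PT ∅ f) : PBd (fun a => 2 ^ (f a).nH) :=
  PBd_two_pow hf fun a => (pt0_nH_le_lN (f a))

@[fun_prop]
theorem PBd_pow_nA {f : α → Par} (hf : PT ∅ f) : PBd (fun a => 2 ^ (f a).nA) :=
  PBd_two_pow hf fun a => (pt0_nA_le_lN (f a))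

@[fun_prop]
theorem PBd_pow_l1 {f : α → Par} (hf : PT ∅ f) : PBd (fun a => 2 ^ (4 * (f a).l1)) :=
  PBd_two_pow hf fun a => (pt0_l1_le_lN (f a))

@[fun_prop]
theorem PBd_pow_min_lG {f : α → Par} {x : α → ℕ} (hf : PT ∅ f) :
    PBd (fun a => 2 ^ min (x a) (f a).lG) :=
  PBd_two_pow hf fun a => (min_le_right _ _).trans (pt0_lG_le_lN (f a))

@[fun_prop]
theorem PBd_pow_min_h {f : α → Par} {x : α → ℕ} (hf : PT ∅ f) :
    PBd (fun a => 2 ^ min (x a) (f a).h) :=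
  PBd_two_pow hf fun a => (min_le_right _ _).trans (pt0_h_le_lN (f a))

@[fun_prop]
theorem PBd_pow_min_rs {f : α → Par} {x : α → ℕ} (hf : PT ∅ f) :
    PBd (fun a => 2 ^ min (x a) (f a).rs) :=
  PBd_two_pow hf fun a => (min_le_right _ _).trans (pt0_rs_le_lN (f a))

@[fun_prop]
theorem PBd_mod_B {f : α → Par} {x : α → ℕ} (hf : PT ∅ f) : PBd (fun a => x a % (f a).B) :=
  PBd_mod_pos (PBd_B hf) fun a => (pt0_B_pos (f a))

@[fun_prop]
theorem PBd_mod_m {f : α → Par} {x : α → ℕ} (hf : PT ∅ f) : PBd (fun a => x a % (f a).m) :=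
  PBd_mod_pos (PBd_m hf) fun a => (pt0_m_pos (f a))

@[fun_prop]
theorem PBd_mod_NS {f : α → Par} {x : α → ℕ} (hf : PT ∅ f) : PBd (fun a => x a % (f a).NS) :=
  PBd_mod_pos (PBd_NS hf) fun a => (pt0_NS_pos (f a))

@[fun_prop]
theorem PT_N {f : α → Par} (hf : PT ∅ f) : PT ∅ (fun a => (f a).N) := by
  unfold Par.N; fun_prop

@[fun_prop]
theorem PBd_N {f : α → Par} (hf : PT ∅ f) : PBd (fun a => (f a).N) := by
  unfold Par.N; fun_prop

@[fun_prop]
theorem PT_Tend {f : α → Par} (hf : PT ∅ f) : PT ∅ (fun a => (f a).Tend) := by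
  unfold Par.Tend; fun_prop

@[fun_prop]
theorem PBd_Tend {f : α → Par} (hf : PT ∅ f) : PBd (fun a => (f a).Tend) := by
  unfold Par.Tend; fun_prop

@[fun_prop]
theorem PT_ep {f : α → Par} {T : α → ℕ} (hf : PT ∅ f) (hT : PT ∅ T) :
    PT ∅ (fun a => (f a).ep (T a)) := by
  unfold Par.ep; fun_prop

@[fun_prop]
theorem PBd_ep {f : α → Par} {T : α → ℕ} (hT : PBd T) : PBd (fun a => (f a).ep (T a)) := by
  unfold Par.ep; fun_prop

/-! ### Scales -/

@[fun_prop]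
theorem PT_mesh {f : α → Par} {x : α → ℕ} (hf : PT ∅ f) (hx : PT ∅ x) (hb : PBd x) :
    PT ∅ (fun a => mesh (f a) (x a)) := by
  unfold mesh; fun_prop

@[fun_prop]
theorem PT_om {f : α → Par} {x : α → ℕ} (hf : PT ∅ f) (hx : PT ∅ x) (hb : PBd x) :
    PT ∅ (fun a => om (f a) (x a)) := by
  unfold om; fun_prop

@[fun_prop]
theorem PT_wid {f : α → Par} {x : α → ℕ} (hf : PT ∅ f) (hx : PT ∅ x) (hb : PBd x) :
    PT ∅ (fun a => wid (f a) (x a)) := by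
  unfold wid; fun_prop

@[fun_prop]
theorem PT_res {f : α → Par} {x : α → ℕ} (hf : PT ∅ f) (hx : PT ∅ x) (hb : PBd x) :
    PT ∅ (fun a => res (f a) (x a)) := by
  unfold res; fun_prop

@[fun_prop]
theorem PT_tlen {f : α → Par} {x : α → ℕ} (hf : PT ∅ f) (hx : PT ∅ x) :
    PT ∅ (fun a => tlen (f a) (x a)) := by
  unfold tlen; fun_prop

@[fun_prop]
theorem PBd_tlen {f : α → Par} {x : α → ℕ} (hf : PT ∅ f) : PBd (fun a => tlen (f a) (x a)) := by
  unfold tlen; fun_prop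

@[fun_prop]
theorem PT_ar {f : α → Par} {x : α → ℕ} (hf : PT ∅ f) (hx : PT ∅ x) :
    PT ∅ (fun a => ar (f a) (x a)) := by
  unfold ar; fun_prop

@[fun_prop]
theorem PBd_ar {f : α → Par} {x : α → ℕ} (hf : PT ∅ f) : PBd (fun a => ar (f a) (x a)) :=
  PBd_two_pow hf fun a => (Nat.mul_le_mul_left _ (min_le_right _ _)).trans (pt0_lbha_le_lN (f a))

@[fun_prop]
theorem PBd_mod_ar {f : α → Par} {x y : α → ℕ} (hf : PT ∅ f) :
    PBd (fun a => y a % ar (f a) (x a)) :=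
  PBd_mod_pos (PBd_ar hf) fun a => pt0_ar_pos (f a) (x a)

@[fun_prop]
theorem PT_tent {s l y : α → ℕ} (hs : PT ∅ s) (hb : PBd s) (hl : PT ∅ l) (hy : PT ∅ y) :
    PT ∅ (fun a => tent (s a) (l a) (y a)) := by
  unfold tent; fun_prop

@[fun_prop]
theorem PT_bA {j : α → ℕ} (hj : PT ∅ j) : PT ∅ (fun a => bA (j a)) := by
  unfold bA; fun_prop

@[fun_prop]
theorem PT_bR {j : α → ℕ} (hj : PT ∅ j) : PT ∅ (fun a => bR (j a)) := by
  unfold bR; fun_prop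

@[fun_prop]
theorem PT_bM {i j : α → ℕ} (hi : PT ∅ i) (hj : PT ∅ j) : PT ∅ (fun a => bM (i a) (j a)) := by
  unfold bM; fun_prop

@[fun_prop]
theorem PT_sds {L : α → List ℕ} {i : α → ℕ} (hL : PT ∅ L) (hi : PT ∅ i) :
    PT ∅ (fun a => sds (L a) (i a)) := by
  unfold sds; fun_prop

end Vale.Agent.P315Z
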