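import Vale.Agent.P315Z.PtT

/-! P315Z: polynomial time of the functions of the recursion. -/

set_option autoImplicit false

namespace Vale.Agent.P315Z.PtT

open Vale.Agent.Lib.PolyTime Vale.Agent.P315.H155

variable {α : Type} [Enc α] {P : α → Par} {e c : α → Cell} {R D : α → Cell → ℕ}
  {H U : α → Cell → ℕ → ℕ} {r s τ T : α → ℕ} {sd : α → ℕ → ℕ}

theorem B_pos (P : Par) : 0 < P.B := Nat.two_pow_pos _

@[fun_prop] theorem pt_mesh {ka : α → ℕ} (hP : PT ∅ P) (hk : PT ∅ ka) (hk' : PBd ka) :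
    PT ∅ fun a => mesh (P a) (ka a) := by unfold mesh; fun_prop

@[fun_prop] theorem pt_gpts {ka x : α → ℕ} (hP : PT ∅ P) (hk : PT ∅ ka) (hk' : PBd ka)
    (hx : PT ∅ x) : PT ∅ fun a => gpts (P a) (ka a) (x a) := by
  unfold gpts
  have h1 : PBd fun a => min (ka a) (P a).lG := PBd_min_left hk'
  have h2 : PBd fun a => 2 ^ min (ka a) (P a).lG :=
    pbd_two_pow hP fun a => by unfold Par.lN Par.l1 Par.lnn; omega
  exact PT.map (PT.range (PT.add (PT.mul (PT.const 3) (PT.pow (PT.const 2) (by fun_prop) h1))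
    (PT.const 1)) (((PBd.const 3).mul h2).add (PBd.const 1))) (by fun_prop)

@[fun_prop] theorem pt_cellsAt {j i ka x : α → ℕ} (hP : PT ∅ P) (hj : PT ∅ j) (hj' : PBd j)
    (hi : PT ∅ i) (hk : PT ∅ ka) (hk' : PBd ka) (hx : PT ∅ x) :
    PT ∅ fun a => cellsAt (P a) (j a) (i a) (ka a) (x a) := by unfold cellsAt; fun_prop

@[fun_prop] theorem pt_sibs (hP : PT ∅ P) (he : PT ∅ e) : PT ∅ fun a => sibs (P a) (e a) := by
  unfold sibs; fun_prop

@[fun_prop] theorem pt_kids (hP : PT ∅ P) (he : PT ∅ e) (hr : PT ∅ r) :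
    PT ∅ fun a => kids (P a) (e a) (r a) := by
  refine PT.congr (f := fun a => (rangeU (min (e a).ka (P a).h + 1)).flatMap fun δ =>
    (List.range (3 * 2 ^ min δ.v (P a).h + 2)).flatMap fun t =>
      cellsAt (P a) ((e a).j - 1) ((e a).i * (P a).B + r a) ((e a).ka - δ.v)
        ((e a).x * 2 ^ δ.v - 1 + t)) ?_ fun a => ?_
  · have h1 : PBd fun p : α × Un => min p.2.v (P p.1).h := PBd_min_left (by fun_prop)
    have h2 : PBd fun p : α × Un => 2 ^ min p.2.v (P p.1).h :=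
      pbd_two_pow (P := fun p : α × Un => P p.1) (by fun_prop) fun a => by
        unfold Par.lN Par.l1 Par.h; omega
    exact PT.flatMap (pt_rangeU (by fun_prop) ((PBd_min_left (pbd_ka he)).add (PBd.const 1)))
      (PT.flatMap (PT.range (PT.add (PT.mul (PT.const 3) (PT.pow (PT.const 2) (by fun_prop) h1))
        (PT.const 2)) (((PBd.const 3).mul h2).add (PBd.const 2))) (by fun_prop))
  · unfold kids
    rw [rangeU, List.flatMap_map]
    refine List.flatMap_congr fun δ hδ => ?_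
    have := List.mem_range.1 hδ
    simp only [min_eq_left (by omega : δ ≤ (P a).h)]

@[fun_prop] theorem pt_triv (hP : PT ∅ P) (he : PT ∅ e) : PT ∅ fun a => triv (P a) (e a) := by
  unfold triv; fun_prop

@[fun_prop] theorem pt_phi (hP : PT ∅ P) (hR : PT ∅ fun p : α × Cell => R p.1 p.2) (he : PT ∅ e)
    (hr : PT ∅ r) (hr' : PBd r) (hs : PT ∅ s) :
    PT ∅ fun a => phi (P a) (R a) (e a) (r a) (s a) := by unfold phi; fun_prop

@[fun_prop] theorem pt_ubest (hP : PT ∅ P) (hU : PT ∅ fun p : α × Cell × ℕ => U p.1 p.2.1 p.2.2)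
    (hc : PT ∅ c) : PT ∅ fun a => ubest (P a) (U a) (c a) := by unfold ubest; fun_prop

@[fun_prop] theorem pt_dstep (hP : PT ∅ P) (hU : PT ∅ fun p : α × Cell × ℕ => U p.1 p.2.1 p.2.2)
    (he : PT ∅ e) : PT ∅ fun a => dstep (P a) (U a) (e a) := by unfold dstep; fun_prop

@[fun_prop] theorem pt_st (hP : PT ∅ P) (hR : PT ∅ fun p : α × Cell => R p.1 p.2) (he : PT ∅ e)
    (hr : PT ∅ r) (hr' : PBd r) : PT ∅ fun a => st (P a) (R a) (e a) (r a) := by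
  unfold st; fun_prop

@[fun_prop] theorem pt_wt (hP : PT ∅ P) (hR : PT ∅ fun p : α × Cell => R p.1 p.2) (he : PT ∅ e)
    (hr : PT ∅ r) (hr' : PBd r) : PT ∅ fun a => wt (P a) (R a) (e a) (r a) := by
  unfold wt; fun_prop

@[fun_prop] theorem pt_ta (hP : PT ∅ P) (hR : PT ∅ fun p : α × Cell => R p.1 p.2) (he : PT ∅ e)
    (hr : PT ∅ r) (hr' : PBd r) : PT ∅ fun a => ta (P a) (R a) (e a) (r a) :=
  Vale.Agent.P315.H527.PT_clog 2 (pt_wt hP hR he hr hr')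

@[fun_prop] theorem pbd_ta (hP : PT ∅ P) (hR : PT ∅ fun p : α × Cell => R p.1 p.2) (he : PT ∅ e)
    (hr : PT ∅ r) (hr' : PBd r) : PBd fun a => ta (P a) (R a) (e a) (r a) :=
  Vale.Agent.P315.H527.PBd_clog 2 (pt_wt hP hR he hr hr')

@[fun_prop] theorem pt_rad (hP : PT ∅ P) (hR : PT ∅ fun p : α × Cell => R p.1 p.2) (he : PT ∅ e) :
    PT ∅ fun a => rad (P a) (R a) (e a) := by unfold rad; fun_prop

@[fun_prop] theorem pt_tube (hP : PT ∅ P) (hR : PT ∅ fun p : α × Cell => R p.1 p.2) (he : PT ∅ e)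
    (hr : PT ∅ r) (hr' : PBd r) : PT ∅ fun a => tube (P a) (R a) (e a) (r a) := by
  unfold tube; fun_prop

@[fun_prop] theorem pt_adm (hP : PT ∅ P) (hR : PT ∅ fun p : α × Cell => R p.1 p.2) (he : PT ∅ e)
    (hτ : PT ∅ τ) (hτ' : PBd τ) : PT ∅ fun a => adm (P a) (R a) (e a) (τ a) := by
  simp only [adm, map_rangeU, all_rangeU, ne_eq]
  fun_prop

@[fun_prop] theorem pt_om (hP : PT ∅ P) (hτ : PT ∅ τ) (hτ' : PBd τ) :
    PT ∅ fun a => om (P a) (τ a) := by unfold om; fun_prop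

@[fun_prop] theorem pt_box (hP : PT ∅ P) (hc : PT ∅ c) (hτ : PT ∅ τ) (hτ' : PBd τ) :
    PT ∅ fun a => box (P a) (c a) (τ a) := by unfold box; fun_prop

@[fun_prop] theorem pt_hint (hP : PT ∅ P) (hD : PT ∅ fun p : α × Cell => D p.1 p.2)
    (hH : PT ∅ fun p : α × Cell × ℕ => H p.1 p.2.1 p.2.2) (hc : PT ∅ c) (hτ : PT ∅ τ)
    (hτ' : PBd τ) : PT ∅ fun a => hint (P a) (D a) (H a) (c a) (τ a) := by unfold hint; fun_prop

@[fun_prop] theorem pt_yv (hP : PT ∅ P) (hR : PT ∅ fun p : α × Cell => R p.1 p.2)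
    (hD : PT ∅ fun p : α × Cell => D p.1 p.2)
    (hH : PT ∅ fun p : α × Cell × ℕ => H p.1 p.2.1 p.2.2) (he : PT ∅ e) (hr : PT ∅ r)
    (hr' : PBd r) : PT ∅ fun a => yv (P a) (R a) (D a) (H a) (e a) (r a) := by
  unfold yv; fun_prop

@[fun_prop] theorem pt_zv (hP : PT ∅ P) (hR : PT ∅ fun p : α × Cell => R p.1 p.2)
    (hD : PT ∅ fun p : α × Cell => D p.1 p.2)
    (hH : PT ∅ fun p : α × Cell × ℕ => H p.1 p.2.1 p.2.2) (he : PT ∅ e) :
    PT ∅ fun a => zv (P a) (R a) (D a) (H a) (e a) := by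
  simp only [zv, map_rangeU]
  fun_prop

theorem pbd_nH2 (hP : PT ∅ P) : PBd fun a => 2 ^ (P a).nH :=
  pbd_two_pow hP fun a => by unfold Par.lN; omega

theorem pbd_nA2 (hP : PT ∅ P) : PBd fun a => 2 ^ (P a).nA :=
  pbd_two_pow hP fun a => by unfold Par.lN; omega

@[fun_prop] theorem pt_est (hP : PT ∅ P) (hs : PT ∅ fun p : α × ℕ => sd p.1 p.2)
    (hR : PT ∅ fun p : α × Cell => R p.1 p.2) (hD : PT ∅ fun p : α × Cell => D p.1 p.2)
    (hH : PT ∅ fun p : α × Cell × ℕ => H p.1 p.2.1 p.2.2) (hτ : PT ∅ τ) (he : PT ∅ e) :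
    PT ∅ fun a => est (P a) (sd a) (R a) (D a) (H a) (τ a) (e a) := by
  unfold est
  exact pt_strat (by fun_prop) (by fun_prop) (pbd_nH2 hP) (by fun_prop) (by fun_prop)
    (by fun_prop) (by fun_prop) (fun a => B_pos _) hs (by fun_prop)

@[fun_prop] theorem pt_fam (hP : PT ∅ P) (hR : PT ∅ fun p : α × Cell => R p.1 p.2) (hc : PT ∅ c)
    (hτ : PT ∅ τ) (hτ' : PBd τ) : PT ∅ fun a => fam (P a) (R a) (c a) (τ a) := by
  unfold fam; fun_prop

@[fun_prop] theorem pt_chosen (hP : PT ∅ P) (hs : PT ∅ fun p : α × ℕ => sd p.1 p.2)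
    (hR : PT ∅ fun p : α × Cell => R p.1 p.2) (hD : PT ∅ fun p : α × Cell => D p.1 p.2)
    (hH : PT ∅ fun p : α × Cell × ℕ => H p.1 p.2.1 p.2.2) (hc : PT ∅ c) (hτ : PT ∅ τ)
    (hτ' : PBd τ) : PT ∅ fun a => chosen (P a) (sd a) (R a) (D a) (H a) (c a) (τ a) := by
  unfold chosen; fun_prop

theorem pt_isTrue {b : α → Bool} (hb : PT ∅ b) : PT ∅ fun a => decide (b a = true) := by
  simpa only [Bool.decide_eq_true] using hb

@[fun_prop] theorem pt_hbody (hP : PT ∅ P) (hs : PT ∅ fun p : α × ℕ => sd p.1 p.2) (hT : PT ∅ T)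
    (hR : PT ∅ fun p : α × Cell => R p.1 p.2) (hD : PT ∅ fun p : α × Cell => D p.1 p.2)
    (hH : PT ∅ fun p : α × Cell × ℕ => H p.1 p.2.1 p.2.2) (hc : PT ∅ c) (hτ : PT ∅ τ)
    (hτ' : PBd τ) : PT ∅ fun a => hbody (P a) (sd a) (T a) (R a) (D a) (H a) (c a) (τ a) := by
  unfold hbody
  exact PT.ite (by fun_prop) (by fun_prop)
    (PT.ite (pt_isTrue (by fun_prop)) (by fun_prop) (by fun_prop))

theorem pt_tubes (hP : PT ∅ P) (hR : PT ∅ fun p : α × Cell => R p.1 p.2) (he : PT ∅ e) :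
    PT ∅ fun a => (List.range (P a).B).map fun r => tube (P a) (R a) (e a) r := by
  simp only [map_rangeU]
  fun_prop

@[fun_prop] theorem pt_nnode (hP : PT ∅ P) (hR : PT ∅ fun p : α × Cell => R p.1 p.2)
    (he : PT ∅ e) : PT ∅ fun a => nnode (P a) (R a) (e a) := by
  simp only [nnode, map_rangeU]
  exact pt_foldMax (by fun_prop)

@[fun_prop] theorem pbd_nnode (hP : PT ∅ P) (hR : PT ∅ fun p : α × Cell => R p.1 p.2)
    (he : PT ∅ e) : PBd fun a => nnode (P a) (R a) (e a) := by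
  refine ((PBd.const 1).add (PBd.length (pt_tubes hP hR he).flatten)).mono fun a => ?_
  refine (foldl_max_le _ 1).trans (le_of_eq ?_)
  rw [List.length_flatten, List.map_map]
  rfl

@[fun_prop] theorem pt_tc {u : α → ℕ} (hP : PT ∅ P) (hR : PT ∅ fun p : α × Cell => R p.1 p.2)
    (he : PT ∅ e) (hr : PT ∅ r) (hr' : PBd r) (hu : PT ∅ u) :
    PT ∅ fun a => tc (P a) (R a) (e a) (r a) (u a) := by unfold tc; fun_prop

@[fun_prop] theorem pt_rowW (hP : PT ∅ P) (hR : PT ∅ fun p : α × Cell => R p.1 p.2)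
    (he : PT ∅ e) (hr : PT ∅ r) (hr' : PBd r) : PT ∅ fun a => rowW (P a) (R a) (e a) (r a) := by
  unfold rowW; fun_prop

theorem pt_ecost {u v : α → ℕ} (hP : PT ∅ P) (hR : PT ∅ fun p : α × Cell => R p.1 p.2)
    (he : PT ∅ e) (hU : PT ∅ fun p : α × Cell × Un => U p.1 p.2.1 p.2.2.v) (hr : PT ∅ r)
    (hr' : PBd r) (hu : PT ∅ u) (hv : PT ∅ v) :
    PT ∅ fun a => ecost (P a) (R a) (e a) (U a) (r a) (u a) (v a) := by
  unfold ecost
  exact PT.ite (by fun_prop) (PT.add (by fun_prop) (hU.comp (f := fun a =>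
    (a, tc (P a) (R a) (e a) (r a) (v a), Un.mk (ta (P a) (R a) (e a) (r a)))) (by fun_prop)))
    (by fun_prop)

variable {DD : α → ℕ → Cell → ℕ} {HH UU : α → ℕ → Cell → ℕ → ℕ}

@[fun_prop] theorem pt_picks (hP : PT ∅ P) (hT : PT ∅ T) (hT' : PBd T)
    (hR : PT ∅ fun p : α × Cell => R p.1 p.2)
    (hD : PT ∅ fun p : α × ℕ × Cell => DD p.1 p.2.1 p.2.2)
    (hH : PT ∅ fun p : α × ℕ × Cell × ℕ => HH p.1 p.2.1 p.2.2.1 p.2.2.2)
    (hU : PT ∅ fun p : α × ℕ × Cell × ℕ => UU p.1 p.2.1 p.2.2.1 p.2.2.2) (he : PT ∅ e) :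
    PT ∅ fun a => picks (P a) (T a) (R a) (DD a) (HH a) (UU a) (e a) := by
  unfold picks
  exact pt_lanes (by fun_prop) (by fun_prop)
    (pbd_two_pow hP fun a => by unfold Par.lN; omega) (by fun_prop) (by fun_prop) (by fun_prop)
    (by fun_prop) (by fun_prop) (by fun_prop) (by fun_prop) (by fun_prop) (by fun_prop)
    (by fun_prop) (by fun_prop)
    (pt_ecost (by fun_prop) (by fun_prop) (by fun_prop) (by fun_prop) (by fun_prop) (by fun_prop)
      (by fun_prop) (by fun_prop))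
    (pt_ecost (by fun_prop) (by fun_prop) (by fun_prop) (by fun_prop) (by fun_prop) (by fun_prop)
      (by fun_prop) (by fun_prop))

@[fun_prop] theorem pt_lanePath (hP : PT ∅ P) (hs : PT ∅ fun p : α × ℕ => sd p.1 p.2)
    (hT : PT ∅ T) (hT' : PBd T) (hR : PT ∅ fun p : α × Cell => R p.1 p.2)
    (hD : PT ∅ fun p : α × ℕ × Cell => DD p.1 p.2.1 p.2.2)
    (hH : PT ∅ fun p : α × ℕ × Cell × ℕ => HH p.1 p.2.1 p.2.2.1 p.2.2.2)
    (hU : PT ∅ fun p : α × ℕ × Cell × ℕ => UU p.1 p.2.1 p.2.2.1 p.2.2.2) (he : PT ∅ e) :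
    PT ∅ fun a => lanePath (P a) (sd a) (T a) (R a) (DD a) (HH a) (UU a) (e a) := by
  unfold lanePath; fun_prop

@[fun_prop] theorem pt_lane (hP : PT ∅ P) (hs : PT ∅ fun p : α × ℕ => sd p.1 p.2)
    (hT : PT ∅ T) (hT' : PBd T) (hR : PT ∅ fun p : α × Cell => R p.1 p.2)
    (hD : PT ∅ fun p : α × ℕ × Cell => DD p.1 p.2.1 p.2.2)
    (hH : PT ∅ fun p : α × ℕ × Cell × ℕ => HH p.1 p.2.1 p.2.2.1 p.2.2.2)
    (hU : PT ∅ fun p : α × ℕ × Cell × ℕ => UU p.1 p.2.1 p.2.2.1 p.2.2.2) (he : PT ∅ e) :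
    PT ∅ fun a => lane (P a) (sd a) (T a) (R a) (DD a) (HH a) (UU a) (e a) := by
  unfold lane
  exact pt_pcost (by fun_prop) (by fun_prop)
    (pt_ecost (by fun_prop) (by fun_prop) (by fun_prop) (by fun_prop) (by fun_prop) (by fun_prop)
      (by fun_prop) (by fun_prop)) (by fun_prop)

@[fun_prop] theorem pt_ubody (hP : PT ∅ P) (hs : PT ∅ fun p : α × ℕ => sd p.1 p.2)
    (hT : PT ∅ T) (hT' : PBd T) (hR : PT ∅ fun p : α × Cell => R p.1 p.2)
    (hD : PT ∅ fun p : α × ℕ × Cell => DD p.1 p.2.1 p.2.2)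
    (hH : PT ∅ fun p : α × ℕ × Cell × ℕ => HH p.1 p.2.1 p.2.2.1 p.2.2.2)
    (hU : PT ∅ fun p : α × ℕ × Cell × ℕ => UU p.1 p.2.1 p.2.2.1 p.2.2.2) (he : PT ∅ e)
    (hτ : PT ∅ τ) (hτ' : PBd τ) :
    PT ∅ fun a => ubody (P a) (sd a) (T a) (R a) (DD a) (HH a) (UU a) (e a) (τ a) := by
  unfold ubody
  exact PT.ite (by fun_prop) (by fun_prop)
    (PT.ite (pt_isTrue (by fun_prop)) (by fun_prop) (by fun_prop))

/-! ### The start values -/

variable {n b j i : α → ℕ} {A1 : α → ℕ → List ℕ} {A : α → ℕ → ℕ → ℕ → ℕ → List ℕ}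
  {cc : α → ℕ → ℕ → ℕ}

@[fun_prop] theorem pt_wid (hP : PT ∅ P) (hn : PT ∅ n) (hn' : PBd n) :
    PT ∅ fun a => wid (P a) (n a) := by unfold wid; fun_prop

@[fun_prop] theorem pt_res (hP : PT ∅ P) (hn : PT ∅ n) (hn' : PBd n) :
    PT ∅ fun a => res (P a) (n a) := by unfold res; fun_prop

@[fun_prop] theorem pt_tlen (hP : PT ∅ P) (hn : PT ∅ n) : PT ∅ fun a => tlen (P a) (n a) :=
  PT.pow (PT.const 2) (by fun_prop) (PBd_min_right (pbd_rs hP))

@[fun_prop] theorem pbd_tlen (hP : PT ∅ P) : PBd fun a => tlen (P a) (n a) :=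
  pbd_two_pow hP fun a => by
    unfold Par.lN Par.l1 Par.lnn Par.lG Par.la1 Par.la0 Par.rs; omega

@[fun_prop] theorem pt_fa (hP : PT ∅ P) (hA : PT ∅ fun p : α × ℕ => A1 p.1 p.2) (hn : PT ∅ n)
    (hn' : PBd n) (hr : PT ∅ r) : PT ∅ fun a => fa (P a) (A1 a) (n a) (r a) := by
  unfold fa; fun_prop

@[fun_prop] theorem pt_cands (hP : PT ∅ P) (hn : PT ∅ n) (hn' : PBd n) (hs : PT ∅ s) :
    PT ∅ fun a => cands (P a) (n a) (s a) := by unfold cands; fun_prop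

@[fun_prop] theorem pt_zh (hP : PT ∅ P) (hA : PT ∅ fun p : α × ℕ => A1 p.1 p.2) (hn : PT ∅ n)
    (hn' : PBd n) (hs : PT ∅ s) : PT ∅ fun a => zh (P a) (A1 a) (n a) (s a) := by
  unfold zh; fun_prop

@[fun_prop] theorem pt_tent (hn : PT ∅ n) (hn' : PBd n) (hr : PT ∅ r) (hs : PT ∅ s) :
    PT ∅ fun a => tent (n a) (r a) (s a) := by unfold tent; fun_prop

theorem pbd_arE (hP : PT ∅ P) : PBd fun a => (P a).lb * min (j a) (P a).ha :=
  (pbd_lb hP).mul (PBd_min_right (pbd_ha hP))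

@[fun_prop] theorem pt_ar (hP : PT ∅ P) (hj : PT ∅ j) : PT ∅ fun a => ar (P a) (j a) :=
  PT.pow (PT.const 2) (by fun_prop) (pbd_arE hP)

@[fun_prop] theorem pbd_ar (hP : PT ∅ P) : PBd fun a => ar (P a) (j a) :=
  pbd_two_pow hP fun a => by
    have := Nat.mul_le_mul_left (P a).lb (min_le_right (j a) (P a).ha)
    unfold Par.lN Par.nA; omega

@[fun_prop] theorem pt_abody (hP : PT ∅ P) (hs : PT ∅ fun p : α × ℕ => sd p.1 p.2)
    (hc : PT ∅ fun p : α × ℕ × ℕ => cc p.1 p.2.1 p.2.2)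
    (hA : PT ∅ fun p : α × ℕ × ℕ × ℕ × ℕ => A p.1 p.2.1 p.2.2.1 p.2.2.2.1 p.2.2.2.2)
    (hj : PT ∅ j) (hi : PT ∅ i) (hn : PT ∅ n) (hn' : PBd n) (hb : PT ∅ b) :
    PT ∅ fun a => abody (P a) (sd a) (cc a) (A a) (j a) (i a) (n a) (b a) := by
  unfold abody
  refine PT.map (by fun_prop) (PT.min (by fun_prop) (PT.ite (by fun_prop) (by fun_prop)
    (PT.div ?_ (by fun_prop))))
  exact pt_strat (by fun_prop) (by fun_prop) (pbd_nA2 (by fun_prop)) (by fun_prop) (by fun_prop)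
    (by fun_prop) (by fun_prop) (fun a => Nat.two_pow_pos _) (by fun_prop) (by fun_prop)

@[fun_prop] theorem pt_leafc {p q : α → ℕ} (hc : PT ∅ fun p : α × ℕ × ℕ => cc p.1 p.2.1 p.2.2)
    (hi : PT ∅ i) (hp : PT ∅ p) (hq : PT ∅ q) :
    PT ∅ fun a => leafc (cc a) (i a) (p a) (q a) := by unfold leafc; fun_prop

@[fun_prop] theorem pt_d0body (hP : PT ∅ P) (hc : PT ∅ fun p : α × ℕ × ℕ => cc p.1 p.2.1 p.2.2)
    (hA : PT ∅ fun p : α × ℕ × ℕ × ℕ × ℕ => A p.1 p.2.1 p.2.2.1 p.2.2.2.1 p.2.2.2.2)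
    (he : PT ∅ e) : PT ∅ fun a => d0body (P a) (cc a) (A a) (e a) := by
  simp only [d0body, filter_rangeU]
  refine PT.ite (by fun_prop) (by fun_prop) (PT_minD (PT.map (PT.filter (by fun_prop)
    (PT.le (PT.mul (PT.const 2) (pt_zh (by fun_prop) ?_ (by fun_prop) (by fun_prop) (by fun_prop)))
      (by fun_prop))) (by fun_prop)) (by fun_prop))
  exact hA.comp (f := fun p : (α × Un) × ℕ =>
    (p.1.1, (e p.1.1).j, (e p.1.1).i, (P p.1.1).a0 + p.1.2.v, p.2)) (by fun_prop)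

@[fun_prop] theorem pt_rootCell (hP : PT ∅ P) (hn : PT ∅ n) (hn' : PBd n) :
    PT ∅ fun a => rootCell (P a) (n a) := by unfold rootCell; fun_prop

@[fun_prop] theorem pt_outv (hP : PT ∅ P) (hD : PT ∅ fun p : α × Cell => D p.1 p.2) :
    PT ∅ fun a => outv (P a) (D a) := by
  simp only [outv, map_rangeU]
  fun_prop

@[fun_prop] theorem pt_blk (hP : PT ∅ P) (hs : PT ∅ fun p : α × ℕ => sd p.1 p.2) (hb : PT ∅ b)
    (hi : PT ∅ i) : PT ∅ fun a => blk (P a) (sd a) (b a) (i a) := by unfold blk; fun_prop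

@[fun_prop] theorem pt_bA (hj : PT ∅ j) : PT ∅ fun a => bA (j a) := by unfold bA; fun_prop

@[fun_prop] theorem pt_bR (hj : PT ∅ j) : PT ∅ fun a => bR (j a) := by unfold bR; fun_prop

@[fun_prop] theorem pt_bM (hj : PT ∅ j) (hi : PT ∅ i) : PT ∅ fun a => bM (j a) (i a) := by
  unfold bM; fun_prop

@[fun_prop] theorem pt_ref (hP : PT ∅ P) (hs : PT ∅ fun p : α × ℕ => sd p.1 p.2) (hb : PT ∅ b) :
    PT ∅ fun a => ref (P a) (sd a) (b a) := by unfold ref; fun_prop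

@[fun_prop] theorem pbd_ref (hP : PT ∅ P) (hb : PBd b) : PBd fun a => ref (P a) (sd a) (b a) := by
  refine PBd.mono (b := fun a => (b a - 1) * (P a).m + 1 + (P a).m) (by fun_prop) fun a => ?_
  exact Nat.add_le_add_left (Nat.mod_lt _ (Nat.two_pow_pos _)).le _

end Vale.Agent.P315Z.PtT
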