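import Vale.Agent.P315Z.Keys
import Vale.Agent.P315.Q.PairPT
import Vale.Agent.P315.H527.ParPT

/-! P315Z: polynomial time of fields, constructors, parameters and generic list functions. -/

set_option autoImplicit false

namespace Vale.Agent.P315Z.PtT

open Vale.Agent.Lib.PolyTime Vale.Agent.P315.H155

variable {α β γ : Type} [Enc α] [Enc β] [Enc γ]

theorem pt_reenc {f : α → β} (h : ∀ a, enc (f a) = enc a) : PT ∅ f := by
  obtain ⟨g, hg, h'⟩ := PT.id (A := ∅) (α := α)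
  exact ⟨g, hg, fun a => (h' a).trans (h a).symm⟩

/-! ### Fields -/

theorem cellT : PT ∅ fun c : Cell => ((⟨c.j⟩ : Un), c.i, (⟨c.ka⟩ : Un), c.x, c.p, c.q) :=
  pt_reenc fun _ => rfl

theorem keyT : PT ∅ fun k : Key => (k.tag, (⟨k.T⟩ : Un), k.c, (⟨k.ta⟩ : Un)) :=
  pt_reenc fun _ => rfl

theorem parT : PT ∅ fun P : Par => ((⟨P.NS⟩ : Un), P.lx, P.ly,
    ([⟨P.lb⟩, ⟨P.k⟩, ⟨P.lg⟩, ⟨P.lc⟩, ⟨P.lK⟩, ⟨P.lS⟩, ⟨P.lm⟩, ⟨P.ne⟩, ⟨P.hA⟩, ⟨P.dl⟩, ⟨P.le⟩,
      ⟨P.lA⟩] : List Un)) :=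
  pt_reenc fun _ => rfl

section cell
variable {c : α → Cell} (hc : PT ∅ c)
include hc

@[fun_prop] theorem pt_j : PT ∅ fun a => (c a).j := (cellT.comp hc).fst.unVal
@[fun_prop] theorem pbd_j : PBd fun a => (c a).j := PBd.unVal (cellT.comp hc).fst
@[fun_prop] theorem pt_i : PT ∅ fun a => (c a).i := (cellT.comp hc).snd.fst
@[fun_prop] theorem pt_ka : PT ∅ fun a => (c a).ka := (cellT.comp hc).snd.snd.fst.unVal
@[fun_prop] theorem pbd_ka : PBd fun a => (c a).ka := PBd.unVal (cellT.comp hc).snd.snd.fst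
@[fun_prop] theorem pt_x : PT ∅ fun a => (c a).x := (cellT.comp hc).snd.snd.snd.fst
@[fun_prop] theorem pt_p : PT ∅ fun a => (c a).p := (cellT.comp hc).snd.snd.snd.snd.fst
@[fun_prop] theorem pt_q : PT ∅ fun a => (c a).q := (cellT.comp hc).snd.snd.snd.snd.snd
end cell

@[fun_prop] theorem pt_cell {j i ka x p q : α → ℕ} (hj : PT ∅ j) (hj' : PBd j) (hi : PT ∅ i)
    (hk : PT ∅ ka) (hk' : PBd ka) (hx : PT ∅ x) (hp : PT ∅ p) (hq : PT ∅ q) :
    PT ∅ fun a => Cell.mk (j a) (i a) (ka a) (x a) (p a) (q a) :=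
  (pt_reenc (f := fun t : Un × ℕ × Un × ℕ × ℕ × ℕ =>
    Cell.mk t.1.v t.2.1 t.2.2.1.v t.2.2.2.1 t.2.2.2.2.1 t.2.2.2.2.2) fun _ => rfl).comp
    ((hj.mkUn hj').pair (hi.pair ((hk.mkUn hk').pair (hx.pair (hp.pair hq)))))

section key
variable {k : α → Key} (hk : PT ∅ k)
include hk

@[fun_prop] theorem pt_tag : PT ∅ fun a => (k a).tag := (keyT.comp hk).fst
@[fun_prop] theorem pt_T : PT ∅ fun a => (k a).T := (keyT.comp hk).snd.fst.unVal
@[fun_prop] theorem pbd_T : PBd fun a => (k a).T := PBd.unVal (keyT.comp hk).snd.fst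
@[fun_prop] theorem pt_c : PT ∅ fun a => (k a).c := (keyT.comp hk).snd.snd.fst
@[fun_prop] theorem pt_kta : PT ∅ fun a => (k a).ta := (keyT.comp hk).snd.snd.snd.unVal
@[fun_prop] theorem pbd_kta : PBd fun a => (k a).ta := PBd.unVal (keyT.comp hk).snd.snd.snd
end key

@[fun_prop] theorem pt_key {g T τ : α → ℕ} {c : α → Cell} (hg : PT ∅ g) (hT : PT ∅ T)
    (hT' : PBd T) (hc : PT ∅ c) (hτ : PT ∅ τ) (hτ' : PBd τ) :
    PT ∅ fun a => Key.mk (g a) (T a) (c a) (τ a) :=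
  (pt_reenc (f := fun t : ℕ × Un × Cell × Un => Key.mk t.1 t.2.1.v t.2.2.1 t.2.2.2.v)
    fun _ => rfl).comp (hg.pair ((hT.mkUn hT').pair (hc.pair (hτ.mkUn hτ'))))

theorem cell_eq (c c' : Cell) : c = c' ↔ c.j = c'.j ∧ c.i = c'.i ∧ c.ka = c'.ka ∧ c.x = c'.x ∧
    c.p = c'.p ∧ c.q = c'.q := by
  cases c; cases c'; simp

theorem key_eq (k k' : Key) : k = k' ↔ k.tag = k'.tag ∧ k.T = k'.T ∧ k.ta = k'.ta ∧
    k.c.j = k'.c.j ∧ k.c.i = k'.c.i ∧ k.c.ka = k'.c.ka ∧ k.c.x = k'.c.x ∧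
    k.c.p = k'.c.p ∧ k.c.q = k'.c.q := by
  rw [← cell_eq]
  cases k; cases k'; simp; tauto

theorem pt_cellEq : PT ∅ fun p : Cell × Cell => decide (p.1 = p.2) :=
  PT.congr (f := fun p : Cell × Cell => decide (p.1.j = p.2.j ∧ p.1.i = p.2.i ∧ p.1.ka = p.2.ka ∧
    p.1.x = p.2.x ∧ p.1.p = p.2.p ∧ p.1.q = p.2.q)) (by fun_prop)
    fun p => decide_eq_decide.2 (cell_eq _ _).symm

theorem pt_keyEq : PT ∅ fun p : Key × Key => decide (p.1 = p.2) :=
  PT.congr (f := fun p : Key × Key => decide (p.1.tag = p.2.tag ∧ p.1.T = p.2.T ∧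
    p.1.ta = p.2.ta ∧ p.1.c.j = p.2.c.j ∧ p.1.c.i = p.2.c.i ∧ p.1.c.ka = p.2.c.ka ∧
    p.1.c.x = p.2.c.x ∧ p.1.c.p = p.2.c.p ∧ p.1.c.q = p.2.c.q)) (by fun_prop)
    fun p => decide_eq_decide.2 (key_eq _ _).symm

@[fun_prop] theorem pbd_succ' {f : α → ℕ} (hf : PBd f) : PBd fun a => (f a).succ :=
  hf.add (PBd.const 1)

section par
variable {P : α → Par} (hP : PT ∅ P)
include hP

theorem parU (n : ℕ) : PT ∅ fun a => ([⟨(P a).lb⟩, ⟨(P a).k⟩, ⟨(P a).lg⟩, ⟨(P a).lc⟩, ⟨(P a).lK⟩,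
    ⟨(P a).lS⟩, ⟨(P a).lm⟩, ⟨(P a).ne⟩, ⟨(P a).hA⟩, ⟨(P a).dl⟩, ⟨(P a).le⟩,
    ⟨(P a).lA⟩] : List Un).getD n ⟨0⟩ :=
  PT.getD (parT.comp hP).snd.snd.snd (PT.const n) (PT.const _)

@[fun_prop] theorem pt_NS : PT ∅ fun a => (P a).NS := (parT.comp hP).fst.unVal
@[fun_prop] theorem pbd_NS : PBd fun a => (P a).NS := PBd.unVal (parT.comp hP).fst
@[fun_prop] theorem pt_lx : PT ∅ fun a => (P a).lx := (parT.comp hP).snd.fst
@[fun_prop] theorem pt_ly : PT ∅ fun a => (P a).ly := (parT.comp hP).snd.snd.fst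
@[fun_prop] theorem pt_lb : PT ∅ fun a => (P a).lb := (parU hP 0).unVal
@[fun_prop] theorem pbd_lb : PBd fun a => (P a).lb := PBd.unVal (parU hP 0)
@[fun_prop] theorem pt_k : PT ∅ fun a => (P a).k := (parU hP 1).unVal
@[fun_prop] theorem pbd_k : PBd fun a => (P a).k := PBd.unVal (parU hP 1)
@[fun_prop] theorem pt_lg : PT ∅ fun a => (P a).lg := (parU hP 2).unVal
@[fun_prop] theorem pbd_lg : PBd fun a => (P a).lg := PBd.unVal (parU hP 2)
@[fun_prop] theorem pt_lc : PT ∅ fun a => (P a).lc := (parU hP 3).unVal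
@[fun_prop] theorem pbd_lc : PBd fun a => (P a).lc := PBd.unVal (parU hP 3)
@[fun_prop] theorem pt_lK : PT ∅ fun a => (P a).lK := (parU hP 4).unVal
@[fun_prop] theorem pbd_lK : PBd fun a => (P a).lK := PBd.unVal (parU hP 4)
@[fun_prop] theorem pt_lS : PT ∅ fun a => (P a).lS := (parU hP 5).unVal
@[fun_prop] theorem pbd_lS : PBd fun a => (P a).lS := PBd.unVal (parU hP 5)
@[fun_prop] theorem pt_lm : PT ∅ fun a => (P a).lm := (parU hP 6).unVal
@[fun_prop] theorem pbd_lm : PBd fun a => (P a).lm := PBd.unVal (parU hP 6)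
@[fun_prop] theorem pt_ne : PT ∅ fun a => (P a).ne := (parU hP 7).unVal
@[fun_prop] theorem pbd_ne : PBd fun a => (P a).ne := PBd.unVal (parU hP 7)
@[fun_prop] theorem pt_hA : PT ∅ fun a => (P a).hA := (parU hP 8).unVal
@[fun_prop] theorem pbd_hA : PBd fun a => (P a).hA := PBd.unVal (parU hP 8)
@[fun_prop] theorem pt_dl : PT ∅ fun a => (P a).dl := (parU hP 9).unVal
@[fun_prop] theorem pbd_dl : PBd fun a => (P a).dl := PBd.unVal (parU hP 9)
@[fun_prop] theorem pt_le : PT ∅ fun a => (P a).le := (parU hP 10).unVal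
@[fun_prop] theorem pbd_le : PBd fun a => (P a).le := PBd.unVal (parU hP 10)

@[fun_prop] theorem pt_lA : PT ∅ fun a => (P a).lA := (parU hP 11).unVal
@[fun_prop] theorem pbd_lA : PBd fun a => (P a).lA := PBd.unVal (parU hP 11)

@[fun_prop] theorem pt_h : PT ∅ fun a => (P a).h := by unfold Par.h; fun_prop
@[fun_prop] theorem pbd_h : PBd fun a => (P a).h := by unfold Par.h; fun_prop
@[fun_prop] theorem pt_h2 : PT ∅ fun a => (P a).h2 := by unfold Par.h2; fun_prop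
@[fun_prop] theorem pbd_h2 : PBd fun a => (P a).h2 := by unfold Par.h2; fun_prop
@[fun_prop] theorem pt_h3 : PT ∅ fun a => (P a).h3 := by unfold Par.h3; fun_prop
@[fun_prop] theorem pbd_h3 : PBd fun a => (P a).h3 := by unfold Par.h3; fun_prop
@[fun_prop] theorem pt_ha : PT ∅ fun a => (P a).ha := by unfold Par.ha; fun_prop
@[fun_prop] theorem pbd_ha : PBd fun a => (P a).ha := by unfold Par.ha; fun_prop
@[fun_prop] theorem pt_la0 : PT ∅ fun a => (P a).la0 := by unfold Par.la0; fun_prop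
@[fun_prop] theorem pbd_la0 : PBd fun a => (P a).la0 := by unfold Par.la0; fun_prop
@[fun_prop] theorem pt_la1 : PT ∅ fun a => (P a).la1 := by unfold Par.la1; fun_prop
@[fun_prop] theorem pbd_la1 : PBd fun a => (P a).la1 := by unfold Par.la1; fun_prop
@[fun_prop] theorem pt_lG : PT ∅ fun a => (P a).lG := by unfold Par.lG; fun_prop
@[fun_prop] theorem pbd_lG : PBd fun a => (P a).lG := by unfold Par.lG; fun_prop
@[fun_prop] theorem pt_lnn : PT ∅ fun a => (P a).lnn := by unfold Par.lnn; fun_prop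
@[fun_prop] theorem pbd_lnn : PBd fun a => (P a).lnn := by unfold Par.lnn; fun_prop
@[fun_prop] theorem pt_l1 : PT ∅ fun a => (P a).l1 := by unfold Par.l1; fun_prop
@[fun_prop] theorem pbd_l1 : PBd fun a => (P a).l1 := by unfold Par.l1; fun_prop
@[fun_prop] theorem pt_rs : PT ∅ fun a => (P a).rs := by unfold Par.rs; fun_prop
@[fun_prop] theorem pbd_rs : PBd fun a => (P a).rs := by unfold Par.rs; fun_prop
@[fun_prop] theorem pt_LA : PT ∅ fun a => (P a).LA := by unfold Par.LA; fun_prop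
@[fun_prop] theorem pbd_LA : PBd fun a => (P a).LA := by unfold Par.LA; fun_prop
@[fun_prop] theorem pt_a0 : PT ∅ fun a => (P a).a0 := by unfold Par.a0; fun_prop
@[fun_prop] theorem pbd_a0 : PBd fun a => (P a).a0 := by unfold Par.a0; fun_prop
@[fun_prop] theorem pt_am : PT ∅ fun a => (P a).am := by unfold Par.am; fun_prop
@[fun_prop] theorem pbd_am : PBd fun a => (P a).am := by unfold Par.am; fun_prop
@[fun_prop] theorem pt_km : PT ∅ fun a => (P a).km := by unfold Par.km; fun_prop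
@[fun_prop] theorem pbd_km : PBd fun a => (P a).km := by unfold Par.km; fun_prop
@[fun_prop] theorem pt_nH : PT ∅ fun a => (P a).nH := by unfold Par.nH; fun_prop
@[fun_prop] theorem pbd_nH : PBd fun a => (P a).nH := by unfold Par.nH; fun_prop
@[fun_prop] theorem pt_nA : PT ∅ fun a => (P a).nA := by unfold Par.nA; fun_prop
@[fun_prop] theorem pbd_nA : PBd fun a => (P a).nA := by unfold Par.nA; fun_prop
@[fun_prop] theorem pt_B : PT ∅ fun a => (P a).B := by unfold Par.B; fun_prop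
@[fun_prop] theorem pt_BK : PT ∅ fun a => (P a).BK := by unfold Par.BK; fun_prop
@[fun_prop] theorem pt_m : PT ∅ fun a => (P a).m := by unfold Par.m; fun_prop
@[fun_prop] theorem pt_gd : PT ∅ fun a => (P a).gd := by unfold Par.gd; fun_prop
@[fun_prop] theorem pt_capd : PT ∅ fun a => (P a).capd := by unfold Par.capd; fun_prop
@[fun_prop] theorem pt_s0 : PT ∅ fun a => (P a).s0 := by unfold Par.s0; fun_prop
@[fun_prop] theorem pt_s1 : PT ∅ fun a => (P a).s1 := by unfold Par.s1; fun_prop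

theorem pbd_two_pow {n : α → ℕ} (h : ∀ a, n a ≤ (P a).lN) : PBd fun a => 2 ^ n a :=
  (pbd_NS hP).mono fun a => Nat.pow_le_pow_right two_pos (h a)

@[fun_prop] theorem pbd_B : PBd fun a => (P a).B :=
  pbd_two_pow hP fun a => by unfold Par.lN Par.nH; omega
@[fun_prop] theorem pbd_m : PBd fun a => (P a).m :=
  pbd_two_pow hP fun a => by unfold Par.lN Par.l1; omega
@[fun_prop] theorem pt_Tend : PT ∅ fun a => (P a).Tend := by unfold Par.Tend; fun_prop
@[fun_prop] theorem pbd_Tend : PBd fun a => (P a).Tend := by unfold Par.Tend; fun_prop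
@[fun_prop] theorem pt_ep {T : α → ℕ} (hT : PT ∅ T) : PT ∅ fun a => (P a).ep (T a) := by
  unfold Par.ep; fun_prop
end par

@[fun_prop] theorem pbd_ep {P : α → Par} {T : α → ℕ} (hT : PBd T) :
    PBd fun a => (P a).ep (T a) := by
  unfold Par.ep; fun_prop

/-! ### Numbers -/

@[fun_prop] theorem pt_dist {f g : α → ℕ} (hf : PT ∅ f) (hg : PT ∅ g) :
    PT ∅ fun a => Nat.dist (f a) (g a) := by unfold Nat.dist; fun_prop

@[fun_prop] theorem pt_pair {f g : α → ℕ} (hf : PT ∅ f) (hg : PT ∅ g) :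
    PT ∅ fun a => Nat.pair (f a) (g a) := Vale.Agent.P315.Q.PT_natPair hf hg

/-- The remainder modulo a small number, as a unary index. -/
def modU (n b : ℕ) : ℕ := min (n % b) b

theorem modU_eq {n b : ℕ} (hb : 0 < b) : n % b = modU n b :=
  (min_eq_left (Nat.mod_lt _ hb).le).symm

@[fun_prop] theorem pt_modU {f g : α → ℕ} (hf : PT ∅ f) (hg : PT ∅ g) :
    PT ∅ fun a => modU (f a) (g a) := by unfold modU; fun_prop

@[fun_prop] theorem pbd_modU {f g : α → ℕ} (hg : PBd g) : PBd fun a => modU (f a) (g a) :=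
  PBd_min_right hg

/-! ### Ranges with a unary index -/

/-- The unary numbers below `n`. -/
def rangeU (n : ℕ) : List Un := (List.range n).map Un.mk

@[fun_prop] theorem pt_rangeU {n : α → ℕ} (hn : PT ∅ n) (hn' : PBd n) :
    PT ∅ fun a => rangeU (n a) := by
  refine PT.congr (f := fun a => (List.range (n a)).map fun i => Un.mk (min i (n a)))
    (PT.map (hn.range hn') (PT.mkUn (by fun_prop) (PBd_min_right (by fun_prop)))) fun a => ?_
  exact List.map_congr_left fun i hi => by rw [min_eq_left (List.mem_range.1 hi).le]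

omit [Enc β] in
theorem map_rangeU (n : ℕ) (f : ℕ → β) :
    (List.range n).map f = (rangeU n).map fun u => f u.v := by
  rw [rangeU, List.map_map]; rfl

omit [Enc β] in
theorem flatMap_rangeU (n : ℕ) (f : ℕ → List β) :
    (List.range n).flatMap f = (rangeU n).flatMap fun u => f u.v := by
  rw [rangeU, List.flatMap_map]

theorem all_rangeU (n : ℕ) (f : ℕ → Bool) :
    (List.range n).all f = (rangeU n).all fun u => f u.v := by
  rw [rangeU, List.all_map]; rfl

omit [Enc β] in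
theorem filter_rangeU (n : ℕ) (p : ℕ → Bool) (f : ℕ → β) :
    ((List.range n).filter p).map f = ((rangeU n).filter fun u => p u.v).map fun u => f u.v := by
  rw [rangeU, List.filter_map, List.map_map]; rfl

/-- Second components in unary. -/
theorem pt_toU {l : α → List (β × ℕ)} {lu : α → List Un} (hl : PT ∅ l) (hu : PT ∅ lu)
    (h : ∀ a, ∀ b ∈ l a, Un.mk b.2 ∈ lu a) :
    PT ∅ fun a => (l a).map fun b => (b.1, Un.mk b.2) := by
  refine PT.congr (f := fun a => (l a).map fun b => (b.1, Un.mk (min b.2 (esize (lu a)))))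
    (PT.map hl (PT.pair (by fun_prop) (PT.mkUn (by fun_prop) (PBd_min_right (by fun_prop)))))
    fun a => ?_
  refine List.map_congr_left fun b hb => ?_
  have := esize_le_of_mem (h a b hb)
  rw [esize_un] at this
  rw [min_eq_left this]

/-! ### Lists -/

@[fun_prop] theorem pt_minL {l : α → List ℕ} (hl : PT ∅ l) : PT ∅ fun a => minL (l a) := by
  unfold minL; fun_prop

@[fun_prop] theorem pt_argL {l : α → List β} {d : α → β} {f : α → β → ℕ} (hl : PT ∅ l)
    (hd : PT ∅ d) (hf : PT ∅ fun p : α × β => f p.1 p.2) :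
    PT ∅ fun a => argL (l a) (d a) (f a) := by
  unfold argL; fun_prop

theorem pt_dedup [DecidableEq β] (heq : PT ∅ fun p : β × β => decide (p.1 = p.2))
    {l : α → List β} (hl : PT ∅ l) : PT ∅ fun a => (l a).dedup := by
  have e : ∀ l : List β, l.dedup = l.foldr (fun x r => if x ∈ r then r else x :: r) [] := by
    intro l
    induction l with
    | nil => rfl
    | cons x l ih =>
      rw [List.foldr_cons, ← ih]
      split_ifs with h
      · exact List.dedup_cons_of_mem' h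
      · exact List.dedup_cons_of_notMem' h
  refine PT.congr (PT.foldr (f := fun _ x r => if x ∈ r then r else x :: r) hl (PT.const [])
    (PT.ite (PT.mem' heq (by fun_prop) (by fun_prop)) (by fun_prop) (by fun_prop)) hl.pbd
    fun a i => ?_) fun a => (e _).symm
  rw [← e]
  exact esize_le_of_sublist ((List.dedup_sublist _).trans (List.drop_sublist _ _))

theorem foldl_max_le (l : List ℕ) (d : ℕ) : l.foldl max d ≤ d + l.sum := by
  induction l generalizing d with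
  | nil => simp
  | cons x l ih =>
    rw [List.foldl_cons, List.sum_cons]
    have := ih (max d x)
    omega

theorem pt_foldMax {l : α → List ℕ} (hl : PT ∅ l) : PT ∅ fun a => (l a).foldl max 1 := by
  refine PT.foldl (f := fun _ x y => max x y) hl (PT.const 1) (by fun_prop)
    (b := fun a => esize (l a) + 2) (by fun_prop) fun a i => ?_
  refine (esize_nat_mono (foldl_max_le _ 1)).trans ((esize_nat_add_le _ _).trans ?_)
  have h1 := (esize_sum_le ((l a).take i)).trans (esize_take_le i (l a))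
  have h2 : esize (1 : ℕ) ≤ 1 := esize_nat_le_self 1
  omega

@[fun_prop] theorem pt_ev {tab : α → List (ℕ × ℕ)} {s : α → ℕ} (ht : PT ∅ tab) (hs : PT ∅ s) :
    PT ∅ fun a => ev (tab a) (s a) := by unfold ev; fun_prop

theorem minL_le_of {l : List ℕ} {M : ℕ} (h : ∀ x ∈ l, x ≤ M) : minL l ≤ M := by
  refine (minD_le_default _ _).trans ?_
  cases l with
  | nil => simp
  | cons x l => exact h x (by simp)

theorem dp_bound (M : ℕ) (rows : List (List (ℕ × ℕ × ℕ)))
    (h : ∀ r ∈ rows, r.length ≤ M ∧ ∀ c ∈ r, c.1 ≤ 2 ^ M ∧ c.2.1 ≤ 2 ^ M ∧ c.2.2 ≤ 2 ^ M)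
    (tab : List (ℕ × ℕ)) (n : ℕ)
    (ht : tab.length ≤ M + 1 ∧ ∀ a ∈ tab, a.1 ≤ 2 ^ M ∧ a.2 ≤ n * (3 * 2 ^ M)) :
    (rows.foldl dpStep tab).length ≤ M + 1 ∧ ∀ a ∈ rows.foldl dpStep tab,
      a.1 ≤ 2 ^ M ∧ a.2 ≤ (n + rows.length) * (3 * 2 ^ M) := by
  induction rows generalizing tab n with
  | nil => simpa using ht
  | cons r rows ih =>
    rw [List.foldl_cons, List.length_cons, ← add_assoc, add_right_comm]
    have hr := h r (by simp)
    refine ih (fun r' hr' => h r' (by simp [hr'])) _ _ ⟨?_, fun a ha => ?_⟩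
    · unfold dpStep; rw [List.length_map]; omega
    · obtain ⟨c, hc, rfl⟩ := List.mem_map.1 ha
      obtain ⟨h1, h2, h3⟩ := hr.2 c hc
      refine ⟨h2, ?_⟩
      have : ev tab c.1 ≤ n * (3 * 2 ^ M) + 2 * 2 ^ M := minL_le_of fun x hx => by
        obtain ⟨b, hb, rfl⟩ := List.mem_map.1 hx
        have := ht.2 b hb
        unfold Nat.dist
        omega
      simp only [add_mul]
      omega

@[fun_prop] theorem pt_dpTab {p : α → ℕ} {rows : α → List (List (ℕ × ℕ × ℕ))} (hp : PT ∅ p)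
    (hr : PT ∅ rows) : PT ∅ fun a => dpTab (p a) (rows a) := by
  unfold dpTab
  refine PT.foldl (f := fun _ tab row => dpStep tab row) hr (by fun_prop)
    (by unfold dpStep; fun_prop)
    (b := fun a => (esize (p a, rows a) + 1) * (2 * (4 * esize (p a, rows a) + 10) + 1))
    (by fun_prop) fun a i => ?_
  have e1 : esize (p a) ≤ esize (p a, rows a) := esize_fst_le (p a, rows a)
  have e2 : esize (rows a) ≤ esize (p a, rows a) := esize_snd_le (p a, rows a)
  generalize esize (p a, rows a) = M at *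
  have hlt : ∀ x : ℕ, esize x ≤ M → x ≤ 2 ^ M := fun x hx =>
    (lt_two_pow_esize x).le.trans (Nat.pow_le_pow_right two_pos hx)
  obtain ⟨h1, h2⟩ := dp_bound M ((rows a).take i) (fun r hr => by
    have h3 := (esize_le_of_mem (List.mem_of_mem_take hr)).trans e2
    refine ⟨(length_le_esize r).trans h3, fun c hc => ?_⟩
    have h4 := (esize_le_of_mem hc).trans h3
    exact ⟨hlt _ ((esize_fst_le c).trans h4),
      hlt _ ((esize_fst_le c.2).trans ((esize_snd_le c).trans h4)),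
      hlt _ ((esize_snd_le c.2).trans ((esize_snd_le c).trans h4))⟩) [(p a, 0)] 0
    ⟨by simp, fun b hb => by
      rw [List.mem_singleton.1 hb]
      exact ⟨hlt _ e1, Nat.zero_le _⟩⟩
  refine (esize_list_le (B := 4 * M + 10) fun b hb => ?_).trans (Nat.mul_le_mul_right _ h1)
  obtain ⟨h3, h4⟩ := h2 b hb
  have h5 : ((rows a).take i).length ≤ M :=
    (List.length_take_le' _ _).trans ((length_le_esize _).trans e2)
  have h6 : esize b.1 ≤ M + 1 := esize_nat_le (h3.trans_lt (Nat.pow_lt_pow_right one_lt_two (by omega)))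
  have h7 : esize b.2 ≤ 2 * M + 2 := by
    refine esize_nat_le (h4.trans_lt ?_)
    have h8 : M < 2 ^ M := Nat.lt_two_pow_self
    rw [show 2 ^ (2 * M + 2) = 2 ^ M * (4 * 2 ^ M) by ring]
    have h9 : 0 < 2 ^ M := Nat.two_pow_pos _
    nlinarith
  rw [show b = (b.1, b.2) from rfl, esize_pair]
  omega

@[fun_prop] theorem pt_pcost {rows : α → ℕ} {f : α → ℕ → ℕ → ℕ → ℕ} {g : α → ℕ → ℕ}
    (hr : PT ∅ rows) (hr' : PBd rows)
    (hf : PT ∅ fun p : α × Un × ℕ × ℕ => f p.1 p.2.1.v p.2.2.1 p.2.2.2)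
    (hg : PT ∅ fun p : α × ℕ => g p.1 p.2) : PT ∅ fun a => pcost (rows a) (f a) (g a) := by
  simp only [pcost, map_rangeU]
  exact PT.sum (PT.map (by fun_prop) (hf.comp
    (f := fun p : α × Un => (p.1, p.2, g p.1 p.2.v, g p.1 (p.2.v + 1))) (by fun_prop)))

theorem pt_tab3 {rows nn : α → ℕ} {f : α → ℕ → ℕ → ℕ → ℕ}
    (hr : PT ∅ rows) (hr' : PBd rows) (hn : PT ∅ nn) (hn' : PBd nn)
    (hf : PT ∅ fun p : α × Un × ℕ × ℕ => f p.1 p.2.1.v p.2.2.1 p.2.2.2) :
    PT ∅ fun a => tab3 (rows a) (nn a) (f a) := by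
  unfold tab3
  refine PT.congr (f := fun a => (rangeU (rows a)).map fun r => (List.range (nn a)).map fun u =>
    (List.range (nn a)).map fun v => f a r.v u v) ?_ fun a => by rw [map_rangeU (rows a)]
  refine PT.map (by fun_prop) (PT.map (by fun_prop) (PT.map (by fun_prop) ?_))
  exact hf.comp (f := fun p : ((α × Un) × ℕ) × ℕ => (p.1.1.1, p.1.1.2, p.1.2, p.2)) (by fun_prop)

theorem pt_lanes {l1 rows nn c0 capd gd Am t : α → ℕ} {W : α → ℕ → ℕ}
    {M U : α → ℕ → ℕ → ℕ → ℕ → ℕ} (h1 : PT ∅ l1) (h1' : PBd l1) (h1'' : PBd fun a => 2 ^ (4 * l1 a))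
    (hr : PT ∅ rows) (hr' : PBd rows) (hn : PT ∅ nn) (hn' : PBd nn) (hc : PT ∅ c0)
    (hcap : PT ∅ capd) (hg : PT ∅ gd) (hAm : PT ∅ Am) (ht : PT ∅ t) (ht' : PBd t)
    (hW : PT ∅ fun p : α × Un => W p.1 p.2.v)
    (hM : PT ∅ fun p : α × ℕ × Un × ℕ × ℕ => M p.1 p.2.1 p.2.2.1.v p.2.2.2.1 p.2.2.2.2)
    (hU : PT ∅ fun p : α × ℕ × Un × ℕ × ℕ => U p.1 p.2.1 p.2.2.1.v p.2.2.2.1 p.2.2.2.2) :
    PT ∅ fun a => lanes (l1 a) (rows a) (nn a) (c0 a) (capd a) (gd a) (Am a) (W a) (M a) (U a)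
      (t a) := by
  unfold lanes
  refine Vale.Agent.P315.H763.pt_picksW (by fun_prop) (by fun_prop) (by fun_prop) h1'' hAm
    (PT.const 0) (PT.const 0) (by fun_prop) h1'' (pt_tab3 hr hr' hn hn' ?_)
    (pt_tab3 hr hr' hn hn' (hW.comp (f := fun p : α × Un × ℕ × ℕ => (p.1, p.2.1)) (by fun_prop)))
  refine PT.mul (by fun_prop) (PT.add (PT.mul (by fun_prop) (hM.comp
    (f := fun p : α × Un × ℕ × ℕ => (p.1, t p.1, p.2)) (by fun_prop))) (PT.sum (PT.map (by fun_prop)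
      (PT.add (hM.comp (f := fun p : (α × Un × ℕ × ℕ) × ℕ => (p.1.1, p.2, p.1.2)) (by fun_prop))
        (PT.mul (by fun_prop) (hU.comp
          (f := fun p : (α × Un × ℕ × ℕ) × ℕ => (p.1.1, p.2, p.1.2)) (by fun_prop)))))))

theorem pt_strat {n L B : α → ℕ} {sd : α → ℕ → ℕ} {y : α → ℕ → ℕ → ℕ} (hn : PT ∅ n)
    (hn' : PBd n) (hn'' : PBd fun a => 2 ^ n a) (hL : PT ∅ L) (hL' : PBd L) (hB : PT ∅ B)
    (hB' : PBd B) (hB0 : ∀ a, 0 < B a) (hs : PT ∅ fun p : α × ℕ => sd p.1 p.2)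
    (hy : PT ∅ fun p : α × Un × Un => y p.1 p.2.1.v p.2.2.v) :
    PT ∅ fun a => strat (n a) (L a) (B a) (sd a) (y a) := by
  refine PT.congr (f := fun a => ((List.range (2 ^ n a)).map fun i => ((rangeU (L a)).map fun l =>
    if i * 2 ^ l.v < 2 ^ n a then 2 ^ l.v * y a l.v (modU (sd a i) (B a)) else 0).sum).sum) ?_
    fun a => by simp only [strat, modU_eq (hB0 a), map_rangeU (L a)]
  refine PT.sum (PT.map (PT.range (by fun_prop) hn'') (PT.sum (PT.map (by fun_prop)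
    (PT.ite (by fun_prop) (PT.mul (by fun_prop) ?_) (PT.const 0)))))
  exact hy.comp (f := fun p : (α × ℕ) × Un =>
    (p.1.1, p.2, Un.mk (modU (sd p.1.1 p.1.2) (B p.1.1)))) (by fun_prop)

/-! ### Lookups -/

theorem pt_look {l : α → List (Key × List ℕ)} (hl : PT ∅ l) {g T τ j i ka x p q : α → ℕ}
    (hg : PT ∅ g) (hT : PT ∅ T) (hτ : PT ∅ τ) (hj : PT ∅ j) (hi : PT ∅ i) (hk : PT ∅ ka)
    (hx : PT ∅ x) (hp : PT ∅ p) (hq : PT ∅ q) :
    PT ∅ fun a => look (l a) ⟨g a, T a, ⟨j a, i a, ka a, x a, p a, q a⟩, τ a⟩ := by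
  refine PT.congr (f := fun a => (((l a).find? fun s => decide (s.1.tag = g a ∧ s.1.T = T a ∧
    s.1.ta = τ a ∧ s.1.c.j = j a ∧ s.1.c.i = i a ∧ s.1.c.ka = ka a ∧ s.1.c.x = x a ∧
    s.1.c.p = p a ∧ s.1.c.q = q a)).map fun s => s.2).getD []) (by fun_prop) fun a => ?_
  unfold look
  simp only [key_eq]

end Vale.Agent.P315Z.PtT
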